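import Vale.Agent.P207Z.Bun
import Vale.Agent.P207Z.Geo.Defs

/-!
# P207: extensions of a subbundle of class S along the leaves (blocks REAL and EQ)
-/

set_option linter.all false

open Set Filter Topology Metric MeasureTheory
open scoped ContDiff

noncomputable section

namespace Vale.Agent.P207Z

variable {Γ X B E V : Type} [Group Γ] [Countable Γ] [MetricSpace X] [ProperSpace X]
  [MulAction Γ X] [IsIsometricSMul Γ X] [MeasurableSpace X] [BorelSpace X]
  [TopologicalSpace B] [CompactSpace B] [T2Space B] [SecondCountableTopology B] [MulAction Γ B]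
  [ContinuousConstSMul Γ B] [MeasurableSpace B] [BorelSpace B]
  [NormedAddCommGroup E] [InnerProductSpace ℝ E] [FiniteDimensional ℝ E]
  [NormedAddCommGroup V] [NormedSpace ℝ V] [FiniteDimensional ℝ V]
  {F : Type} [NormedAddCommGroup F] [NormedSpace ℝ F] [FiniteDimensional ℝ F]
  {S : Sys Γ X B E V} {𝔉 : Bun S F}

/-- a field of projections of class `C^k` near `z` -/
def Idm (k : WithTop ℕ∞) (P : V → F →L[ℝ] F) (z : V) : Prop :=
  ∀ᶠ q in 𝓝 z, ContDiffAt ℝ k P q ∧ P q * P q = P q

namespace SSub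

variable (W : SSub 𝔉)

/-- `P`, in the chart of `x`, has the `k`-jet of `W` at the point `pt y` -/
def At (k : ℕ) (x : X) (P : V → F →L[ℝ] F) (y : X) : Prop :=
  Eqv k (𝔉.pull y x (cmp P)) (cmp (W.J k y))

/-- `P` extends `W` along the `U`-leaf of `x`, near the centre -/
def UExt (k : ℕ) (x : X) (P : V → F →L[ℝ] F) : Prop :=
  Idm k P 0 ∧ ∃ ρ > 0, S.AlongU x ρ (W.At k x P)

/-- `P` extends `W` along the `S`-leaf of `x`, near the centre -/
def SExt (k : ℕ) (x : X) (P : V → F →L[ℝ] F) : Prop :=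
  Idm k P 0 ∧ ∃ ρ > 0, S.AlongS x ρ (W.At k x P)

/-- there is an extension along the `U`-leaf with the bound `n` -/
def BU (k n : ℕ) (x : X) : Prop := ∃ P, Prj k n P ∧ S.AlongU x (rad n) (W.At k x P)

/-- there is an extension along the `S`-leaf with the bound `n` -/
def BS (k n : ℕ) (x : X) : Prop := ∃ P, Prj k n P ∧ S.AlongS x (rad n) (W.At k x P)

end SSub

namespace Sys

variable (S)

/-- the vector of a linear form on `E` -/
def rz (E : Type) [NormedAddCommGroup E] [InnerProductSpace ℝ E] [FiniteDimensional ℝ E] :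
    (E →L[ℝ] ℝ) →L[ℝ] E :=
  haveI := FiniteDimensional.complete ℝ E
  (InnerProductSpace.toDual ℝ E).symm.toContinuousLinearEquiv.toContinuousLinearMap

theorem inner_rz (α : E →L[ℝ] ℝ) (v : E) : inner ℝ (rz E α) v = α v :=
  haveI := FiniteDimensional.complete ℝ E
  InnerProductSpace.toDual_symm_apply

/-- the inverse of the symplectic form -/
def omInv : (V →L[ℝ] ℝ) →L[ℝ] V :=
  S.iS ∘L rz E ∘L (ContinuousLinearMap.compL ℝ E V ℝ).flip S.iU
    - S.iU ∘L rz E ∘L (ContinuousLinearMap.compL ℝ E V ℝ).flip S.iS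

theorem om_omInv (α : V →L[ℝ] ℝ) : S.om (S.omInv α) = α := by
  ext w
  rw [S.om_apply]
  simp only [omInv, ContinuousLinearMap.sub_apply, ContinuousLinearMap.comp_apply, map_sub,
    S.pS_iS, S.pS_iU, S.pU_iS, S.pU_iU, sub_zero, zero_sub, inner_neg_left, inner_rz,
    ContinuousLinearMap.flip_apply, ContinuousLinearMap.compL_apply, sub_neg_eq_add]
  rw [← map_add, add_comm, S.iS_add]

theorem om_anti (v w : V) : S.om v w = -S.om w v := by
  rw [S.om_apply, S.om_apply, real_inner_comm (S.pS v), real_inner_comm (S.pU v)]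
  ring

theorem om_inj {v : V} (h : ∀ w, S.om v w = 0) : v = 0 := by
  have h1 := h (S.iU (S.pS v))
  have h2 := h (S.iS (S.pU v))
  rw [S.om_apply, S.pU_iU, S.pS_iU, inner_zero_right, sub_zero, inner_self_eq_zero] at h1
  rw [S.om_apply, S.pU_iS, S.pS_iS, inner_zero_right, zero_sub, neg_eq_zero,
    inner_self_eq_zero] at h2
  rw [← S.iS_add v, h1, h2, map_zero, map_zero, add_zero]

theorem omInv_om (v : V) : S.omInv (S.om v) = v := by
  refine sub_eq_zero.1 (S.om_inj fun w => ?_)
  rw [map_sub, S.om_omInv, sub_self, ContinuousLinearMap.zero_apply]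

/-- the adjoint for the symplectic form -/
def adj : (V →L[ℝ] V) →L[ℝ] V →L[ℝ] V :=
  ContinuousLinearMap.compL ℝ V (V →L[ℝ] ℝ) V S.omInv ∘L
    (ContinuousLinearMap.compL ℝ V (V →L[ℝ] ℝ) (V →L[ℝ] ℝ)).flip S.om ∘L
      (ContinuousLinearMap.compL ℝ V V ℝ).flip

theorem om_adj (A : V →L[ℝ] V) (v w : V) : S.om v (S.adj A w) = S.om (A v) w := by
  have h : S.adj A w = S.omInv (S.om w ∘L A) := rfl
  rw [S.om_anti, h, S.om_omInv, S.om_anti (A v)]
  rfl

/-- the projections on the symplectic orthogonal of the range of `P` -/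
def prp (P : V → V →L[ℝ] V) (q : V) : V →L[ℝ] V := 1 - S.adj (P q)

end Sys

end Vale.Agent.P207Z
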