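import Vale.Agent.P207Z.OpsE
import Vale.Agent.P207Z.Real.Defs

/-!
# P207 REAL: extensions of a subbundle along the leaves: CENTRE, MOVE, UNIQ (no dynamics)
-/

set_option linter.all false

open Set Filter Topology Metric MeasureTheory VectorField
open scoped ContDiff

noncomputable section

namespace Vale.Agent.P207Z

variable {Γ X B E V Y : Type} [Group Γ] [Countable Γ] [MetricSpace X] [ProperSpace X]
  [MulAction Γ X] [IsIsometricSMul Γ X] [MeasurableSpace X] [BorelSpace X]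
  [TopologicalSpace B] [CompactSpace B] [T2Space B] [SecondCountableTopology B] [MulAction Γ B]
  [ContinuousConstSMul Γ B] [MeasurableSpace B] [BorelSpace B]
  [NormedAddCommGroup E] [InnerProductSpace ℝ E] [FiniteDimensional ℝ E]
  [NormedAddCommGroup V] [NormedSpace ℝ V] [FiniteDimensional ℝ V]
  [MeasurableSpace Y] [MulAction Γ Y]
  {F G : Type} [NormedAddCommGroup F] [NormedSpace ℝ F] [FiniteDimensional ℝ F]
  [NormedAddCommGroup G] [NormedSpace ℝ G]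
  {S : Sys Γ X B E V} {𝔉 : Bun S F}

/-- flatness of a `C^k` map is a closed condition -/
theorem flat_closed {k : ℕ} {g : V → G} {z : V} (hg : ContDiffAt ℝ k g z)
    (h : ∃ᶠ q in 𝓝 z, Flat k g q) : Flat k g z := by
  refine (flat_iff_jet hg).2 (jet_eq_zero_iff.2 fun i hi => ?_)
  refine isClosed_singleton.mem_of_frequently_of_tendsto
    ((h.and_eventually (hg.eventually (by simp))).mono fun q hq => ?_)
    (hg.continuousAt_iteratedFDeriv (by exact_mod_cast hi))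
  exact jet_eq_zero_iff.1 ((flat_iff_jet hq.2).1 hq.1) i hi
theorem Idm.of_le {k k' : WithTop ℕ∞} {P : V → F →L[ℝ] F} {z : V} (h : Idm k P z) (hk : k' ≤ k) :
    Idm k' P z := Eventually.mono h fun _ hq => ⟨hq.1.of_le hk, hq.2⟩
theorem Idm.ev {k : WithTop ℕ∞} {P : V → F →L[ℝ] F} {z : V} (h : Idm k P z) :
    ∀ᶠ q in 𝓝 z, Idm k P q := eventually_eventually_nhds.2 h
theorem Idm.e_cd {k : WithTop ℕ∞} {P : V → F →L[ℝ] F} {z : V} (h : Idm k P z) :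
    ContDiffAt ℝ k P z := (Eventually.self_of_nhds h).1
theorem Idm.e_cont {k : WithTop ℕ∞} {P : V → F →L[ℝ] F} {z : V} (h : Idm k P z) :
    ContinuousAt P z := h.e_cd.continuousAt
theorem Idm.e_idem {k : WithTop ℕ∞} {P : V → F →L[ℝ] F} {z : V} (h : Idm k P z) :
    P z * P z = P z := (Eventually.self_of_nhds h).2
theorem Idm.e_ev {k : WithTop ℕ∞} {P : V → F →L[ℝ] F} {z : V} (h : Idm k P z) :
    ∀ᶠ q in 𝓝 z, P q * P q = P q := Eventually.mono h fun _ hq => hq.2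
theorem Idm.e_cmp {k : WithTop ℕ∞} {P : V → F →L[ℝ] F} {z : V} (h : Idm k P z) :
    ContDiffAt ℝ k (cmp P) z := contDiffAt_const.sub h.e_cd
theorem Idm.e_shift {k : WithTop ℕ∞} {P : V → F →L[ℝ] F} {z : V} (h : Idm k P z) :
    Idm k (fun q => P (z + q)) 0 := by
  have t : Tendsto (fun q : V => z + q) (𝓝 0) (𝓝 z) := by
    simpa using (continuous_const_add z).tendsto 0
  exact (t.eventually h).mono fun q hq =>
    ⟨hq.1.comp q (contDiffAt_const.add contDiffAt_id), hq.2⟩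
theorem Prj.idm {k n : ℕ} {P : V → F →L[ℝ] F} (h : Prj k n P) {q : V}
    (hq : q ∈ ball (0 : V) (rad n)) : Idm k P q :=
  mem_of_superset (isOpen_ball.mem_nhds hq) fun q hq => ⟨h.ckb.contDiffAt hq, h.idem q hq⟩
theorem Idm.exPrj {k : ℕ} {P : V → F →L[ℝ] F} (h : Idm k P 0) : ∃ n, Prj k n P := by
  obtain ⟨n, hn⟩ := CkB.of_contDiffAt h.e_cd
  obtain ⟨ε, hε, h1⟩ := Metric.mem_nhds_iff.1 h.e_ev
  obtain ⟨m, hm⟩ := exists_rad_le hε
  exact ⟨n + m, hn.mono le_rfl (Nat.le_add_right _ _),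
    fun q hq => h1 (ball_subset_ball (hm _ (Nat.le_add_left _ _)) hq)⟩
theorem Idm.conj {k : WithTop ℕ∞} (hk : k ≤ ∞) {x y : X} {q : V} {P : V → F →L[ℝ] F}
    (hq : q ∈ S.dom y x) (h : Idm k P (S.τ y x q)) : Idm k (𝔉.conj y x P) q := by
  filter_upwards [Sys.dom_nhds hq, (Sys.continuousAt_τ hq).eventually h] with q a b
  have hτ := (Sys.contDiffAt_τ a).of_le hk
  refine ⟨((((𝔉.contDiffAt (Sys.τ_dom a)).of_le hk).comp q hτ).mul (b.1.comp q hτ)).mul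
    ((𝔉.contDiffAt a).of_le hk), ?_⟩
  simp only [Bun.conj, mul_assoc]
  rw [← mul_assoc (𝔉.A y x q), 𝔉.inv' a, one_mul, ← mul_assoc (P _), b.2]
theorem Idm.rank {k : WithTop ℕ∞} {P : V → F →L[ℝ] F} {z : V} (h : Idm k P z) :
    ∀ᶠ q in 𝓝 z, Module.finrank ℝ (P q).range = Module.finrank ℝ (P z).range := by
  obtain ⟨n, hn⟩ := Idm.exPrj (k := 0) (h.e_shift.of_le (by simp))
  filter_upwards [ball_mem_nhds z (rad_pos n)] with q hq
  have h1 := hn.rank (q := q - z) (by rwa [mem_ball_zero_iff, ← dist_eq_norm])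
  rwa [add_sub_cancel, add_zero] at h1

namespace ExtAux

theorem nat_le (k : ℕ) : (k : WithTop ℕ∞) ≤ ∞ := by exact_mod_cast le_top

theorem flat_τ {k : ℕ} {x y : X} {g : V → G} (h0 : (0 : V) ∈ S.dom y x) :
    Flat k (fun q => g (S.τ y x q)) 0 ↔ Flat k g (S.τ y x 0) := by
  refine ⟨fun h => ?_, fun h => h.comp (Sys.differentiableAt_τ h0)⟩
  have h2 : Flat k (fun q => g (S.τ y x q)) (S.τ x y (S.τ y x 0)) := by rwa [Sys.τ_τ h0]
  refine (h2.comp (Sys.differentiableAt_τ (Sys.τ_dom h0))).congr ?_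
  filter_upwards [Sys.dom_nhds (Sys.τ_dom h0)] with q hq
  rw [Sys.τ_τ hq]

theorem eqv_cmp {k : ℕ} {P Q : V → F →L[ℝ] F} (hP : Idm k P 0) (hQ : Idm k Q 0)
    (h : Flat k (fun q => cmp P q ∘L Q q) 0) (h' : Flat k (fun q => cmp Q q ∘L P q) 0) :
    Eqv k (cmp P) (cmp Q) :=
  ⟨(dom_cmp_iff hP.e_cmp.continuousAt hQ.e_cont hQ.e_ev).2 h,
    (dom_cmp_iff hQ.e_cmp.continuousAt hP.e_cont hP.e_ev).2 h'⟩

theorem freq {R : E → Prop} {a : E} {r : ℝ} (ha : a ∈ ball (0 : E) r)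
    (h : ∀ O : Set E, IsOpen O → O.Nonempty → O ⊆ ball 0 r → ∃ u ∈ O, R u) :
    ∃ᶠ u in 𝓝 a, R u := by
  refine frequently_iff.2 fun {U} hU => ?_
  obtain ⟨u, hu, h1⟩ := h (interior U ∩ ball 0 r) (isOpen_interior.inter isOpen_ball)
    ⟨a, mem_interior_iff_mem_nhds.2 hU, ha⟩ inter_subset_right
  exact ⟨u, interior_subset hu.1, h1⟩

theorem axis {k : ℕ} {g : V → G} (i : E →L[ℝ] V) {r : ℝ} (hr : 0 < r) (hg : ContDiffAt ℝ k g 0)
    (h : ∀ O : Set E, IsOpen O → O.Nonempty → O ⊆ ball 0 r → ∃ u ∈ O, Flat k g (i u)) :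
    ∀ᶠ a in 𝓝 (0 : E), Flat k g (i a) := by
  have t : Tendsto i (𝓝 0) (𝓝 0) := by simpa using i.continuous.tendsto 0
  filter_upwards [t.eventually (hg.eventually (by simp)), ball_mem_nhds 0 hr] with a h1 h2
  exact flat_closed h1 ((i.continuous.tendsto a).frequently (freq h2 h))

/-- from typical points to all the points of the axis -/
theorem axisU {k : ℕ} {x : X} {ρ : ℝ} (hρ : 0 < ρ) {g : V → G} (hg : ContDiffAt ℝ k g 0)
    (h : S.AlongU x ρ fun y => (0 : V) ∈ S.dom y x → Flat k g (S.τ y x 0)) :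
    ∀ᶠ a in 𝓝 (0 : E), Flat k g (S.iU a) := by
  refine axis S.iU (lt_min hρ one_pos) hg fun O hO hne hm => ?_
  have h1 := hm.trans (ball_subset_ball (min_le_right _ _))
  obtain ⟨a, ha, y, hy, h2⟩ := h.dense hO hne h1 (hm.trans (ball_subset_ball (min_le_left _ _)))
  have h3 := S.iU_mem.2 (h1 ha)
  exact ⟨a, ha, Sys.τ_zero' h3 hy ▸ h2 (Sys.zero_dom' h3 hy)⟩
theorem axisS {k : ℕ} {x : X} {ρ : ℝ} (hρ : 0 < ρ) {g : V → G} (hg : ContDiffAt ℝ k g 0)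
    (h : S.AlongS x ρ fun y => (0 : V) ∈ S.dom y x → Flat k g (S.τ y x 0)) :
    ∀ᶠ w in 𝓝 (0 : E), Flat k g (S.iS w) := by
  refine axis S.iS (lt_min hρ one_pos) hg fun O hO hne hm => ?_
  have h1 := hm.trans (ball_subset_ball (min_le_right _ _))
  obtain ⟨a, ha, y, hy, h2⟩ := h.dense hO hne h1 (hm.trans (ball_subset_ball (min_le_left _ _)))
  have h3 := S.iS_mem.2 (h1 ha)
  exact ⟨a, ha, Sys.τ_zero' h3 hy ▸ h2 (Sys.zero_dom' h3 hy)⟩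

/-- a radius below two given radii, below one, and where a given property holds -/
theorem small {R : V → Prop} (h : ∀ᶠ q in 𝓝 (0 : V), R q) {ρ ρ' : ℝ} (hρ : 0 < ρ) (hρ' : 0 < ρ') :
    ∃ r > 0, r ≤ ρ ∧ r ≤ ρ' ∧ r ≤ 1 ∧ ∀ x y, S.pt y ∈ S.c x '' ball 0 r →
      (0 : V) ∈ S.dom y x ∧ R (S.τ y x 0) := by
  obtain ⟨ε, hε, h1⟩ := Metric.mem_nhds_iff.1 h
  have h2 : min (min ρ ρ') (min ε 1) ≤ 1 := (min_le_right _ _).trans (min_le_right _ _)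
  refine ⟨_, lt_min (lt_min hρ hρ') (lt_min hε one_pos), (min_le_left _ _).trans (min_le_left _ _),
    (min_le_left _ _).trans (min_le_right _ _), h2, fun x y hy => ?_⟩
  obtain ⟨a, b⟩ := Sys.zero_dom_image h2 hy
  exact ⟨a, h1 (ball_subset_ball ((min_le_right _ _).trans (min_le_left _ _)) b)⟩

theorem rank_map {x y : X} (h0 : (0 : V) ∈ S.dom y x) (H : Submodule ℝ F) :
    Module.finrank ℝ (H.map (𝔉.A y x 0 : F →ₗ[ℝ] F)) = Module.finrank ℝ H :=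
  (Submodule.equivMapOfInjective _ (Function.LeftInverse.injective (𝔉.inv_apply h0))
    H).finrank_eq.symm

end ExtAux

open ExtAux

namespace SSub

variable (W : SSub 𝔉)

theorem idm_J (k : ℕ) : ∀ᵐ x ∂S.μ, Idm k (W.J k x) 0 :=
  (W.reg k).mono fun _ ⟨⟨n, h⟩, _⟩ => h.idm (rad_mem n)
theorem at_self (k : ℕ) : ∀ᵐ x ∂S.μ, ∀ y, S.pt y = S.pt x → W.At k x (W.J k x) y := W.J_eqv k
theorem at_mono : ∀ᵐ y ∂S.μ, ∀ k k' x P, k' ≤ k → W.At k x P y → W.At k' x P y := by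
  have h : ∀ᵐ y ∂S.μ, ∀ k k', k' ≤ k → Eqv k' (cmp (W.J k y)) (cmp (W.J k' y)) :=
    ae_all_iff.2 fun k => ae_all_iff.2 fun k' => ae_all_iff.2 fun h => W.J_compat le_rfl h
  exact h.mono fun y hy k k' x P hk a => (Eqv.mono a hk).trans (hy k k' hk)
theorem at_pt : ∀ᵐ y ∂S.μ, ∀ k x P y', (0 : V) ∈ S.dom y x → S.pt y' = S.pt y →
    W.At k x P y → W.At k x P y' := by
  filter_upwards [ae_all_iff.2 W.J_eqv] with y hy k x P y' h0 e a
  have h1 : (0 : V) ∈ S.dom y' x := Sys.dom_trans (Sys.zero_dom e) (by rwa [Sys.τ_zero e])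
  exact ((𝔉.eqv_pull a e).congr (𝔉.pull_pull (Sys.zero_dom e) h1).symm EventuallyEq.rfl).trans
    (hy k y' e)
theorem at_conj {k : ℕ} {x x' y : X} {P : V → F →L[ℝ] F} (h : (0 : V) ∈ S.dom y x)
    (h' : (0 : V) ∈ S.dom y x') : W.At k x' (𝔉.conj x' x P) y ↔ W.At k x P y :=
  ⟨fun a => (OpsE.eqv_conj 𝔉 P h' h).symm.trans a, fun a => (OpsE.eqv_conj 𝔉 P h' h).trans a⟩
theorem at_smul {k : ℕ} {x y : X} {P : V → F →L[ℝ] F} (g : Γ) (h : (0 : V) ∈ S.dom y x) :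
    W.At k (g • x) P (g • y) ↔ W.At k x P y := by
  unfold At
  rw [W.J_smul]
  exact ⟨fun a => a.congr (𝔉.pull_smul g h).symm EventuallyEq.rfl,
    fun a => a.congr (𝔉.pull_smul g h) EventuallyEq.rfl⟩
/-- the value at a typical point -/
theorem at_val : ∀ᵐ y ∂S.μ, ∀ (k : ℕ) x P, (0 : V) ∈ S.dom y x → Idm k P (S.τ y x 0) →
    W.At k x P y → (P (S.τ y x 0)).range = (W.H y).map (𝔉.A y x 0 : F →ₗ[ℝ] F) := by
  filter_upwards [ae_all_iff.2 W.reg'] with y hy k x P h0 hP a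
  exact (hy k).2 ▸ 𝔉.range_eq a h0 hP.e_idem (hy k).1
/-- two fields with the jet of `W` at a point -/
theorem at_flat {k : ℕ} {x y : X} {P P' : V → F →L[ℝ] F} (h0 : (0 : V) ∈ S.dom y x)
    (hP : Idm k P (S.τ y x 0)) (hP' : Idm k P' (S.τ y x 0)) (h : W.At k x P y)
    (h' : W.At k x P' y) : Flat k (fun q => cmp P q ∘L P' q) (S.τ y x 0) :=
  𝔉.flat_move h0 hP'.e_cont hP'.e_ev (h.1.trans h'.2)
theorem at_of_flat {k : ℕ} {x y : X} {P P' : V → F →L[ℝ] F} (h0 : (0 : V) ∈ S.dom y x)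
    (hP : Idm k P (S.τ y x 0)) (hP' : Idm k P' (S.τ y x 0)) (h : W.At k x P y)
    (h1 : Flat k (fun q => cmp P q ∘L P' q) (S.τ y x 0))
    (h2 : Module.finrank ℝ (P (S.τ y x 0)).range = Module.finrank ℝ (P' (S.τ y x 0)).range) :
    W.At k x P' y := by
  have a := hP.e_shift
  have b := hP'.e_shift
  have d1 := (dom_cmp_iff a.e_cmp.continuousAt b.e_cont b.e_ev).2 (flat_iff_translate.1 h1)
  have d2 := d1.cmp_symm a.e_cont b.e_cont a.e_ev b.e_ev (by rw [add_zero]; exact h2.le)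
  have e := Eqv.pull (τ := fun q => S.τ y x q - S.τ y x 0) ⟨d2, d1⟩
    ((Sys.differentiableAt_τ h0).sub_const _) (sub_self _) (𝔉.continuousAt h0)
  refine (e.congr (Eventually.of_forall fun q => ?_) (Eventually.of_forall fun q => ?_)).trans h <;>
    simp only [Bun.pull, cmp, add_sub_cancel]
/-- sections, read in the chart of `x` -/
theorem at_sec : ∀ᵐ y ∂S.μ, ∀ (k : ℕ) x P s, (0 : V) ∈ S.dom y x → Idm k P (S.τ y x 0) →
    W.At k x P y → ContDiffAt ℝ k s (S.τ y x 0) →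
    (W.IsSec k y (fun q => 𝔉.A x y (S.τ y x q) (s (S.τ y x q))) ↔
      Flat k (fun q => cmp P q (s q)) (S.τ y x 0)) := by
  refine Eventually.of_forall fun y k x P s h0 _ a hs => ?_
  have hτ : ContDiffAt ℝ k (S.τ y x) 0 := (Sys.contDiffAt_τ h0).of_le (nat_le k)
  have h1 : ContDiffAt ℝ k (fun q => 𝔉.A x y (S.τ y x q) (s (S.τ y x q))) 0 :=
    (((𝔉.contDiffAt (Sys.τ_dom h0)).of_le (nat_le k)).comp 0 hτ).clm_apply (hs.comp 0 hτ)
  have e : (fun q => 𝔉.pull y x (cmp P) q (𝔉.A x y (S.τ y x q) (s (S.τ y x q)))) =ᶠ[𝓝 0]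
      fun q => cmp P (S.τ y x q) (s (S.τ y x q)) := by
    filter_upwards [Sys.dom_nhds h0] with q hq
    simp only [Bun.pull, ContinuousLinearMap.comp_apply, 𝔉.inv_apply' hq]
  rw [← flat_τ (g := fun q => cmp P q (s q)) h0]
  exact ⟨fun b => (a.1.flat_apply le_rfl h1.continuousAt b.2).congr e.symm,
    fun b => ⟨h1, a.2.flat_apply le_rfl h1.continuousAt (b.congr e)⟩⟩

theorem e_move {k : ℕ} {x y z : X} {ρ : ℝ} {P : V → F →L[ℝ] F} {q : V} (hq : q ∈ S.dom y x)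
    (hρ : S.τ y x q ∈ ball (0 : V) ρ) (e : S.c y q = S.pt z)
    (h : S.pt z ∈ S.c x '' ball 0 ρ → W.At k x P z) : W.At k y (𝔉.conj y x P) z :=
  (W.at_conj (Sys.zero_dom' (Sys.τ_ball hq) ((Sys.c_τ hq).trans e).symm)
    (Sys.zero_dom' (Sys.dom_ball hq) e.symm)).2 (h ⟨_, hρ, (Sys.c_τ hq).trans e⟩)

/-- **MOVE** -/
theorem moveU {k : ℕ} {x y : X} {ρ : ℝ} {P : V → F →L[ℝ] F} (h : S.AlongU x ρ (W.At k x P))
    (he : S.em y = S.em x) (h0 : (0 : V) ∈ S.dom y x) (hρ : S.τ y x 0 ∈ ball (0 : V) ρ)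
    (hP : Idm k P (S.τ y x 0)) : W.UExt k y (𝔉.conj y x P) := by
  obtain ⟨r, hr, h1⟩ := Metric.mem_nhds_iff.1 (inter_mem (Sys.dom_nhds h0)
    ((Sys.continuousAt_τ h0).eventually (isOpen_ball.mem_nhds hρ)))
  exact ⟨Idm.conj (nat_le k) h0 hP, r, hr, Eventually.mono h fun η hη z hz ⟨q, hq, e⟩ =>
    W.e_move (h1 hq).1 (h1 hq).2 e (hη z (he ▸ hz))⟩
theorem moveS {k : ℕ} {x y : X} {ρ : ℝ} {P : V → F →L[ℝ] F} (h : S.AlongS x ρ (W.At k x P))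
    (he : S.ep y = S.ep x) (h0 : (0 : V) ∈ S.dom y x) (hρ : S.τ y x 0 ∈ ball (0 : V) ρ)
    (hP : Idm k P (S.τ y x 0)) : W.SExt k y (𝔉.conj y x P) := by
  obtain ⟨r, hr, h1⟩ := Metric.mem_nhds_iff.1 (inter_mem (Sys.dom_nhds h0)
    ((Sys.continuousAt_τ h0).eventually (isOpen_ball.mem_nhds hρ)))
  exact ⟨Idm.conj (nat_le k) h0 hP, r, hr, Eventually.mono h fun η hη z hz ⟨q, hq, e⟩ =>
    W.e_move (h1 hq).1 (h1 hq).2 e (hη z (he ▸ hz))⟩
/-- **UNIQ** -/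
theorem uniqU {k : ℕ} {x : X} {P P' : V → F →L[ℝ] F} (h : W.UExt k x P) (h' : W.UExt k x P') :
    ∀ᶠ a in 𝓝 (0 : E), Flat k (fun q => cmp P q ∘L P' q) (S.iU a) := by
  obtain ⟨hP, ρ, hρ, h⟩ := h
  obtain ⟨hP', ρ', hρ', h'⟩ := h'
  obtain ⟨r, hr, a, b, -, c⟩ := small (S := S) (hP.ev.and hP'.ev) hρ hρ'
  exact axisU hr (hP.e_cmp.clm_comp hP'.e_cd) (((h.mono a fun _ _ _ => id).and
    (h'.mono b fun _ _ _ => id)).mono le_rfl fun y _ hy e h0 =>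
      W.at_flat h0 (c x y hy).2.1 (c x y hy).2.2 e.1 e.2)
theorem uniqS {k : ℕ} {x : X} {P P' : V → F →L[ℝ] F} (h : W.SExt k x P) (h' : W.SExt k x P') :
    ∀ᶠ w in 𝓝 (0 : E), Flat k (fun q => cmp P q ∘L P' q) (S.iS w) := by
  obtain ⟨hP, ρ, hρ, h⟩ := h
  obtain ⟨hP', ρ', hρ', h'⟩ := h'
  obtain ⟨r, hr, a, b, -, c⟩ := small (S := S) (hP.ev.and hP'.ev) hρ hρ'
  exact axisS hr (hP.e_cmp.clm_comp hP'.e_cd) (((h.mono a fun _ _ _ => id).and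
    (h'.mono b fun _ _ _ => id)).mono le_rfl fun y _ hy e h0 =>
      W.at_flat h0 (c x y hy).2.1 (c x y hy).2.2 e.1 e.2)

theorem e_centre {k : ℕ} {x y : X} {P Q : V → F →L[ℝ] F} (h0 : (0 : V) ∈ S.dom y x)
    (hP : Idm k (𝔉.conj y x P) 0) (hQ : Idm k Q 0) (h : W.At k y Q y)
    (f : Flat k (fun q => cmp (𝔉.conj y x P) q ∘L Q q) 0)
    (f' : Flat k (fun q => cmp Q q ∘L 𝔉.conj y x P q) 0) : W.At k x P y :=
  (𝔉.eqv_conj P h0).symm.trans ((eqv_cmp hP hQ f f').trans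
    (Eqv.congr h (𝔉.pull_self y _).symm EventuallyEq.rfl))

/-- **CENTRE** -/
theorem centreU : ∀ᵐ y ∂S.μ, ∀ (k : ℕ) x ρ P, S.AlongU x ρ (W.At k x P) → S.em y = S.em x →
    (0 : V) ∈ S.dom y x → S.τ y x 0 ∈ ball (0 : V) ρ → Idm k P (S.τ y x 0) → W.At k x P y := by
  filter_upwards [ae_all_iff.2 fun k => (W.extU k).ae] with y hy k x ρ P h he h0 hρ hP
  obtain ⟨n, Q, hQ, a, b⟩ := hy k
  have u : W.UExt k y Q := ⟨hQ.idm (rad_mem n), _, rad_pos n, b⟩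
  have v := W.moveU h he h0 hρ hP
  exact W.e_centre h0 v.1 u.1 (a y rfl) (by simpa using (W.uniqU v u).self_of_nhds)
    (by simpa using (W.uniqU u v).self_of_nhds)
theorem centreS : ∀ᵐ y ∂S.μ, ∀ (k : ℕ) x ρ P, S.AlongS x ρ (W.At k x P) → S.ep y = S.ep x →
    (0 : V) ∈ S.dom y x → S.τ y x 0 ∈ ball (0 : V) ρ → Idm k P (S.τ y x 0) → W.At k x P y := by
  filter_upwards [ae_all_iff.2 fun k => (W.extS k).ae] with y hy k x ρ P h he h0 hρ hP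
  obtain ⟨n, Q, hQ, a, b⟩ := hy k
  have u : W.SExt k y Q := ⟨hQ.idm (rad_mem n), _, rad_pos n, b⟩
  have v := W.moveS h he h0 hρ hP
  exact W.e_centre h0 v.1 u.1 (a y rfl) (by simpa using (W.uniqS v u).self_of_nhds)
    (by simpa using (W.uniqS u v).self_of_nhds)
theorem uExt_mono : ∀ᵐ ξ ∂S.ν, ∀ x, S.em x = ξ → ∀ k k' P, k' ≤ k → W.UExt k x P →
    W.UExt k' x P := by
  filter_upwards [Sys.ae_ae_U W.at_mono] with ξ hξ x hx k k' P hk ⟨hP, ρ, hρ, h⟩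
  exact ⟨hP.of_le (by exact_mod_cast hk), ρ, hρ, (Eventually.and h hξ).mono
    fun η hη y hy hm => hη.2 y (hx ▸ hy) k k' x P hk (hη.1 y hy hm)⟩
theorem sExt_mono : ∀ᵐ η ∂S.ν, ∀ x, S.ep x = η → ∀ k k' P, k' ≤ k → W.SExt k x P →
    W.SExt k' x P := by
  filter_upwards [Sys.ae_ae_S W.at_mono] with ξ hξ x hx k k' P hk ⟨hP, ρ, hρ, h⟩
  exact ⟨hP.of_le (by exact_mod_cast hk), ρ, hρ, (Eventually.and h hξ).mono
    fun η hη y hy hm => hη.2 y (hx ▸ hy) k k' x P hk (hη.1 y hy hm)⟩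
theorem uExt_rank (P : Prob S Y) : ∃ d, (∀ᵐ x ∂S.μ, Module.finrank ℝ (W.H x) = d) ∧
    ∀ᵐ ξ ∂S.ν, ∀ x, S.em x = ξ → ∀ k Q, W.UExt k x Q → Module.finrank ℝ (Q 0).range = d := by
  obtain ⟨d, hd⟩ := W.rank P
  refine ⟨d, hd, ?_⟩
  filter_upwards [Sys.ae_ae_U (hd.and W.at_val)] with ξ hξ x hx k Q ⟨hQ, ρ, hρ, h⟩
  obtain ⟨r, hr, a, -, b, c⟩ := small (S := S) (hQ.ev.and hQ.rank) hρ hρ
  have h1 : S.AlongU x r fun y => Module.finrank ℝ (Q 0).range = d :=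
    (Eventually.and (h.mono a fun _ _ _ => id) hξ).mono fun η hη y hy hm => by
      obtain ⟨h0, h2, h3⟩ := c x y hm
      rw [← h3, (hη.2 y (hx ▸ hy)).2 k x Q h0 h2 (hη.1 y hy hm), rank_map h0,
        (hη.2 y (hx ▸ hy)).1]
  obtain ⟨_, -, _, -, h2⟩ := h1.dense isOpen_ball ⟨0, mem_ball_self hr⟩ (ball_subset_ball b)
    Subset.rfl
  exact h2
theorem sExt_rank (P : Prob S Y) : ∃ d, (∀ᵐ x ∂S.μ, Module.finrank ℝ (W.H x) = d) ∧
    ∀ᵐ η ∂S.ν, ∀ x, S.ep x = η → ∀ k Q, W.SExt k x Q → Module.finrank ℝ (Q 0).range = d := by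
  obtain ⟨d, hd⟩ := W.rank P
  refine ⟨d, hd, ?_⟩
  filter_upwards [Sys.ae_ae_S (hd.and W.at_val)] with ξ hξ x hx k Q ⟨hQ, ρ, hρ, h⟩
  obtain ⟨r, hr, a, -, b, c⟩ := small (S := S) (hQ.ev.and hQ.rank) hρ hρ
  have h1 : S.AlongS x r fun y => Module.finrank ℝ (Q 0).range = d :=
    (Eventually.and (h.mono a fun _ _ _ => id) hξ).mono fun η hη y hy hm => by
      obtain ⟨h0, h2, h3⟩ := c x y hm
      rw [← h3, (hη.2 y (hx ▸ hy)).2 k x Q h0 h2 (hη.1 y hy hm), rank_map h0,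
        (hη.2 y (hx ▸ hy)).1]
  obtain ⟨_, -, _, -, h2⟩ := h1.dense isOpen_ball ⟨0, mem_ball_self hr⟩ (ball_subset_ball b)
    Subset.rfl
  exact h2
theorem port_BU (k : ℕ) : S.Port (W.BU k) := by
  have key : ∀ n (g : Γ) x, W.BU k n (g • x) → W.BU k n x := fun n g x ⟨P, hP, h⟩ =>
    ⟨P, hP, (Bun.ae_smul_nu g h).mono fun ξ h1 y hy h2 => (W.at_smul g (Bun.smul_mem g h2).1).1
      (h1 _ (by rw [S.pt_smul, hy, S.em_smul]; rfl) (Bun.smul_mem g h2).2)⟩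
  refine ⟨fun n g x h => key n g⁻¹ _ (by rwa [inv_smul_smul]), fun n n' x hn ⟨P, hP, h⟩ =>
    ⟨P, hP.mono le_rfl hn, h.mono (rad_anti hn) fun _ _ _ => id⟩, fun D n => ?_⟩
  obtain ⟨n1, -, h1⟩ := 𝔉.prj_conj D k n
  obtain ⟨n2, -, h2⟩ := S.ball_sub D n
  refine ⟨n1 + n2, fun x y e d ⟨P, hP, h⟩ => ⟨_, (h1 x y e d P hP).mono le_rfl (by omega),
    Eventually.mono h fun η hη z hz ⟨q, hq, e'⟩ => ?_⟩⟩
  obtain ⟨a, b⟩ := h2 x y e d q (ball_subset_ball (rad_anti (by omega)) hq)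
  exact W.e_move a b e' (hη z (by rw [hz, show S.em x = S.em y from congrArg Prod.fst e]))
theorem port_BS (k : ℕ) : S.Port (W.BS k) := by
  have key : ∀ n (g : Γ) x, W.BS k n (g • x) → W.BS k n x := fun n g x ⟨P, hP, h⟩ =>
    ⟨P, hP, (Bun.ae_smul_nu g h).mono fun ξ h1 y hy h2 => (W.at_smul g (Bun.smul_mem g h2).1).1
      (h1 _ (by rw [S.pt_smul, hy, S.ep_smul]; rfl) (Bun.smul_mem g h2).2)⟩
  refine ⟨fun n g x h => key n g⁻¹ _ (by rwa [inv_smul_smul]), fun n n' x hn ⟨P, hP, h⟩ =>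
    ⟨P, hP.mono le_rfl hn, h.mono (rad_anti hn) fun _ _ _ => id⟩, fun D n => ?_⟩
  obtain ⟨n1, -, h1⟩ := 𝔉.prj_conj D k n
  obtain ⟨n2, -, h2⟩ := S.ball_sub D n
  refine ⟨n1 + n2, fun x y e d ⟨P, hP, h⟩ => ⟨_, (h1 x y e d P hP).mono le_rfl (by omega),
    Eventually.mono h fun η hη z hz ⟨q, hq, e'⟩ => ?_⟩⟩
  obtain ⟨a, b⟩ := h2 x y e d q (ball_subset_ball (rad_anti (by omega)) hq)
  exact W.e_move a b e' (hη z (by rw [hz, show S.ep x = S.ep y from congrArg Prod.snd e]))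
theorem tight_BU (k : ℕ) : S.Tight (W.BU k) :=
  (W.extU k).mono (Eventually.of_forall fun _ _ ⟨P, hP, h⟩ => ⟨P, hP, h.2⟩)
theorem tight_BS (k : ℕ) : S.Tight (W.BS k) :=
  (W.extS k).mono (Eventually.of_forall fun _ _ ⟨P, hP, h⟩ => ⟨P, hP, h.2⟩)
theorem rev_at {k : ℕ} {x y : X} {P : V → F →L[ℝ] F} : W.rev.At k x P y ↔ W.At k x P y := by
  unfold At
  rw [Bun.rev_pull]
  rfl
theorem e_rev (k : ℕ) (x : X) (P : V → F →L[ℝ] F) : W.rev.At k x P = W.At k x P :=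
  funext fun _ => propext W.rev_at
theorem rev_UExt {k : ℕ} {x : X} {P : V → F →L[ℝ] F} : W.rev.UExt k x P ↔ W.SExt k x P := by
  simp only [UExt, SExt, e_rev, Sys.rev_alongU]
theorem rev_SExt {k : ℕ} {x : X} {P : V → F →L[ℝ] F} : W.rev.SExt k x P ↔ W.UExt k x P := by
  simp only [UExt, SExt, e_rev, Sys.rev_alongS]
theorem rev_BU {k n : ℕ} {x : X} : W.rev.BU k n x ↔ W.BS k n x := by
  simp only [BU, BS, e_rev, Sys.rev_alongU]
theorem rev_BS {k n : ℕ} {x : X} : W.rev.BS k n x ↔ W.BU k n x := by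
  simp only [BU, BS, e_rev, Sys.rev_alongS]

end SSub

end Vale.Agent.P207Z
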