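import Vale.Agent.P207Z.Real.CDefs
import Vale.Agent.P207Z.Real.Ext
import Vale.Agent.P207Z.ErgS
import Vale.Agent.P207Z.End.Rep

/-!
# P207: the realised family is tangent to a subbundle of class S
-/

set_option linter.all false

open Set Filter Topology Metric MeasureTheory
open scoped ContDiff

noncomputable section

namespace Vale.Agent.P207Z

variable {Γ X B E V : Type} [Group Γ] [Countable Γ] [MetricSpace X] [ProperSpace X]
  [MulAction Γ X] [IsIsometricSMul Γ X] [MeasurableSpace X] [BorelSpace X]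
  [TopologicalSpace B] [CompactSpace B] [T2Space B] [SecondCountableTopology B] [MulAction Γ B]
  [ContinuousConstSMul Γ B] [MeasurableSpace B] [BorelSpace B]
  [NormedAddCommGroup E] [InnerProductSpace ℝ E] [FiniteDimensional ℝ E]
  [NormedAddCommGroup V] [NormedSpace ℝ V] [FiniteDimensional ℝ V]

namespace CTan

variable {S : Sys Γ X B E V}

/-- good times which are multiples of `h` -/
theorem freq {T : ℕ → X → Prop} (hp : S.Port T) {h : ℝ} (hh : 0 < h) {z z' : X}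
    (e : S.pt z' = S.pt z) {n : ℕ} (hn : ∀ᶠ t : ℝ in atTop, ∃ j : ℕ, t ≤ j ∧ T n (S.φ j z)) :
    ∃ R, ∃ᶠ m : ℕ in atTop, T R (S.φ (m * h) z') := by
  obtain ⟨D, hD, h1⟩ := S.dist_le_lv
  obtain ⟨R, hR⟩ := hp.move (D * (|S.lv z - S.lv z'| + h + 1)) n
  refine ⟨R, frequently_atTop.2 fun N => ?_⟩
  obtain ⟨t, ⟨j, h2, h3⟩, h4⟩ := (hn.and (eventually_ge_atTop (N * h))).exists
  have h5 : S.pt (S.φ j z) = S.pt (S.φ (⌊j / h⌋₊ * h) z') := by rw [S.pt_φ, S.pt_φ, e]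
  refine ⟨⌊j / h⌋₊, Nat.le_floor ((le_div_iff₀ hh).2 (h4.trans h2)),
    hR _ _ h5 ((h1 _ _ h5).trans ?_) h3⟩
  have h6 := (le_div_iff₀ hh).1 (Nat.floor_le (a := j / h) (by positivity))
  have h7 := (div_lt_iff₀ hh).1 (Nat.lt_floor_add_one (j / h : ℝ))
  gcongr
  rw [S.lv_φ, S.lv_φ, abs_le]
  constructor <;> linarith [le_abs_self (S.lv z - S.lv z'), neg_abs_le (S.lv z - S.lv z')]

/-- transport of the tangency to another chart -/
theorem move {A : Type} [NormedAddCommGroup A] [NormedSpace ℝ A] {J : ℕ} {x₀ w : X} {f : A → V}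
    {a₀ v : A} {Q₀ Pn : V → V →L[ℝ] V} (hf : ContDiffAt ℝ ∞ f a₀) (hd : f a₀ ∈ S.dom x₀ w)
    (hc : ContinuousAt (S.TV.conj x₀ w Pn) (f a₀))
    (h1 : Flat J (fun q => cmp (S.TV.conj x₀ w Pn) q ∘L Q₀ q) (f a₀))
    (h2 : Flat J (fun a => cmp Q₀ (f a) (fderiv ℝ f a v)) a₀) :
    Flat J (fun a => cmp Pn (S.τ x₀ w (f a)) (fderiv ℝ (fun a => S.τ x₀ w (f a)) a v)) a₀ := by
  have d := hf.differentiableAt (by simp)
  have c1 : ContinuousAt (fun a => fderiv ℝ f a v) a₀ :=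
    (hf.fderiv_right (m := 0) (by simp)).continuousAt.clm_apply continuousAt_const
  have c2 : ContinuousAt (fun a => cmp (S.TV.conj x₀ w Pn) (f a)) a₀ :=
    (contAt_cmp hc).comp d.continuousAt
  have c3 : ContinuousAt (fun a => S.TV.A x₀ w (f a)) a₀ :=
    (S.TV.continuousAt hd).comp d.continuousAt
  have h3 := ((h1.comp d).apply c1).add (h2.bilin_right (ContinuousLinearMap.id ℝ _) c2)
  refine (h3.bilin_right (ContinuousLinearMap.id ℝ _) c3).congr ?_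
  filter_upwards [d.continuousAt.eventually (Sys.dom_nhds hd),
    (hf.of_le (m := 1) (by simp)).eventually (by simp)] with a ha ha'
  have h4 : fderiv ℝ (fun a => S.τ x₀ w (f a)) a v = S.TV.A x₀ w (f a) (fderiv ℝ f a v) :=
    congrArg (· v) (fderiv_comp a (Sys.differentiableAt_τ ha) (ha'.differentiableAt (by simp)))
  simp only [h4, ContinuousLinearMap.id_apply, ContinuousLinearMap.comp_apply, cmp,
    ContinuousLinearMap.sub_apply, ContinuousLinearMap.one_apply, map_sub, map_add, Bun.conj,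
    ContinuousLinearMap.mul_apply, S.TV.inv_apply' ha]
  abel

end CTan

theorem SSub.tan {S : Sys Γ X B E V} {Y : Type} [MeasurableSpace Y] [MulAction Γ Y] (P : Prob S Y)
    (H : SSub S.TV) {h : ℝ} (hh : 0 < h) {J : ℕ} (hJ : 1 ≤ J) : ∀ᵐ z ∂S.μ, ∀ (A W : Type)
    [NormedAddCommGroup A] [NormedSpace ℝ A] [NormedAddCommGroup W] [NormedSpace ℝ W] (x₀ : X)
    (Pt : A × W → V) (ε : ℝ) (p : A × W → B × B), S.Pre0 x₀ Pt ε → S.Out h J x₀ Pt ε p →
    ∀ y ∈ ball (0 : A) ε, S.pt z = S.c x₀ (Pt (y, 0)) → ∀ Q₀ v, Idm J Q₀ (Pt (y, 0)) →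
      H.At J x₀ Q₀ z → Flat J (fun a => cmp Q₀ (Pt a) (fderiv ℝ Pt a v)) (y, 0) →
      ∀ s x Q Pr (k : ℕ), 1 ≤ k → S.pt x = p (y, s) → S.Rep p (y, s) x Q → H.SExt k x Pr →
        Flat 1 (fun a => cmp Pr (Q a) (fderiv ℝ Q a v)) (y, s) := by
  filter_upwards [P.window (H.tight_BS J) (H.port_BS J), Sys.ae_pt H.centreS, H.at_pt,
    Sys.ae_of_ep H.sExt_mono] with z h1 h2 h3 h4 A W _ _ _ _ x₀ Pt ε p hp ho y hy hz Q₀ v i0 a0 f0
    s x Q Pr k hk hx hQ hPr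
  have hy2 : y ∈ ball (0 : A) (2 * ε) := ball_subset_ball (by linarith [hp.pos]) hy
  have hq : Pt (y, 0) ∈ ball (0 : V) 1 :=
    mem_ball_zero_iff.2 ((hp.small y hy2).trans_lt (by norm_num))
  obtain ⟨z', hz'⟩ := S.exists_frame_lv (S.c_ne x₀ _ hq) (S.lv x₀)
  have e := hz'.1.trans hz.symm
  obtain ⟨n, hn⟩ := h1 1 one_pos
  obtain ⟨R, hR⟩ := CTan.freq (H.port_BS J) hh e (hn.mono fun t ⟨⟨j, j1, _, j2⟩, _⟩ => ⟨j, j1, j2⟩)
  have q0 : Q (y, s) = 0 := S.c_inj x hQ.mem Sys.ball_zero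
    (hQ.eq0.symm.trans (hx.symm.trans (S.c_zero' x).symm))
  have he : S.ep x = S.ep z :=
    (congrArg Prod.snd hx).trans ((ho.leaf y hy s).trans (congrArg Prod.snd hz).symm)
  have hPr1 := h4 x he k 1 Pr hk hPr
  refine ho.tan y hy z' hz' v R s x Q Pr hQ (q0 ▸ by exact_mod_cast hPr1.1.self_of_nhds.1)
    (hR.mono fun m ⟨Pn, p1, p2⟩ => ⟨Pn, p1, ?_, fun d1 d2 => ?_⟩)
  · set w := S.φ (m * h) z'
    have e1 : S.pt w = S.pt z := (S.pt_φ _ _).trans e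
    have e2 : S.pt w = S.c x₀ (Pt (y, 0)) := e1.trans hz
    have d0 : (0 : V) ∈ S.dom w w := Sys.zero_dom rfl
    have d1 := Sys.zero_dom' hq e2
    obtain ⟨d2, d3⟩ := Sys.dom_of_pt hq e2
    have t0 : S.τ w w 0 ∈ ball (0 : V) (rad R) := by
      rw [Sys.τ_zero rfl]
      exact rad_mem R
    have i1 : Idm J (S.TV.conj x₀ w Pn) (Pt (y, 0)) :=
      Idm.conj (by exact_mod_cast le_top) d2 (d3 ▸ p1.idm (rad_mem R))
    have h5 := H.at_flat d1 ((Sys.τ_zero' hq e2).symm ▸ i1) ((Sys.τ_zero' hq e2).symm ▸ i0)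
      ((H.at_conj d0 d1).2 (h2 w e1 J w _ Pn p2 rfl d0 t0 (p1.idm t0)))
      (h3 J x₀ Q₀ w (Sys.zero_dom' hq hz) e1 a0)
    rw [Sys.τ_zero' hq e2] at h5
    exact CTan.move (hp.sm y hy2) d2 i1.self_of_nhds.1.continuousAt h5 f0
  · rw [q0] at d1 d2 ⊢
    have e1 : S.ep x = S.ep (S.φ (m * h) z') :=
      he.trans (congrArg Prod.snd ((S.pt_φ _ _).trans e)).symm
    simpa using (H.uniqS hPr1
      (h4 x he J 1 _ hJ (H.moveS p2 e1 d1 d2 (p1.idm d2)))).self_of_nhds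

end Vale.Agent.P207Z
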