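import Vale.Agent.P207Z.Real.CDefs
import Vale.Agent.P207Z.JetB
import Vale.Agent.P207Z.An.WinTay

/-!
# P207 REAL, CORE: the approximants
-/

set_option linter.all false

open Set Filter Topology Metric MeasureTheory
open scoped ContDiff

noncomputable section

namespace Vale.Agent.P207Z

variable {Γ X B E V : Type} [Group Γ] [Countable Γ] [MetricSpace X] [ProperSpace X]
  [MulAction Γ X] [IsIsometricSMul Γ X] [MeasurableSpace X] [BorelSpace X]
  [TopologicalSpace B] [CompactSpace B] [T2Space B] [SecondCountableTopology B] [MulAction Γ B]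
  [ContinuousConstSMul Γ B] [MeasurableSpace B] [BorelSpace B]
  [NormedAddCommGroup E] [InnerProductSpace ℝ E] [FiniteDimensional ℝ E]
  [NormedAddCommGroup V] [NormedSpace ℝ V] [FiniteDimensional ℝ V]

namespace CAp

variable {A W U : Type} [NormedAddCommGroup A] [NormedSpace ℝ A] [NormedAddCommGroup W]
  [NormedSpace ℝ W] [NormedAddCommGroup U] [NormedSpace ℝ U]

theorem contDiffAt_slice {f : A × W → U} {p : A × W} (hf : ContDiffAt ℝ ∞ f p) (j : ℕ) :
    ContDiffAt ℝ ∞ (fun p : A × W => iteratedFDeriv ℝ j (fun s => f (p.1, s)) p.2) p := by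
  induction j with
  | zero => exact (continuousMultilinearCurryFin0 ℝ W U).symm.contDiff.contDiffAt.comp p hf
  | succ j ih =>
    have h1 : ContDiffAt ℝ ∞ (Function.uncurry fun (x : A × W) (s : W) =>
        iteratedFDeriv ℝ j (fun s => f (x.1, s)) s) (p, p.2) :=
      ContDiffAt.comp (f := fun r : (A × W) × W => (r.1.1, r.2)) (p, p.2) ih (by fun_prop)
    exact (continuousMultilinearCurryLeftEquiv ℝ (fun _ : Fin (j + 1) => W)
      U).symm.contDiff.contDiffAt.comp p (h1.fderiv (m := ∞) contDiffAt_snd le_rfl)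

theorem norm_comp_le (L : A →L[ℝ] W) (hL : ‖L‖ ≤ 1) {g : W → U} {O : Set W} (hO : IsOpen O)
    (hg : ContDiffOn ℝ ∞ g O) {p : A} (hp : L p ∈ O) (i : ℕ) :
    ‖iteratedFDeriv ℝ i (fun p => g (L p)) p‖ ≤ ‖iteratedFDeriv ℝ i g (L p)‖ := by
  have h1 := hO.preimage L.continuous
  have h2 := L.iteratedFDerivWithin_comp_right hg hO.uniqueDiffOn h1.uniqueDiffOn hp
    (StayAux.cast_le i)
  rw [iteratedFDerivWithin_of_isOpen _ h1 hp, iteratedFDerivWithin_of_isOpen _ hO hp] at h2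
  refine (congrArg norm h2).trans_le
    ((ContinuousMultilinearMap.norm_compContinuousLinearMap_le _ _).trans ?_)
  exact mul_le_of_le_one_right (norm_nonneg _)
    (Finset.prod_le_one (fun _ _ => norm_nonneg _) fun _ _ => hL)

/-- continuity of the two readings is enough for the transition rule -/
theorem tau_ev {S : Sys Γ X B E V} {T : Type} [TopologicalSpace T] {f : T → V} {t : T}
    {x u u' : X} (h : f t ∈ S.dom x u) (h' : f t ∈ S.dom x u')
    (c : ContinuousAt (fun s => S.τ x u (f s)) t) (c' : ContinuousAt (fun s => S.τ x u' (f s)) t) :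
    ∀ᶠ s in 𝓝 t, S.τ u u' (S.τ x u (f s)) = S.τ x u' (f s) := by
  obtain ⟨v, hv⟩ : ∃ v : V, ∀ y q, S.c x q ∉ S.c y '' ball 0 1 → S.τ x y q = v :=
    ⟨_, fun y q hq => Function.invFunOn_neg hq⟩
  have h1 : ∀ᶠ s in 𝓝 t, S.τ x u (f s) = v → S.τ x u' (f s) = v → S.τ u u' v = v := by
    by_cases e : S.τ x u (f t) = v
    · by_cases e' : S.τ x u' (f t) = v
      · exact Eventually.of_forall fun _ _ _ => by
          have := Sys.τ_trans h h'
          rwa [e, e'] at this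
      · exact (c'.eventually_ne e').mono fun s hs _ a => (hs a).elim
    · exact (c.eventually_ne e).mono fun s hs a => (hs a).elim
  filter_upwards [h1, c.preimage_mem_nhds (Sys.dom_nhds (Sys.τ_dom' h h')),
    c'.preimage_mem_nhds (Sys.dom_nhds (Sys.τ_dom' h' h))] with s a1 a2 a3
  by_cases e : S.c x (f s) ∈ S.c u '' ball 0 1
  · exact (Sys.τ_eq (Sys.τ_ball a2) ((Sys.c_τ a2).trans (Function.invFunOn_eq e))).symm
  · have e' : S.c x (f s) ∉ S.c u' '' ball 0 1 := fun e' => e (by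
      have a4 : S.c u' (S.τ x u' (f s)) = S.c x (f s) := Function.invFunOn_eq e'
      exact a4 ▸ a3.2)
    rw [hv _ _ e, hv _ _ e']
    exact a1 (hv _ _ e) (hv _ _ e')

theorem jet_comp {J : ℕ} {g : W → A} {g' : W → U} {ph : A → U} (hg : ContDiffAt ℝ ∞ g 0)
    (hg' : ContDiffAt ℝ ∞ g' 0) (hph : ContDiffAt ℝ ∞ ph (g 0))
    (e : ∀ᶠ s in 𝓝 0, ph (g s) = g' s) :
    jet J (poly (jet J g' 0)) 0 = jet J (ph ∘ poly (jet J g 0)) 0 := by
  have h0 := StayAux.cast_le J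
  have h1 := (flat_taylor (hg.of_le h0)).neg
  simp only [sub_zero, neg_sub] at h1
  rw [jet_poly_jet (hg'.of_le h0), ← jet_congr (f := fun s => ph (g s)) e, eq_comm]
  exact (jet_eq_iff (ContDiffAt.comp 0 (by rw [poly_jet_zero]; exact hph.of_le h0)
    (contDiffAt_poly _ J 0)) ((hph.comp 0 hg).of_le h0)).2
      (h1.map hg.continuousAt (hph.of_le (StayAux.cast_le 1)))

end CAp

namespace Sys

variable (S : Sys Γ X B E V)

section Ap

variable {S} {A W : Type} [NormedAddCommGroup A] [NormedSpace ℝ A] [FiniteDimensional ℝ A]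
  [NormedAddCommGroup W] [NormedSpace ℝ W] [FiniteDimensional ℝ W] {h β K D ε : ℝ} {i₁ J n₁ : ℕ}
  {x₀ : X} {Pt : A × W → V}

theorem Coef.mono (hc : S.Coef h β K D i₁ J n₁ x₀ Pt ε) {K' : ℝ} (hK : K' ≤ K) :
    S.Coef h β K' D i₁ J n₁ x₀ Pt ε := by
  refine ⟨hc.mem, fun i => ?_⟩
  obtain ⟨C, hC⟩ := hc.bd i
  refine ⟨|C|, fun n hn y hy z hz y' hy' => ?_⟩
  obtain ⟨h1, h2⟩ := hC n hn y hy z hz y' hy'
  have h3 := le_abs_self C
  exact ⟨h1.trans (by gcongr), fun j hj => (h2 j hj).trans (by gcongr)⟩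
theorem contDiffAt_co {z : X} {t : ℝ} {y : A} (hs : ContDiffAt ℝ ∞ (S.Th x₀ Pt z t) (y, 0)) :
    ContDiffAt ℝ ∞ (S.co J x₀ Pt z t) y :=
  contDiffAt_pi.2 fun j => ContDiffAt.comp (f := fun y : A => (y, (0 : W))) y
    (CAp.contDiffAt_slice hs j) (by fun_prop)
theorem contDiffAt_ap {z : X} {t : ℝ} {y : A} (hs : ContDiffAt ℝ ∞ (S.Th x₀ Pt z t) (y, 0))
    (s : W) : ContDiffAt ℝ ∞ (S.ap J x₀ Pt z t) (y, s) :=
  contDiff_poly₂.contDiffAt.comp (y, s)
    ((ContDiffAt.comp (g := S.co J x₀ Pt z t) (y, s) (contDiffAt_co hs) contDiffAt_fst).prodMk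
      contDiffAt_snd)
/-- the derivatives of the approximants -/
theorem Coef.ap_bd (hc : S.Coef h β K D i₁ J n₁ x₀ Pt ε) (hβ : 0 < β) (R : ℝ) (i : ℕ) :
    ∃ C, ∀ n ≥ n₁, ∀ y ∈ ball (0 : A) ε, ∀ z, S.Ov x₀ Pt y z →
      ∀ p ∈ ball y (2 * Real.exp (-β * n)) ×ˢ ball (0 : W) R,
        ‖iteratedFDeriv ℝ i (S.ap J x₀ Pt z (n * h)) p‖
          ≤ C * Real.exp (β * i * n) * (3 / 4) ^ n := by
  choose C hC using hc.bd
  choose L hL using fun k : ℕ => (isCompact_closedBall (0 : W) R).exists_bound_of_continuousOn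
    ((contDiff_polyL (k := J) (V := W) (W := V)).continuous_iteratedFDeriv
      (StayAux.cast_le k)).continuousOn
  refine ⟨∑ k ∈ Finset.range (i + 1), (i.choose k : ℝ) * L k * |C (i - k)|,
    fun n hn y hy z hz p hp => ?_⟩
  have h1 : ContDiffOn ℝ ∞ (S.co J x₀ Pt z (n * h)) (ball y (2 * Real.exp (-β * n))) :=
    fun y' hy' => (contDiffAt_co (hc.mem n hn y hy z hz y' hy').2.2.1).contDiffWithinAt
  have hO : IsOpen (Prod.fst ⁻¹' ball y (2 * Real.exp (-β * n)) : Set (A × W)) :=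
    isOpen_ball.preimage continuous_fst
  have hp1 : p ∈ Prod.fst ⁻¹' ball y (2 * Real.exp (-β * n)) := hp.1
  have h2 := norm_iteratedFDerivWithin_clm_apply (f := fun p : A × W => polyL J W V p.2)
    (s := Prod.fst ⁻¹' ball y (2 * Real.exp (-β * n)))
    (g := fun p => S.co J x₀ Pt z (n * h) p.1) (contDiff_polyL.comp contDiff_snd).contDiffOn
    (h1.comp contDiffOn_fst fun _ hq => hq) hO.uniqueDiffOn hp1 (StayAux.cast_le i)
  simp only [iteratedFDerivWithin_of_isOpen _ hO hp1, polyL_apply] at h2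
  refine h2.trans ?_
  rw [Finset.sum_mul, Finset.sum_mul]
  refine Finset.sum_le_sum fun k _ => ?_
  have h3 := (CAp.norm_comp_le (ContinuousLinearMap.snd ℝ A W) (ContinuousLinearMap.norm_snd_le ..)
    isOpen_univ (contDiff_polyL (k := J) (V := W) (W := V)).contDiffOn (p := p) (mem_univ _) k).trans
      (hL k p.2 (ball_subset_closedBall hp.2))
  have h4 := (CAp.norm_comp_le (ContinuousLinearMap.fst ℝ A W) (ContinuousLinearMap.norm_fst_le ..)
    isOpen_ball h1 hp.1 (i - k)).trans (hC (i - k) n hn y hy z hz p.1 hp.1).1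
  have h5 : C (i - k) * Real.exp (β * (i - k : ℕ) * n) * (3 / 4) ^ n ≤
      |C (i - k)| * Real.exp (β * i * n) * (3 / 4) ^ n := by
    have := le_abs_self (C (i - k))
    gcongr
    exact Nat.sub_le i k
  have h6 := (norm_nonneg _).trans h3
  refine (mul_le_mul (mul_le_mul_of_nonneg_left h3 (Nat.cast_nonneg _)) (h4.trans h5)
    (norm_nonneg _) (by positivity)).trans (le_of_eq ?_)
  ring
/-- the defect -/
theorem Coef.defect (hc : S.Coef h β K D i₁ J n₁ x₀ Pt ε) (hβ : 0 < β) (hh : 0 < h) {P : ℕ}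
    (hP : (3 / 4 : ℝ) ^ P ≤ Real.exp (-K)) (hJ : i₁ * P ≤ J) (R : ℝ) :
    ∃ (C : ℝ) (n₂ : ℕ), ∀ n ≥ n₂, ∀ n', n' = n ∨ n' = n + 1 → ∀ y ∈ ball (0 : A) ε,
      ∀ y' ∈ ball (0 : A) ε, ∀ z z', S.Ov x₀ Pt y z → S.Ov x₀ Pt y' z' →
      ∀ p ∈ (ball y (2 * Real.exp (-β * n)) ∩ ball y' (2 * Real.exp (-β * n'))) ×ˢ ball (0 : W) R,
        S.ap J x₀ Pt z (n * h) p ∈ S.dom (S.φ (n * h) z) (S.φ (n' * h) z') ∧
        ‖S.τ (S.φ (n * h) z) (S.φ (n' * h) z') (S.ap J x₀ Pt z (n * h) p)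
          - S.ap J x₀ Pt z' (n' * h) p‖ ≤ C * Real.exp (-K * n) := by
  obtain ⟨C, hC⟩ := hc.bd 0
  obtain ⟨r, hr, hU⟩ := S.unif_dom (D + D) (by norm_num : (1 / 4 : ℝ) < 1 / 2) (by norm_num)
  obtain ⟨L, hL, hB⟩ := S.unif_bd jc_τ (fun g _ _ _ hq => τ_smul g hq) (D + D)
    (by norm_num : (1 / 2 : ℝ) < 1) (J + 1)
  set M := |C| + 1
  have hM : 1 ≤ M := le_add_of_nonneg_left (abs_nonneg C)
  have hCM : C ≤ M := (le_abs_self C).trans (le_add_of_nonneg_right zero_le_one)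
  have t1 : ∀ c δ : ℝ, 0 < δ → ∀ᶠ n : ℕ in atTop, c * (3 / 4) ^ n < δ := fun c δ hδ =>
    ((tendsto_pow_atTop_nhds_zero_of_lt_one (by norm_num : (0 : ℝ) ≤ 3 / 4)
      (by norm_num)).const_mul c).eventually (gt_mem_nhds (by rwa [mul_zero]))
  obtain ⟨n₂, hn₂⟩ := eventually_atTop.1 ((eventually_ge_atTop n₁).and
    ((t1 M _ (by norm_num : (0 : ℝ) < 1 / 4)).and (t1 ((1 + R) ^ (J + 1) * M) _ (half_pos hr))))
  refine ⟨(1 + R) ^ (J + 1) * (An.polyC J (J + 1) L M R * (M + 1)), n₂,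
    fun n hn n' hn' y hy y' hy' z z' hz hz' p hp => ?_⟩
  have hnn : n ≤ n' := by omega
  obtain ⟨a1, a2, a3⟩ := hn₂ n hn
  obtain ⟨b1, b2, -⟩ := hn₂ n' (hn.trans hnn)
  obtain ⟨-, c1, c2, c3⟩ := hc.mem n a1 y hy z hz p.1 hp.1.1
  obtain ⟨-, d1, d2, d3⟩ := hc.mem n' b1 y' hy' z' hz' p.1 hp.1.2
  obtain ⟨e1, e2⟩ := hC n a1 y hy z hz p.1 hp.1.1
  have e3 := (hC n' b1 y' hy' z' hz' p.1 hp.1.2).1
  simp only [norm_iteratedFDeriv_zero, Nat.cast_zero, mul_zero, zero_mul, Real.exp_zero,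
    mul_one] at e1 e2 e3
  replace e1 := e1.trans (mul_le_mul_of_nonneg_right hCM (by positivity))
  replace e3 := e3.trans (mul_le_mul_of_nonneg_right hCM (by positivity))
  obtain ⟨w, hw⟩ : ∃ w, S.Ov x₀ Pt p.1 w := S.exists_frame_lv (S.c_ne x₀ _ c1.1) _
  have hd : dist (S.φ (n * h) z) (S.φ (n' * h) z') ≤ D + D :=
    (dist_triangle_right _ _ _).trans (add_le_add (c3 w hw (n' * h) (by
      rcases hn' with rfl | rfl
      · simpa using hh.le
      · rw [Nat.cast_succ, add_mul, add_sub_cancel_left, one_mul, abs_of_pos hh]))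
      (d3 w hw (n' * h) (by simpa using hh.le)))
  have hR : 0 ≤ R := (norm_nonneg _).trans (mem_ball_zero_iff.1 hp.2).le
  have f1 : ∀ (a : Jet J W V) j (hj : j ≤ J),
      ‖iteratedFDeriv ℝ j (poly a) 0‖ ≤ ‖a ⟨j, Nat.lt_succ_of_le hj⟩‖ := fun a j hj =>
    An.norm_iter_tpoly_le a ⟨j, Nat.lt_succ_of_le hj⟩
  have f2 : ∀ (a : Jet J W V) j (hj : j ≤ J), ‖iteratedFDeriv ℝ j (poly a) 0‖ ≤ ‖a‖ :=
    fun a j hj => (f1 a j hj).trans (norm_le_pi_norm a _)
  have f3 : ∀ a : Jet J W V, ‖poly a 0‖ ≤ ‖a‖ := fun a => by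
    simpa only [norm_iteratedFDeriv_zero] using f2 a 0 (Nat.zero_le J)
  have f4 : ∀ s ∈ closedBall (0 : W) R, ‖poly (S.co J x₀ Pt z (n * h) p.1) s‖ ≤ r / 2 := by
    intro s hs
    have := (An.isPoly_tpoly (S.co J x₀ Pt z (n * h) p.1)).norm_iter_le (j := 0) (by positivity)
      (fun k _ hk => (f2 _ k hk).trans e1) hs
    rw [norm_iteratedFDeriv_zero, ← mul_assoc] at this
    exact this.trans a3.le
  have g0 : ∀ z t, poly (S.co J x₀ Pt z t p.1) 0 = S.τ x₀ (S.φ t z) (Pt (p.1, 0)) := fun z t =>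
    poly_jet_zero _ _
  have g1 : ∀ s ∈ closedBall (0 : W) R, _ := fun s hs =>
    hU _ _ hd _ (τ_dom' c1 d1) (g0 z _ ▸ ((f3 _).trans e1).trans a2.le)
      (by rw [τ_trans c1 d1, ← g0]; exact ((f3 _).trans e3).trans b2.le)
      (poly (S.co J x₀ Pt z (n * h) p.1) s) (by
        rw [mem_closedBall_iff_norm, ← g0]
        linarith [norm_sub_le (poly (S.co J x₀ Pt z (n * h) p.1) s)
          (poly (S.co J x₀ Pt z (n * h) p.1) 0), f4 s hs, f4 0 (mem_closedBall_self hR)])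
  have g2 : ContDiffAt ℝ ∞ (fun s : W => (p.1, s)) 0 := by fun_prop
  have g3 := CAp.jet_comp (J := J) (c2.comp 0 g2) (d2.comp 0 g2) (contDiffAt_τ (τ_dom' c1 d1))
    (CAp.tau_ev (f := fun s : W => Pt (p.1, s)) c1 d1 (c2.comp 0 g2).continuousAt
      (d2.comp 0 g2).continuousAt)
  have g4 := (An.isPoly_tpoly (S.co J x₀ Pt z (n * h) p.1)).defect_small
    (An.isPoly_tpoly (S.co J x₀ Pt z' (n' * h) p.1)) (ph := S.τ (S.φ (n * h) z) (S.φ (n' * h) z'))
    (i0 := i₁) (P := P) (C0 := L) (η := (3 / 4) ^ n) (ε := M * Real.exp (-K * n)) (i := 0) le_rfl hM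
    (by positivity) (pow_le_one₀ (by norm_num) (by norm_num)) (by positivity)
    (fun s hs => (contDiffAt_τ (g1 s hs).1).of_le (StayAux.cast_le _))
    (fun s hs j _ hj => hB _ _ hd _ (g1 s hs).1 (g1 s hs).2.1 (g1 s hs).2.2 j hj)
    (fun j hj => congrFun g3 ⟨j, Nat.lt_succ_of_le hj⟩) (fun j _ hj => (f2 _ j hj).trans e1)
    (fun j h0 _ hj => ((f1 _ j hj).trans (e2 _ h0)).trans
      (mul_le_mul_of_nonneg_right hCM (by positivity)))
    (hJ.trans (Nat.le_succ J)) (Nat.zero_le _) (ball_subset_closedBall hp.2)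
  rw [norm_iteratedFDeriv_zero] at g4
  refine ⟨(g1 _ (ball_subset_closedBall hp.2)).1, g4.trans ?_⟩
  have g5 : ((3 / 4 : ℝ) ^ n) ^ P ≤ Real.exp (-K * n) := by
    rw [← pow_mul, mul_comm n, pow_mul, mul_comm (-K), Real.exp_nat_mul]
    exact pow_le_pow_left₀ (by positivity) hP n
  have g6 : 0 ≤ An.polyC J (J + 1) L M R := by
    have := An.nPart_nonneg (J + 1)
    unfold An.polyC
    positivity
  rw [mul_assoc, mul_assoc, add_mul M, one_mul]
  gcongr

end Ap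

end Sys

end Vale.Agent.P207Z
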