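import Vale.Agent.P207Z.Real.CShad
import Vale.Agent.P207Z.Real.CAp
import Vale.Agent.P207Z.An.LK

/-!
# P207 REAL, CORE: the approximants are compatible
-/

set_option linter.all false

open Set Filter Topology Metric
open scoped ContDiff

noncomputable section

namespace Vale.Agent.P207Z

namespace CEst

variable {U U' U'' : Type} [NormedAddCommGroup U] [NormedSpace ℝ U] [NormedAddCommGroup U']
  [NormedSpace ℝ U'] [NormedAddCommGroup U''] [NormedSpace ℝ U''] {N : ℕ} {c d : ℝ} {f : U → U'}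
  {q : U}

/-- geometric bounds for the derivatives at a point -/
def PB (N : ℕ) (c : ℝ) (f : U → U') (q : U) : Prop :=
  ContDiffAt ℝ ∞ f q ∧ ∀ i ≤ N, ‖iteratedFDeriv ℝ i f q‖ ≤ c ^ i

theorem PB.comp {g : U' → U''} (hg : PB N c g (f q)) (hf : PB N d f q) (hc : 1 ≤ c) (hd : 0 ≤ d) :
    PB N (N * c * d) (fun y => g (f y)) q := by
  refine ⟨hg.1.comp q hf.1, fun i hi => ?_⟩
  obtain ⟨t, ht, h1⟩ := hg.1.contDiffOn (m := i) (by exact_mod_cast le_top) (by simp)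
  obtain ⟨s, hs, h2⟩ := hf.1.contDiffOn (m := i) (by exact_mod_cast le_top) (by simp)
  obtain ⟨t', t1, t2, t3⟩ := _root_.mem_nhds_iff.1 ht
  obtain ⟨s', s1, s2, s3⟩ := _root_.mem_nhds_iff.1
    (inter_mem hs (hf.1.continuousAt (t2.mem_nhds t3)))
  have k := norm_iteratedFDerivWithin_comp_le (h1.mono t1) (h2.mono fun y hy => (s1 hy).1) le_rfl
    t2.uniqueDiffOn s2.uniqueDiffOn (fun y hy => (s1 hy).2) s3 (C := c ^ i) (D := d)
    (fun j hj => by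
      rw [iteratedFDerivWithin_of_isOpen _ t2 t3]
      exact (hg.2 j (hj.trans hi)).trans (pow_le_pow_right₀ hc hj)) fun j _ hj => by
      rw [iteratedFDerivWithin_of_isOpen _ s2 s3]
      exact hf.2 j (hj.trans hi)
  rw [iteratedFDerivWithin_of_isOpen _ s2 s3] at k
  refine k.trans ?_
  rw [mul_pow, mul_pow]
  gcongr
  exact_mod_cast (Nat.factorial_le_pow i).trans (Nat.pow_le_pow_left hi i)

theorem PB.congr {g : U → U'} (h : PB N c f q) (e : f =ᶠ[𝓝 q] g) : PB N c g q :=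
  ⟨h.1.congr_of_eventuallyEq e.symm, fun i hi => (e.iteratedFDeriv ℝ i).eq_of_nhds ▸ h.2 i hi⟩

theorem PB.of (hf : ContDiffAt ℝ ∞ f q) (h0 : ‖f q‖ ≤ 1) (hc : 1 ≤ c) (hd : 0 ≤ d)
    (h : ∀ i, 1 ≤ i → i ≤ N → ‖iteratedFDeriv ℝ i f q‖ ≤ c * d ^ i) : PB N (c * d) f q := by
  refine ⟨hf, fun i hi => ?_⟩
  rcases i.eq_zero_or_pos with rfl | k
  · rwa [norm_iteratedFDeriv_zero, pow_zero]
  · rw [mul_pow]
    exact (h i k hi).trans (mul_le_mul_of_nonneg_right (le_self_pow₀ hc k.ne') (by positivity))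

theorem exists_c (C : ℕ → ℝ) (N : ℕ) : ∃ c : ℝ, 1 ≤ c ∧ ∀ i ≤ N, C i ≤ c := by
  obtain ⟨c, hc⟩ := ((finite_Iic N).image C).bddAbove
  exact ⟨max c 1, le_max_right _ _, fun i hi => (hc (mem_image_of_mem C hi)).trans (le_max_left _ _)⟩

theorem arith {L a c b h g K K' x : ℝ} {n i : ℕ} (hi : i ≤ 3) (hL : 0 ≤ L) (ha : 0 ≤ a)
    (hc : 0 ≤ c) (hg : 0 ≤ g) (hx : 0 ≤ x) (hN : 3 * g + |K| ≤ N) (hK : b * h + 3 * g + K ≤ K')
    (e : x * Real.exp (-g * (n + 1)) ^ i ≤ L * (a * (Real.exp (b * ((n + 1) * h + 1)) *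
      Real.exp (-K' * n)) + 2 * (c * Real.exp ((g - 1) * (n + 1))) ^ N *
        Real.exp (-g * (n + 1)) ^ N)) :
    x ≤ L * (a * Real.exp (b * h + b + 3 * g) + 2 * c ^ N) * Real.exp (-K * n) := by
  have n0 : (0 : ℝ) ≤ n := n.cast_nonneg
  have k1 := (mul_le_mul_of_nonneg_left (pow_le_pow_of_le_one (Real.exp_pos _).le
    (Real.exp_le_one_iff.2 (by nlinarith : -g * (n + 1) ≤ 0)) hi) hx).trans e
  have p1 : Real.exp (b * ((n + 1) * h + 1)) * Real.exp (-K' * n) ≤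
      Real.exp (b * h + b + 3 * g) * Real.exp (-K * n) * Real.exp (-g * (n + 1)) ^ 3 := by
    simp only [← Real.exp_nat_mul, ← Real.exp_add]
    exact Real.exp_le_exp.2 (by push_cast; nlinarith)
  have p2 : Real.exp ((g - 1) * (n + 1)) ^ N * Real.exp (-g * (n + 1)) ^ N ≤
      Real.exp (-K * n) * Real.exp (-g * (n + 1)) ^ 3 := by
    simp only [← Real.exp_nat_mul, ← Real.exp_add]
    exact Real.exp_le_exp.2 (by push_cast; nlinarith [le_abs_self K, abs_nonneg K])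
  refine le_of_mul_le_mul_right (k1.trans ?_) (pow_pos (Real.exp_pos (-g * (n + 1))) 3)
  have p3 := mul_le_mul_of_nonneg_left (add_le_add (mul_le_mul_of_nonneg_left p1 ha)
    (mul_le_mul_of_nonneg_left p2 (by positivity : 0 ≤ 2 * c ^ N))) hL
  rw [mul_pow]
  linarith

theorem small {x δ : ℝ} (h0 : 0 ≤ x) (h1 : x < 1) (C : ℝ) (hδ : 0 < δ) :
    ∀ᶠ n : ℕ in atTop, C * x ^ n ≤ δ :=
  ((tendsto_pow_atTop_nhds_zero_of_lt_one h0 h1).const_mul C).eventually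
    (Iic_mem_nhds (by rwa [mul_zero]))

theorem mo {β : ℝ} (hβ : 0 < β) {m n : ℕ} (k : m ≤ n) : Real.exp (-β * n) ≤ Real.exp (-β * m) :=
  Real.exp_le_exp.2 (mul_le_mul_of_nonpos_left (Nat.cast_le.2 k) (by linarith))

theorem e1 {h : ℝ} (hh : 0 < h) {n₀ n : ℕ} (hn : n₀ ≤ n) :
    |((n₀ : ℝ) - n) * h| = (n - n₀) * h := by
  rw [abs_mul, abs_of_pos hh, abs_sub_comm, abs_of_nonneg (sub_nonneg.2 (Nat.cast_le.2 hn))]

end CEst

open CEst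

variable {Γ X B E V : Type} [Group Γ] [Countable Γ] [MetricSpace X] [ProperSpace X]
  [MulAction Γ X] [IsIsometricSMul Γ X] [MeasurableSpace X] [BorelSpace X]
  [TopologicalSpace B] [CompactSpace B] [T2Space B] [SecondCountableTopology B] [MulAction Γ B]
  [ContinuousConstSMul Γ B] [MeasurableSpace B] [BorelSpace B]
  [NormedAddCommGroup E] [InnerProductSpace ℝ E] [FiniteDimensional ℝ E]
  [NormedAddCommGroup V] [NormedSpace ℝ V] [FiniteDimensional ℝ V]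

namespace Sys

variable (S : Sys Γ X B E V)

section

variable {A W : Type} [NormedAddCommGroup A] [NormedSpace ℝ A] [FiniteDimensional ℝ A]
  [NormedAddCommGroup W] [NormedSpace ℝ W] [FiniteDimensional ℝ W]

/-- the bound of the defect -/
def Dfc (h β K C R ε : ℝ) (J n₂ : ℕ) (x₀ : X) (Pt : A × W → V) : Prop :=
  ∀ n ≥ n₂, ∀ n', n' = n ∨ n' = n + 1 → ∀ y ∈ ball (0 : A) ε,
    ∀ y' ∈ ball (0 : A) ε, ∀ z z', S.Ov x₀ Pt y z → S.Ov x₀ Pt y' z' →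
    ∀ p ∈ (ball y (2 * Real.exp (-β * n)) ∩ ball y' (2 * Real.exp (-β * n'))) ×ˢ ball (0 : W) R,
      S.ap J x₀ Pt z (n * h) p ∈ S.dom (S.φ (n * h) z) (S.φ (n' * h) z') ∧
      ‖S.τ (S.φ (n * h) z) (S.φ (n' * h) z') (S.ap J x₀ Pt z (n * h) p)
        - S.ap J x₀ Pt z' (n' * h) p‖ ≤ C * Real.exp (-K * n)

/-- the approximants, read at the time `n₀` -/
def Bk (h β b' c c₀ δ R ε : ℝ) (N J n₀ : ℕ) (x₀ : X) (Pt : A × W → V) (y₁ : A) (x₁ : X) : Prop :=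
  ∀ y ∈ ball (0 : A) ε ∩ ball y₁ (Real.exp (-β * n₀)), ∀ z, S.Ov x₀ Pt y z → ∀ n ≥ n₀,
    ∀ p ∈ ball y (2 * Real.exp (-β * n)) ×ˢ ball (0 : W) R,
    S.Stay (1 / 8) (S.φ (n * h) z) ((n₀ - n : ℝ) * h) (S.ap J x₀ Pt z (n * h) p) ∧
    ‖S.τ (S.φ (n * h) z) (S.φ (n₀ * h) z) (S.ap J x₀ Pt z (n * h) p)‖ ≤ 2 * δ ∧
    (∀ q : V, ‖q‖ ≤ 3 * δ → q ∈ S.dom (S.φ (n₀ * h) z) x₁ ∧ ‖S.τ (S.φ (n₀ * h) z) x₁ q‖ ≤ 1 / 4 ∧
      ∀ i ≤ N, ‖iteratedFDeriv ℝ i (S.τ (S.φ (n₀ * h) z) x₁) q‖ ≤ c₀) ∧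
    S.ap J x₀ Pt z (n * h) p ∈ S.dom (S.φ (n * h) z) x₁ ∧
    ‖S.bk h J x₀ Pt x₁ z n p‖ ≤ 1 / 4 ∧ ∀ w, b' * ((n - n₀) * h) + β * n ≤ w →
      PB N (c * Real.exp w) (S.bk h J x₀ Pt x₁ z n) p

end

theorem φ_back (h : ℝ) (z : X) (n₀ n : ℕ) :
    S.φ ((n₀ - n : ℝ) * h) (S.φ (n * h) z) = S.φ (n₀ * h) z := by
  rw [← S.φ_add]; congr 1; ring

theorem est_one {h β : ℝ} (hh : 0 < h) (hβ : 0 < β) : ∃ b' > 0, ∃ K₀ > 0, ∀ K' ≥ K₀,
    ∀ {A W : Type} [NormedAddCommGroup A] [NormedSpace ℝ A] [FiniteDimensional ℝ A]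
    [NormedAddCommGroup W] [NormedSpace ℝ W] [FiniteDimensional ℝ W] {x₀ : X} {Pt : A × W → V}
    {ε D C₁ R : ℝ} {i₁ J n₁ n₂ N : ℕ}, S.Coef h β K' D i₁ J n₁ x₀ Pt ε → 0 ≤ C₁ →
    S.Dfc h β K' C₁ R ε J n₂ x₀ Pt → (1 : ℝ) ≤ N → ∃ δ > 0, ∃ c ≥ 1, ∃ c₀ ≥ 0, ∃ n₃, ∀ n₀ ≥ n₃,
      ∀ y₁ ∈ ball (0 : A) ε, ∀ z₁, S.Ov x₀ Pt y₁ z₁ →
        S.Bk h β b' c c₀ δ R ε N J n₀ x₀ Pt y₁ (S.φ (n₀ * h) z₁) := by
  obtain ⟨Λ, a, Λ1, a0, sh⟩ := S.shadow hh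
  obtain ⟨b', b0', st⟩ := S.stay_τ (a := 1 / 8) (by norm_num)
  refine ⟨b', b0', 2 * Λ, by linarith,
    fun K' hK A W _ _ _ _ _ _ x₀ Pt ε D C₁ R i₁ J n₁ n₂ N hc C1 df N1 => ?_⟩
  obtain ⟨ρ, ρ0, ud⟩ := S.unif_dom D (a := 1 / 8) (a' := 1 / 4) (by norm_num) (by norm_num)
  obtain ⟨c₀, c0, ub⟩ := S.unif_bd jc_τ (fun g _ _ _ hq => τ_smul g hq) D
    (by norm_num : (1 / 4 : ℝ) < 1) N
  choose C₂ ap using hc.ap_bd hβ R
  obtain ⟨c₂, c2, hc₂⟩ := exists_c C₂ N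
  choose! C₃ _ hs using st
  obtain ⟨c₃, c3, hc₃⟩ := exists_c C₃ N
  obtain ⟨δ, δ0, δ1, δ2, δ3⟩ : ∃ δ > 0, δ ≤ a ∧ δ ≤ 1 / 16 ∧ δ ≤ ρ / 4 :=
    ⟨min (min a (1 / 16)) (ρ / 4), by positivity, by simp, by simp, by simp⟩
  have F0 : ∀ n : ℕ, 0 ≤ C₁ * Real.exp (-K' * n) := fun n => by positivity
  obtain ⟨n₃, h3⟩ := eventually_atTop.1 (((small (by norm_num : (0 : ℝ) ≤ 3 / 4) (by norm_num)
    (C₂ 0) δ0).and (small (Real.exp_pos (-K')).le (Real.exp_lt_one_iff.2 (by linarith))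
      (2 * Λ * C₁) δ0)).and ((eventually_ge_atTop n₁).and (eventually_ge_atTop n₂)))
  have F1 : ∀ n ≥ n₃, 2 * Λ * (C₁ * Real.exp (-K' * n)) ≤ δ ∧ C₁ * Real.exp (-K' * n) ≤ δ :=
    fun n hn => by
      have k := (h3 n hn).1.2
      rw [← Real.exp_nat_mul, mul_comm (n : ℝ), mul_assoc] at k
      exact ⟨k, (le_mul_of_one_le_left (F0 n) (by linarith)).trans k⟩
  have sm : ∀ n ≥ n₃, ∀ y ∈ ball (0 : A) ε, ∀ z, S.Ov x₀ Pt y z → ∀ p ∈ ball y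
      (2 * Real.exp (-β * n)) ×ˢ ball (0 : W) R, ‖S.ap J x₀ Pt z (n * h) p‖ ≤ δ :=
    fun n hn y hy z hz p hp => by
      simpa using (ap 0 n (h3 n hn).2.1 y hy z hz p hp).trans (by simpa using (h3 n hn).1.1)
  have c1 : 1 ≤ N * ((c₀ + 1) * 1) * c₃ :=
    one_le_mul_of_one_le_of_one_le (one_le_mul_of_one_le_of_one_le N1 (by linarith)) c3
  have c4 := one_le_mul_of_one_le_of_one_le (one_le_mul_of_one_le_of_one_le N1 c1) c2
  refine ⟨δ, δ0, _, c4, c₀, c0, n₃, fun n₀ h0 y₁ hy₁ z₁ hz₁ y hy z hz n hn p hp => ?_⟩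
  set x₁ := S.φ (n₀ * h) z₁
  have m1 : ∀ m ≤ n, p.1 ∈ ball y (2 * Real.exp (-β * m)) := fun m k =>
    ball_subset_ball (by linarith [mo hβ k]) hp.1
  obtain ⟨k1, k2⟩ := sh z (fun m => S.ap J x₀ Pt z (m * h) p) (fun m => C₁ * Real.exp (-K' * m))
    n₀ n hn (fun m k k' => (sm m (h0.trans k) y hy.1 z hz p ⟨m1 m k', hp.2⟩).trans δ1)
    (fun m k k' => df m (h3 m (h0.trans k)).2.2 _ (Or.inr rfl) y hy.1 y hy.1 z z hz hz p
      ⟨⟨m1 m k'.le, m1 _ k'⟩, hp.2⟩) fun m k => ⟨F0 m, (F1 m (h0.trans k)).2.trans δ1, by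
      have k3 : 2 * Λ ≤ Real.exp K' := by
        linarith [Real.add_one_le_exp K']
      have k4 : Real.exp (-K' * (m + 1 : ℕ)) * Real.exp K' = Real.exp (-K' * m) := by
        rw [← Real.exp_add]; congr 1; push_cast; ring
      have k5 := mul_le_mul_of_nonneg_left k3 (F0 (m + 1))
      rw [mul_assoc C₁ _ (Real.exp K'), k4] at k5
      linarith⟩
  have k3 : ‖S.τ (S.φ (n * h) z) (S.φ (n₀ * h) z) (S.ap J x₀ Pt z (n * h) p)‖ ≤ 2 * δ := by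
    have := norm_le_insert' (S.τ (S.φ (n * h) z) (S.φ (n₀ * h) z) (S.ap J x₀ Pt z (n * h) p))
      (S.ap J x₀ Pt z (n₀ * h) p)
    linarith [sm n₀ h0 y hy.1 z hz p ⟨m1 _ hn, hp.2⟩, (F1 n₀ h0).1]
  have m2 : y ∈ ball y₁ (2 * Real.exp (-β * n₀)) :=
    ball_subset_ball (by linarith [Real.exp_pos (-β * n₀)]) hy.2
  have m3 : y ∈ ball y (2 * Real.exp (-β * n₀)) := mem_ball_self (by positivity)
  have d1 : dist (S.φ (n₀ * h) z) x₁ ≤ D := (dist_comm _ _).trans_le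
    ((hc.mem n₀ (h3 n₀ h0).2.1 y₁ hy₁ z₁ hz₁ y m2).2.2.2 z hz _ (by simp [hh.le]))
  obtain ⟨d2, d3⟩ := df n₀ (h3 n₀ h0).2.2 _ (Or.inl rfl) y hy.1 y₁ hy₁ z z₁ hz hz₁ (y, p.2)
    ⟨⟨m3, m2⟩, hp.2⟩
  have d4 := sm n₀ h0 y hy.1 z hz (y, p.2) ⟨m3, hp.2⟩
  have d5 := sm n₀ h0 y₁ hy₁ z₁ hz₁ (y, p.2) ⟨m2, hp.2⟩
  have d6 := ud _ _ d1 _ d2 (by linarith) (by
    linarith [norm_le_insert' (S.τ (S.φ (n₀ * h) z) x₁ (S.ap J x₀ Pt z (n₀ * h) (y, p.2)))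
      (S.ap J x₀ Pt z₁ (n₀ * h) (y, p.2)), (F1 n₀ h0).2])
  have d7 : ∀ q : V, ‖q‖ ≤ 3 * δ → q ∈ S.dom (S.φ (n₀ * h) z) x₁ ∧
      ‖S.τ (S.φ (n₀ * h) z) x₁ q‖ ≤ 1 / 4 ∧
      ∀ i ≤ N, ‖iteratedFDeriv ℝ i (S.τ (S.φ (n₀ * h) z) x₁) q‖ ≤ c₀ := fun q hq => by
    obtain ⟨u1, u2, u3⟩ := d6 q (mem_closedBall_iff_norm.2 ((norm_sub_le _ _).trans
      (by linarith)))
    exact ⟨u1, u3, ub _ _ d1 q u1 u2 u3⟩
  obtain ⟨u1, u2, u3⟩ := d7 _ (k3.trans (by linarith))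
  have u4 := (k1 _ right_mem_uIcc).1
  rw [φ_back] at u4
  have u5 := dom_trans u4 u1
  refine ⟨k1, k3, d7, u5, by rwa [τ_trans u4 u5] at u2, fun w hw => ?_⟩
  have p1 := PB.of (N := N) (contDiffAt_τ u1) (by linarith) (by linarith : 1 ≤ c₀ + 1)
    zero_le_one fun i _ hi => (u3 i hi).trans (by simp)
  have p2 := PB.of (N := N) (contDiffAt_τ u4) (by linarith) c3
    (Real.exp_pos (b' * ((n - n₀) * h))).le fun i k hi => by
      have := hs i k _ _ _ k1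
      rw [φ_back, e1 hh hn] at this
      rw [← Real.exp_nat_mul]
      exact this.trans (mul_le_mul (hc₃ i hi) (le_of_eq (by congr 1; ring)) (by positivity)
        (by linarith))
  have p3 := PB.of (N := N) (contDiffAt_ap (J := J) (hc.mem n (h3 n (h0.trans hn)).2.1 y hy.1 z hz
    p.1 hp.1).2.2.1 p.2) ((sm n (h0.trans hn) y hy.1 z hz p hp).trans (by linarith)) c2
    (Real.exp_pos (β * n)).le fun i k hi => by
      refine (ap i n (h3 n (h0.trans hn)).2.1 y hy.1 z hz p hp).trans ?_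
      rw [← Real.exp_nat_mul, mul_assoc (C₂ i)]
      refine (mul_le_mul_of_nonneg_right (hc₂ i hi) (by positivity)).trans
        (mul_le_mul_of_nonneg_left ((mul_le_of_le_one_right (by positivity)
          (pow_le_one₀ (by norm_num) (by norm_num))).trans (le_of_eq (by congr 1; ring)))
          (by linarith))
  have p4 := ((p1.comp p2 (by linarith) (by positivity)).congr (τ_trans_ev u4 u5)).comp p3 (by
    rw [← mul_assoc]
    exact one_le_mul_of_one_le_of_one_le c1 (Real.one_le_exp (mul_nonneg b0'.le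
      (e1 hh hn ▸ abs_nonneg _)))) (by positivity)
  refine ⟨p4.1, fun i hi => (p4.2 i hi).trans (pow_le_pow_left₀ (by positivity) ?_ _)⟩
  refine le_of_eq_of_le ?_ (mul_le_mul_of_nonneg_left (Real.exp_le_exp.2 hw) (by linarith))
  rw [Real.exp_add]
  ring

theorem est {h β : ℝ} (hh : 0 < h) (hβ : 0 < β) (K : ℝ) : ∃ K' : ℝ, ∀ i₁ : ℕ, ∃ J₀, ∀ J ≥ J₀,
    ∀ (A W : Type) [NormedAddCommGroup A] [NormedSpace ℝ A] [FiniteDimensional ℝ A]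
    [NormedAddCommGroup W] [NormedSpace ℝ W] [FiniteDimensional ℝ W] (x₀ : X) (Pt : A × W → V)
    (ε D : ℝ) (n₁ : ℕ), S.Coef h β K' D i₁ J n₁ x₀ Pt ε → S.Est h β K J x₀ Pt ε := by
  obtain ⟨b', b0', K₀, K0, h1⟩ := S.est_one hh hβ
  obtain ⟨b, r, b0, r0, sb⟩ := S.stay_ball (a := 1 / 8) (a' := 1 / 4) (by norm_num) (by norm_num)
  obtain ⟨g, hg⟩ : ∃ g, g = b' * h + β + 1 := ⟨_, rfl⟩
  have g0 : β + 1 ≤ g := by linarith [mul_pos b0' hh]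
  obtain ⟨N, hN⟩ := exists_nat_ge (3 * g + |K|)
  have N3 : (3 : ℝ) ≤ N := by linarith [abs_nonneg K]
  obtain ⟨K', hK⟩ : ∃ K', K' = b * h + 3 * g + |K| + K₀ := ⟨_, rfl⟩
  have bh : 0 < b * h := by positivity
  obtain ⟨P, hP⟩ := exists_pow_lt_of_lt_one (Real.exp_pos (-K')) (by norm_num : (3 / 4 : ℝ) < 1)
  obtain ⟨L, L1, lk⟩ := An.lk_ball.{0} N
  refine ⟨K', fun i₁ => ⟨i₁ * P, fun J hJ A W _ _ _ _ _ _ x₀ Pt ε D n₁ hc R => ?_⟩⟩
  obtain ⟨C₀, n₂, df⟩ := hc.defect hβ hh hP.le hJ (R + 1)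
  obtain ⟨C₁, C1, hC⟩ : ∃ C₁, 0 ≤ C₁ ∧ C₀ ≤ C₁ := ⟨_, abs_nonneg _, le_abs_self _⟩
  replace df : S.Dfc h β K' C₁ (R + 1) ε J n₂ x₀ Pt :=
    fun n hn n' hn' y hy y' hy' z z' hz hz' p hp =>
      (df n hn n' hn' y hy y' hy' z z' hz hz' p hp).imp_right fun k =>
        k.trans (mul_le_mul_of_nonneg_right hC (Real.exp_pos _).le)
  obtain ⟨δ, δ0, c, c4, c₀, c0, n₄, h4⟩ := h1 K' (by linarith [abs_nonneg K]) hc C1 df
    (N := N) (by linarith)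
  obtain ⟨F, hF⟩ : ∃ F : ℕ → ℝ, ∀ n, F n =
    Real.exp (b * ((n + 1) * h + 1)) * (C₁ * Real.exp (-K' * n)) := ⟨_, fun _ => rfl⟩
  obtain ⟨n₃, h3⟩ := eventually_atTop.1 ((small (Real.exp_pos (b * h - K')).le
    (Real.exp_lt_one_iff.2 (by linarith [abs_nonneg K])) (Real.exp (b * h + b) * C₁)
      (lt_min δ0 (half_pos r0))).and ((eventually_ge_atTop n₄).and (eventually_ge_atTop n₂)))
  have F1 : ∀ n ≥ n₃, F n ≤ δ ∧ F n ≤ r / 2 := fun n hn => by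
    refine le_min_iff.1 (le_of_eq_of_le ?_ (h3 n hn).1)
    rw [hF, mul_left_comm _ C₁, mul_right_comm _ C₁, mul_comm _ C₁, ← Real.exp_nat_mul,
      ← Real.exp_add, ← Real.exp_add]
    congr 2
    ring
  refine ⟨max (c ^ 3) (L * (c₀ * C₁ * Real.exp (b * h + b + 3 * g) + 2 * c ^ N)), n₃,
    fun n₀ h0 y₁ hy₁ z₁ hz₁ => ?_⟩
  have one := h4 n₀ (h3 n₀ h0).2.1 y₁ hy₁ z₁ hz₁
  generalize S.φ (n₀ * h) z₁ = x₁ at one ⊢
  clear h1 h4 hc
  intro n hn y hy z hz p hp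
  have m0 : ∀ {y : A} {n m : ℕ}, m ≤ n → p.1 ∈ ball y (Real.exp (-β * n)) →
      p ∈ ball y (2 * Real.exp (-β * m)) ×ˢ ball (0 : W) (R + 1) := fun {_ _ m} k k' =>
    ⟨ball_subset_ball (by linarith [mo hβ k, Real.exp_pos (-β * m)]) k',
      ball_subset_ball (by linarith) hp.2⟩
  obtain ⟨-, -, -, k1, k2, k3⟩ := one y hy z hz n hn p (m0 le_rfl hp.1)
  have N4 : 3 ≤ N := by exact_mod_cast N3
  refine ⟨k1, by linarith, (k3 _ le_rfl).1, fun i hi => ?_, fun n' hn' y' hy' z' hz' hp' i hi => ?_⟩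
  · refine (((one y hy z hz n₀ le_rfl p (m0 hn hp.1)).2.2.2.2.2 (β * n₀) (by simp)).2 i
      (hi.trans N4)).trans ((pow_le_pow_right₀ (one_le_mul_of_one_le_of_one_le c4
        (Real.one_le_exp (by positivity))) hi).trans ?_)
    rw [mul_pow, ← Real.exp_nat_mul]
    exact mul_le_mul (le_max_left _ _) (le_of_eq (by congr 1; push_cast; ring)) (by positivity)
      (by positivity)
  have a1 : n ≤ n' ∧ n' ≤ n + 1 := by omega
  have n0 : (0 : ℝ) ≤ n := n.cast_nonneg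
  have a2 : Real.exp (-g * (n + 1)) ≤ Real.exp (-β * (n + 1 : ℕ)) :=
    Real.exp_le_exp.2 (by push_cast; nlinarith)
  have a3 : ∀ {y : A} {m : ℕ}, m ≤ n + 1 → p.1 ∈ ball y (Real.exp (-β * m)) →
      ∀ p' ∈ closedBall p (Real.exp (-g * (n + 1))),
        p' ∈ ball y (2 * Real.exp (-β * m)) ×ˢ ball (0 : W) (R + 1) := fun {y m} k k' p' hp' => by
    obtain ⟨u1, u2⟩ := max_le_iff.1 (mem_closedBall.1 hp')
    have u3 := mo hβ (Nat.zero_le (n + 1))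
    rw [Nat.cast_zero, mul_zero, Real.exp_zero] at u3
    exact ⟨mem_ball.2 (by linarith [dist_triangle p'.1 p.1 y, mem_ball.1 k', mo hβ k]),
      mem_ball.2 (by linarith [dist_triangle p'.2 p.2 0, mem_ball.1 hp.2])⟩
  have a4 : ∀ m : ℕ, m ≤ n + 1 → b' * ((m - n₀) * h) + β * m ≤ (g - 1) * (n + 1) := fun m k => by
    have u1 : (m : ℝ) ≤ n + 1 := by exact_mod_cast k
    have u2 : (0 : ℝ) ≤ n₀ := n₀.cast_nonneg
    rw [hg]
    nlinarith [mul_pos b0' hh]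
  have q1 := fun p' hp'' => one y hy z hz n hn p' (a3 n.le_succ hp.1 p' hp'')
  have q2 := fun p' hp'' => one y' hy' z' hz' n' (hn.trans a1.1) p' (a3 a1.2 hp' p' hp'')
  have q3 := fun p' hp'' => (q1 p' hp'').2.2.2.2.2 _ (a4 _ n.le_succ)
  have q4 := fun p' hp'' => (q2 p' hp'').2.2.2.2.2 _ (a4 _ a1.2)
  have sub : ∀ j : ℕ, ∀ p' ∈ closedBall p (Real.exp (-g * (n + 1))), iteratedFDeriv ℝ j
      (fun p => S.bk h J x₀ Pt x₁ z n p - S.bk h J x₀ Pt x₁ z' n' p) p' =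
        iteratedFDeriv ℝ j (S.bk h J x₀ Pt x₁ z n) p' -
          iteratedFDeriv ℝ j (S.bk h J x₀ Pt x₁ z' n') p' := fun j p' k =>
    iteratedFDeriv_sub_apply ((q3 p' k).1.of_le (by exact_mod_cast le_top))
      ((q4 p' k).1.of_le (by exact_mod_cast le_top))
  have key := lk (fun p => S.bk h J x₀ Pt x₁ z n p - S.bk h J x₀ Pt x₁ z' n' p) p _ (c₀ * F n)
    (2 * (c * Real.exp ((g - 1) * (n + 1))) ^ N) (Real.exp_pos (-g * (n + 1)))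
    (fun p' k => ((q3 p' k).1.sub (q4 p' k).1).of_le (by exact_mod_cast le_top)) (fun p' k => ?_)
    (fun p' k => by
      rw [sub N p' k]
      exact (norm_sub_le _ _).trans (by linarith [(q3 p' k).2 N le_rfl, (q4 p' k).2 N le_rfl]))
    i (hi.trans N4)
  · rw [sub i p (mem_closedBall_self (Real.exp_pos _).le)] at key
    refine (arith (a := c₀ * C₁) (K' := K') hi (by linarith) (by positivity) (by linarith) (by linarith)
      (norm_nonneg _) hN (by linarith [le_abs_self K]) (key.trans_eq ?_)).trans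
      (mul_le_mul_of_nonneg_right (le_max_right _ _) (Real.exp_pos _).le)
    rw [hF]
    ring
  obtain ⟨d1, d2⟩ := df n (h3 n (h0.trans hn)).2.2 n' hn' y hy.1 y' hy'.1 z z' hz hz' p'
    ⟨⟨(a3 n.le_succ hp.1 p' k).1, (a3 a1.2 hp' p' k).1⟩, (a3 a1.2 hp' p' k).2⟩
  obtain ⟨s1, s2, s3, s4, -⟩ := q2 p' k
  have b1 : |((n₀ : ℝ) - n') * h| ≤ (n + 1) * h := by
    have u1 : (n' : ℝ) ≤ n + 1 := by exact_mod_cast a1.2
    rw [e1 hh (hn.trans a1.1)]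
    exact mul_le_mul_of_nonneg_right (by linarith [n₀.cast_nonneg (α := ℝ)]) hh.le
  have b2 := mul_le_mul (Real.exp_le_exp.2 (mul_le_mul_of_nonneg_left (add_le_add_left b1 1) b0.le))
    d2 (norm_nonneg _) (Real.exp_pos _).le
  rw [← hF] at b2
  obtain ⟨b3, b4⟩ := sb _ _ _ s1 _ (mem_ball_iff_norm.2 (by
    rw [neg_mul, Real.exp_neg, ← div_eq_mul_inv, lt_div_iff₀' (Real.exp_pos _)]
    refine ((mul_le_mul_of_nonneg_right (Real.exp_le_exp.2 (by linarith)) (norm_nonneg _)).trans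
      b2).trans_lt ((F1 n (h0.trans hn)).2.trans_lt (by linarith))))
  have b5 := (b3 _ right_mem_uIcc).1
  have b6 := (s1 _ right_mem_uIcc).1
  rw [φ_back] at b4 b5 b6
  have b7 := b4.trans b2
  have b8 := (norm_le_insert' _ _).trans (add_le_add s2 (b7.trans (F1 n (h0.trans hn)).1))
  have b9 := (convex_closedBall (0 : V) (3 * δ)).norm_image_sub_le_of_norm_fderiv_le (𝕜 := ℝ)
    (f := S.τ (S.φ (n₀ * h) z') x₁) (C := c₀)
    (fun q hq => differentiableAt_τ (s3 q (mem_closedBall_zero_iff.1 hq)).1) (fun q hq => by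
      rw [← norm_iteratedFDeriv_one]
      exact (s3 q (mem_closedBall_zero_iff.1 hq)).2.2 1 (by omega))
    (mem_closedBall_zero_iff.2 (s2.trans (by linarith)))
    (mem_closedBall_zero_iff.2 (b8.trans (by linarith)))
  have b10 := dom_trans b5 (s3 _ (b8.trans (by linarith))).1
  rw [τ_trans b5 b10, τ_trans d1 (dom_trans d1 b10), τ_trans b6 s4] at b9
  exact b9.trans (mul_le_mul_of_nonneg_left b7 c0)

end Sys

end Vale.Agent.P207Z
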