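import Vale.Agent.P207Z.Real.CDefs
import Vale.Agent.P207Z.End.Rep
import Vale.Agent.P207Z.An.Glue
import Vale.Agent.P207Z.JetB

/-!
# P207 REAL, CORE: the limit of the approximants
-/

set_option linter.all false

open Set Filter Topology Metric
open scoped ContDiff

noncomputable section

namespace Vale.Agent.P207Z

variable {Γ X B E V : Type} [Group Γ] [Countable Γ] [MetricSpace X] [ProperSpace X]
  [MulAction Γ X] [IsIsometricSMul Γ X] [MeasurableSpace X] [BorelSpace X]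
  [TopologicalSpace B] [CompactSpace B] [T2Space B] [SecondCountableTopology B] [MulAction Γ B]
  [ContinuousConstSMul Γ B] [MeasurableSpace B] [BorelSpace B]
  [NormedAddCommGroup E] [InnerProductSpace ℝ E] [FiniteDimensional ℝ E]
  [NormedAddCommGroup V] [NormedSpace ℝ V] [FiniteDimensional ℝ V]
  {A W : Type} [NormedAddCommGroup A] [NormedSpace ℝ A] [NormedAddCommGroup W] [NormedSpace ℝ W]

namespace Sys

variable {S : Sys Γ X B E V} {h β K ε : ℝ} {J : ℕ} {x₀ : X} {Pt : A × W → V}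

/-- tangency to the stable leaf does not depend on the frame -/
theorem glue_tan {z z' : X} {f : W → V} (hf : ContinuousAt f 0) (h0 : f 0 ∈ ball (0 : V) 1)
    (hz : S.pt z = S.c x₀ (f 0)) (hz' : S.pt z' = S.pt z)
    (h : Flat J (fun s => S.pU (S.τ x₀ z (f s))) 0) :
    Flat J (fun s => S.pU (S.τ x₀ z' (f s))) 0 := by
  obtain ⟨d1, e1⟩ := dom_of_pt h0 hz
  obtain ⟨d2, -⟩ := dom_of_pt h0 (hz'.trans hz)
  have hq : ContinuousAt (fun s => S.τ x₀ z (f s)) 0 := (continuousAt_τ d1).comp hf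
  have hg : ContinuousAt (fun s => S.iS (S.pS (S.τ x₀ z (f s)))) 0 :=
    S.iS.continuous.continuousAt.comp (S.pS.continuous.continuousAt.comp hq)
  have g0 : S.iS (S.pS (S.τ x₀ z (f 0))) = 0 := by rw [e1, map_zero, map_zero]
  have d0 : S.iS (S.pS (S.τ x₀ z (f 0))) ∈ S.dom z z' := by rw [g0]; exact zero_dom hz'.symm
  have h1 : Flat J (fun s => S.τ x₀ z (f s) - S.iS (S.pS (S.τ x₀ z (f s)))) 0 :=
    (h.clm S.iU).congr (Eventually.of_forall fun s =>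
      sub_eq_iff_eq_add'.2 (S.iS_add (S.τ x₀ z (f s))).symm)
  have h2 := h1.map (Φ := fun q => S.pU (S.τ z z' q)) hg
    (S.pU.contDiff.contDiffAt.comp _ ((contDiffAt_τ d0).of_le (by simp)))
  refine h2.congr ?_
  filter_upwards [hf (dom_nhds d1), hf (dom_nhds d2), hg (dom_nhds d0)] with s a b c
  have c' : S.iS (S.pS (S.τ x₀ z (f s))) ∈ S.dom z z' := c
  have e : S.pU (S.τ z z' (S.iS (S.pS (S.τ x₀ z (f s))))) = 0 := by
    refine (S.c_S z' _ (τ_ball c')).1 ?_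
    rw [c_τ c', (S.c_S z _ (dom_ball c')).2 (S.pU_iS _)]
    exact (congrArg Prod.snd hz').symm
  rw [τ_trans a b, e, sub_zero]

theorem poly_jet_clm {U : Type} [NormedAddCommGroup U] [NormedSpace ℝ U] (L : V →L[ℝ] U)
    {g : W → V} (hg : ContDiffAt ℝ ∞ g 0) (hf : Flat J (fun s => L (g s)) 0) (s : W) :
    L (poly (jet J g 0) s) = 0 := by
  have h1 : jet J (fun s => L (g s)) 0 = 0 :=
    (flat_iff_jet (L.contDiff.contDiffAt.comp 0 (hg.of_le (by exact_mod_cast le_top)))).1 hf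
  rw [poly, map_sum]
  refine Finset.sum_eq_zero fun i _ => ?_
  have h2 : iteratedFDeriv ℝ i (L ∘ g) 0 = 0 := congrFun h1 i
  rw [L.iteratedFDeriv_comp_left hg (by exact_mod_cast le_top)] at h2
  have h3 := congrArg (fun M : W [×(i : ℕ)]→L[ℝ] U => M fun _ => s) h2
  rw [map_smul]
  exact smul_eq_zero_of_right _ h3

theorem exp_nat (a : ℝ) (n : ℕ) : Real.exp (-a) ^ n = Real.exp (-a * n) := by
  rw [mul_comm, Real.exp_nat_mul]

/-- the limit in one chart -/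
theorem glue_loc (hβ : 0 < β) (hK : β < K) (he : S.Est h β K J x₀ Pt ε) {fr : A → X}
    (hfr : ∀ y ∈ ball (0 : A) ε, S.Ov x₀ Pt y (fr y)) (R : ℝ) :
    ∃ (C : ℝ) (n₁ : ℕ), ∀ n₀ ≥ n₁, ∀ y₁ ∈ ball (0 : A) ε, ∀ z₁, S.Ov x₀ Pt y₁ z₁ →
      ∃ Q : A × W → V,
        (∀ p ∈ (ball (0 : A) ε ∩ ball y₁ (Real.exp (-β * n₀))) ×ˢ ball (0 : W) R,
          ContDiffAt ℝ 2 Q p ∧ Q p ∈ ball (0 : V) 1 ∧
          Tendsto (fun n : ℕ => S.c (S.φ (n * h) (fr p.1)) (S.ap J x₀ Pt (fr p.1) (n * h) p)) atTop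
            (𝓝 (S.c (S.φ (n₀ * h) z₁) (Q p)))) ∧
        ∀ s ∈ ball (0 : W) R, ∀ i ≤ 2, ‖iteratedFDeriv ℝ i Q (y₁, s) -
          iteratedFDeriv ℝ i (S.ap J x₀ Pt z₁ (n₀ * h)) (y₁, s)‖ ≤ C * Real.exp (-K * n₀) := by
  have : CompleteSpace V := FiniteDimensional.complete ℝ V
  obtain ⟨C, n₁, he⟩ := he (R + 1)
  have hρ1 : Real.exp (-β) < 1 := Real.exp_lt_one_iff.2 (neg_neg_of_pos hβ)
  have hγρ : Real.exp (-K) < Real.exp (-β) := Real.exp_lt_exp.2 (neg_lt_neg hK)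
  refine ⟨C + C / (1 - Real.exp (-K)), n₁, fun n₀ hn₀ y₁ hy₁ z₁ hz₁ => ?_⟩
  replace he := he n₀ hn₀ y₁ hy₁ z₁ hz₁
  set O := (ball (0 : A) ε ∩ ball y₁ (Real.exp (-β * n₀))) ×ˢ ball (0 : W) R with hO
  set x := S.φ (n₀ * h) z₁ with hx
  have hOo : IsOpen O := (isOpen_ball.inter isOpen_ball).prod isOpen_ball
  have hb : ∀ (n : ℕ), ∀ p ∈ O, ∀ q ∈ ball p (Real.exp (-β) ^ n),
      q ∈ ball p.1 (Real.exp (-β * n)) ×ˢ ball (0 : W) (R + 1) := fun n p hp q hq => by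
    have h1 : Real.exp (-β) ^ n ≤ 1 := pow_le_one₀ (Real.exp_pos _).le hρ1.le
    rw [mem_ball, Prod.dist_eq, max_lt_iff] at hq
    refine ⟨by rw [← exp_nat]; exact hq.1, ?_⟩
    have h2 : dist p.2 0 < R := hp.2
    have h3 := dist_triangle q.2 p.2 0
    show dist q.2 0 < R + 1
    linarith [hq.2]
  have hs : ∀ (n : ℕ), ∀ p ∈ O, p ∈ ball p.1 (Real.exp (-β * n)) ×ˢ ball (0 : W) (R + 1) :=
    fun n p hp => hb n p hp p (mem_ball_self (pow_pos (Real.exp_pos _) _))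
  have hC1 : C ≤ |C| * (1 + Real.exp (β * 3 * n₀)) :=
    (le_abs_self C).trans (le_mul_of_one_le_right (abs_nonneg C)
      (le_add_of_nonneg_right (Real.exp_pos _).le))
  have hC2 : C * Real.exp (β * 3 * n₀) ≤ |C| * (1 + Real.exp (β * 3 * n₀)) :=
    mul_le_mul (le_abs_self C) (le_add_of_nonneg_left zero_le_one) (Real.exp_pos _).le
      (abs_nonneg C)
  obtain ⟨Q, q1, q2, q3⟩ := An.glue' 2 n₀ (O := O) (C := |C| * (1 + Real.exp (β * 3 * n₀)))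
    (Q := fun n p => S.bk h J x₀ Pt x (fr p.1) n) hOo (Real.exp_pos _) hρ1 (Real.exp_pos _).le hγρ
    (fun n hn p hp q hq => (he n hn p.1 hp.1 _ (hfr _ hp.1.1) q (hb n p hp q hq)).2.2.1.of_le
      (WithTop.coe_le_coe.2 (le_top (a := ((2 + 1 : ℕ) : ℕ∞)))))
    (fun n hn n' hn' p hp p' hp' q hq i hi =>
      ((he n hn p.1 hp.1 _ (hfr _ hp.1.1) q (hb n p hp q hq.1)).2.2.2.2 n' hn' p'.1 hp'.1 _
        (hfr _ hp'.1.1) (hb n' p' hp' q hq.2).1 i hi).trans (by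
          rw [exp_nat]; exact mul_le_mul_of_nonneg_right hC1 (Real.exp_pos _).le))
    (fun p hp q hq i hi =>
      ((he n₀ le_rfl p.1 hp.1 _ (hfr _ hp.1.1) q (hb n₀ p hp q hq)).2.2.2.1 i hi).trans hC2)
  refine ⟨Q, fun p hp => ?_, fun s hsR i hi => ?_⟩
  · have h1 : Q p ∈ ball (0 : V) 1 := by
      refine mem_ball_zero_iff.2 (lt_of_le_of_lt (le_of_tendsto (q2 p hp).norm ?_) one_half_lt_one)
      filter_upwards [eventually_ge_atTop n₀] with n hn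
      exact (he n hn p.1 hp.1 _ (hfr _ hp.1.1) p (hs n p hp)).2.1
    refine ⟨q1.contDiffAt (hOo.mem_nhds hp), h1, ?_⟩
    refine (((S.cont_c x).continuousAt (isOpen_ball.mem_nhds h1)).tendsto.comp (q2 p hp)).congr' ?_
    filter_upwards [eventually_ge_atTop n₀] with n hn
    exact c_τ (he n hn p.1 hp.1 _ (hfr _ hp.1.1) p (hs n p hp)).1
  · have hp : (y₁, s) ∈ O := ⟨⟨hy₁, mem_ball_self (Real.exp_pos _)⟩, hsR⟩
    have h1 : S.bk h J x₀ Pt x z₁ n₀ =ᶠ[𝓝 (y₁, s)] S.ap J x₀ Pt z₁ (n₀ * h) := by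
      filter_upwards [(isOpen_ball.prod isOpen_ball).mem_nhds (hs n₀ _ hp)] with q hq
      exact τ_self (dom_ball (he n₀ le_rfl y₁ hp.1 z₁ hz₁ q hq).1)
    rw [← (h1.iteratedFDeriv ℝ i).eq_of_nhds]
    have h2 := (he n₀ le_rfl y₁ hp.1 z₁ hz₁ _ (hs n₀ _ hp)).2.2.2.2 n₀ (Or.inl rfl) y₁ hp.1 _
      (hfr _ hy₁) (mem_ball_self (Real.exp_pos _)) i (by omega)
    have h3 := dist_le_of_le_geometric_of_tendsto₀ (Real.exp (-K)) (C * Real.exp (-K * n₀))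
      (hγρ.trans hρ1)
      (f := fun n => iteratedFDeriv ℝ i (S.bk h J x₀ Pt x (fr y₁) (n + n₀)) (y₁, s))
      (fun n => by
        rw [dist_eq_norm]
        refine ((he (n + n₀) (by omega) y₁ hp.1 _ (hfr _ hy₁) _ (hs _ _ hp)).2.2.2.2 (n + 1 + n₀)
          (Or.inr (by omega)) y₁ hp.1 _ (hfr _ hy₁) (mem_ball_self (Real.exp_pos _)) i
          (by omega)).trans (le_of_eq ?_)
        rw [← exp_nat, ← exp_nat, pow_add]
        ring)
      ((tendsto_add_atTop_iff_nat n₀).2 (q3 i hi _ hp))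
    rw [zero_add, dist_eq_norm] at h3
    have h4 := norm_sub_le_norm_sub_add_norm_sub
      (iteratedFDeriv ℝ i (S.bk h J x₀ Pt x z₁ n₀) (y₁, s))
      (iteratedFDeriv ℝ i (S.bk h J x₀ Pt x (fr y₁) n₀) (y₁, s)) (iteratedFDeriv ℝ i Q (y₁, s))
    rw [norm_sub_rev, add_mul, div_mul_eq_mul_div]
    linarith

variable (S) in
theorem glue_apx {A W : Type} [NormedAddCommGroup A] [NormedSpace ℝ A] [FiniteDimensional ℝ A]
    [NormedAddCommGroup W] [NormedSpace ℝ W] [FiniteDimensional ℝ W] {h β K ε C : ℝ} {J : ℕ}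
    {x₀ : X} {Pt : A × W → V} (hh : 0 < h) (hβ : 0 < β) (hK : β < K) (hp : S.Pre J x₀ Pt ε C)
    (he : S.Est h β K J x₀ Pt ε) : ∃ P, S.Apx h K J x₀ Pt ε P := by
  have : Nonempty X := ⟨x₀⟩
  have : Nonempty (B × B) := ⟨S.pt x₀⟩
  have hsub : ball (0 : A) ε ⊆ ball 0 (2 * ε) := ball_subset_ball (by linarith [hp.pos])
  have hm : ∀ y ∈ ball (0 : A) ε, Pt (y, 0) ∈ ball (0 : V) 1 := fun y hy =>
    mem_ball_zero_iff.2 ((hp.small y (hsub hy)).trans_lt (by norm_num))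
  choose! fr hfr using fun y (hy : y ∈ ball (0 : A) ε) =>
    (S.exists_frame_lv (S.c_ne x₀ _ (hm y hy)) (S.lv x₀) : ∃ z, S.Ov x₀ Pt y z)
  let G : A × W → ℕ → B × B := fun p n =>
    S.c (S.φ (n * h) (fr p.1)) (S.ap J x₀ Pt (fr p.1) (n * h) p)
  let P : A × W → B × B := fun p => limUnder atTop (G p)
  have hapx : ∀ R : ℝ, ∃ (C : ℝ) (n₁ : ℕ), ∀ n ≥ n₁, ∀ y ∈ ball (0 : A) ε, ∀ z, S.Ov x₀ Pt y z →
      ∀ s ∈ ball (0 : W) R, Tendsto (G (y, s)) atTop (𝓝 (P (y, s))) ∧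
        ∃ Q, S.Rep P (y, s) (S.φ (n * h) z) Q ∧ ∀ i ≤ 2,
        ‖iteratedFDeriv ℝ i Q (y, s) - iteratedFDeriv ℝ i (S.ap J x₀ Pt z (n * h)) (y, s)‖
          ≤ C * Real.exp (-K * n) := fun R => by
    obtain ⟨C', n₁, h1⟩ := glue_loc hβ hK he hfr R
    refine ⟨C', n₁, fun n hn y hy z hz s hs => ?_⟩
    obtain ⟨Q, h2, h3⟩ := h1 n hn y hy z hz
    have hq : (y, s) ∈ (ball (0 : A) ε ∩ ball y (Real.exp (-β * n))) ×ˢ ball (0 : W) R :=
      ⟨⟨hy, mem_ball_self (Real.exp_pos _)⟩, hs⟩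
    refine ⟨tendsto_nhds_limUnder ⟨_, (h2 _ hq).2.2⟩, Q, ⟨(h2 _ hq).1, (h2 _ hq).2.1, ?_⟩, h3 s hs⟩
    filter_upwards [((isOpen_ball.inter isOpen_ball).prod isOpen_ball).mem_nhds hq] with p hp
    exact (h2 p hp).2.2.limUnder_eq
  have hpt : ∀ y ∈ ball (0 : A) ε, ∀ t, S.pt (S.φ t (fr y)) = S.c x₀ (Pt (y, 0)) :=
    fun y hy t => (S.pt_φ t _).trans (hfr y hy).1
  have hsl : ∀ y ∈ ball (0 : A) ε, ContDiffAt ℝ ∞ (fun s => Pt (y, s)) 0 := fun y hy =>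
    (hp.sm y (hsub hy)).comp 0 (contDiffAt_const.prodMk contDiffAt_id)
  have hgood : ∀ y ∈ ball (0 : A) ε, ∀ T, S.Gd J x₀ Pt C T y → ∀ s,
      (P (y, s)).2 = (S.c x₀ (Pt (y, 0))).2 := fun y hy T hg s => by
    have hs : s ∈ ball (0 : W) (‖s‖ + 1) := mem_ball_zero_iff.2 (lt_add_one _)
    obtain ⟨C₁, n₁, h1⟩ := hapx (‖s‖ + 1)
    obtain ⟨C₂, n₂, h2⟩ := he (‖s‖ + 1)
    refine tendsto_nhds_unique
      ((continuous_snd.tendsto _).comp (h1 n₁ le_rfl y hy _ (hfr y hy) s hs).1)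
      (tendsto_const_nhds.congr' ?_)
    filter_upwards [eventually_ge_atTop n₂] with n hn
    have h3 := dom_ball (h2 n₂ le_rfl y hy _ (hfr y hy) n hn y
      ⟨hy, mem_ball_self (Real.exp_pos _)⟩ _ (hfr y hy) (y, s)
      ⟨mem_ball_self (Real.exp_pos _), hs⟩).1
    have h4 : S.pU (S.ap J x₀ Pt (fr y) (n * h) (y, s)) = 0 :=
      poly_jet_clm S.pU ((contDiffAt_τ (dom_of_pt (hm y hy) (hpt y hy _)).1).comp 0 (hsl y hy))
        (glue_tan (f := fun s => Pt (y, s)) (hsl y hy).continuousAt (hm y hy) (hfr y hy).1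
          (S.pt_φ _ _) (hg _ (hfr y hy)).1) s
    exact (congrArg Prod.snd (hpt y hy (n * h))).symm.trans ((S.c_S _ _ h3).2 h4).symm
  refine ⟨P, fun y hy => ?_, fun y hy s => ?_, fun R => ?_⟩
  · refine Tendsto.limUnder_eq (tendsto_const_nhds.congr fun n => ?_)
    have h1 : S.ap J x₀ Pt (fr y) (n * h) (y, 0) = 0 :=
      (poly_jet_zero _ _).trans (dom_of_pt (hm y hy) (hpt y hy _)).2
    show _ = S.c _ (S.ap J x₀ Pt (fr y) (n * h) (y, 0))
    rw [h1, c_zero', hpt y hy]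
  · choose u hu1 hu2 using fun n : ℕ => hp.good y (hsub hy) n n.cast_nonneg
    have hu : Tendsto u atTop (𝓝 y) := by
      rw [tendsto_iff_norm_sub_tendsto_zero]
      refine squeeze_zero (fun _ => norm_nonneg _) hu1 ?_
      exact ((S.exp_tendsto C 1).comp tendsto_natCast_atTop_atTop).congr fun n => mul_one _
    obtain ⟨C₁, n₁, h1⟩ := hapx (‖s‖ + 1)
    obtain ⟨Q, hQ, -⟩ :=
      (h1 n₁ le_rfl y hy _ (hfr y hy) s (mem_ball_zero_iff.2 (lt_add_one _))).2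
    have h2 := (continuous_snd.tendsto _).comp
      (hQ.cont.tendsto.comp (hu.prodMk_nhds tendsto_const_nhds))
    have h3 := (continuous_snd.tendsto _).comp
      (((S.cont_c x₀).continuousAt (isOpen_ball.mem_nhds (hm y hy))).tendsto.comp
        ((hp.sm y (hsub hy)).continuousAt.tendsto.comp (hu.prodMk_nhds tendsto_const_nhds)))
    refine tendsto_nhds_unique h2 (h3.congr' ?_)
    filter_upwards [hu (isOpen_ball.mem_nhds hy)] with n hn
    exact (hgood _ hn _ (hu2 n) s).symm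
  · obtain ⟨C₁, n₁, h1⟩ := hapx R
    exact ⟨C₁, n₁, fun n hn y hy z hz s hs => (h1 n hn y hy z hz s hs).2⟩

end Sys

end Vale.Agent.P207Z
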