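import Vale.Agent.P207Z.Real.LimA

/-!
# P207 CORE: families of polynomials and their derivatives
-/

set_option linter.all false

open Set Filter Topology Metric Asymptotics
open scoped ContDiff

noncomputable section

namespace Vale.Agent.P207Z.Lim

variable {A W V G : Type} [NormedAddCommGroup A] [NormedSpace ℝ A] [NormedAddCommGroup W]
  [NormedSpace ℝ W] [NormedAddCommGroup V] [NormedSpace ℝ V] [NormedAddCommGroup G]
  [NormedSpace ℝ G] {J : ℕ}

theorem cast_le (n : ℕ) : (n : WithTop ℕ∞) ≤ ∞ := by exact_mod_cast le_top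

/-- derivatives of a slice -/
theorem iter_slice {f : A × W → G} {y : A} {s : W} {i : ℕ} (hf : ContDiffAt ℝ i f (y, s)) :
    iteratedFDeriv ℝ i (fun s => f (y, s)) s = (iteratedFDeriv ℝ i f (y, s)).compContinuousLinearMap
      fun _ => ContinuousLinearMap.inr ℝ A W := by
  have e : ∀ s : W, ((y, 0) : A × W) + ContinuousLinearMap.inr ℝ A W s = (y, s) := fun s => by simp
  have h0 : ContDiffAt ℝ i (fun q => f ((y, 0) + q)) (ContinuousLinearMap.inr ℝ A W s) :=
    ContDiffAt.comp _ (by rwa [e]) (contDiffAt_const.add contDiffAt_id)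
  obtain ⟨U, hU, h1⟩ := h0.contDiffOn le_rfl (by simp)
  obtain ⟨O, hO, hO1, hO2⟩ := _root_.mem_nhds_iff.1 hU
  have hO3 := hO1.preimage (ContinuousLinearMap.inr ℝ A W).continuous
  have h2 := (ContinuousLinearMap.inr ℝ A W).iteratedFDerivWithin_comp_right (h1.mono hO)
    hO1.uniqueDiffOn hO3.uniqueDiffOn hO2 (i := i) le_rfl
  rw [iteratedFDerivWithin_of_isOpen _ hO3 hO2, iteratedFDerivWithin_of_isOpen _ hO1 hO2,
    iteratedFDeriv_comp_add_left, e] at h2
  rw [← h2]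
  congr 1
  funext s
  exact congrArg f (e s).symm

theorem norm_slice_le {f : A × W → G} {y : A} {s : W} {i : ℕ} (hf : ContDiffAt ℝ i f (y, s)) :
    ‖iteratedFDeriv ℝ i (fun s => f (y, s)) s‖ ≤ ‖iteratedFDeriv ℝ i f (y, s)‖ := by
  rw [iter_slice hf]
  refine (ContinuousMultilinearMap.norm_compContinuousLinearMap_le _ _).trans
    (mul_le_of_le_one_right (norm_nonneg _) (Finset.prod_le_one (fun _ _ => norm_nonneg _)
      fun _ _ => ContinuousLinearMap.norm_inr_le_one ℝ A W))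

/-- the family of polynomials -/
def pf (c : A → Jet J W V) (p : A × W) : V := poly (c p.1) p.2

/-- a smooth map and its Taylor polynomial in the second variable -/
theorem flat_pf {f : A × W → V} {y : A} (hf : ContDiffAt ℝ (J + 1 : ℕ) f (y, 0)) :
    Flat J (fun p => f p - pf (fun y => jet J (fun s => f (y, s)) 0) p) (y, 0) := by
  have h1 : ∀ᶠ p in 𝓝 ((y, 0) : A × W), ContDiffAt ℝ (J + 1 : ℕ) f p ∧
      ‖iteratedFDeriv ℝ (J + 1) f p‖ < ‖iteratedFDeriv ℝ (J + 1) f (y, 0)‖ + 1 :=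
    (hf.eventually (by simp)).and
      ((hf.continuousAt_iteratedFDeriv le_rfl).norm.eventually (gt_mem_nhds (lt_add_one _)))
  obtain ⟨r, hr, h2⟩ := Metric.eventually_nhds_iff_ball.1 h1
  refine Flat.of_pow (C := ‖iteratedFDeriv ℝ (J + 1) f (y, 0)‖ + 1) ?_
  filter_upwards [ball_mem_nhds _ hr] with p hp
  rw [← ball_prod_same] at hp
  have h3 : ∀ s ∈ ball (0 : W) r, (p.1, s) ∈ ball ((y, 0) : A × W) r := fun s hs => by
    rw [← ball_prod_same]; exact ⟨hp.1, hs⟩
  have h4 := taylor_bound (f := fun s => f (p.1, s)) (k := J) (z := 0) (ρ := r)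
    (fun s hs => ((h2 _ (h3 s hs)).1.comp s (contDiffAt_const.prodMk contDiffAt_id)).contDiffWithinAt)
    (fun s hs => (norm_slice_le (h2 _ (h3 s hs)).1).trans (h2 _ (h3 s hs)).2.le) hp.2
  rw [sub_zero] at h4
  refine h4.trans (mul_le_mul_of_nonneg_left (pow_le_pow_left₀ (norm_nonneg _) ?_ _) (by positivity))
  have h5 := norm_snd_le (p - (y, 0))
  rwa [Prod.snd_sub, sub_zero] at h5

theorem contDiffAt_jet {f : A × W → V} {y : A} (hf : ContDiffAt ℝ ∞ f (y, 0)) :
    ContDiffAt ℝ ∞ (fun y => jet J (fun s => f (y, s)) 0) y := by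
  refine contDiffAt_pi.2 fun j => contDiffAt_infty.2 fun n => ?_
  have h1 : ContDiffAt ℝ (j : ℕ) f (y, 0) := hf.of_le (cast_le _)
  have h2 : ContinuousAt (fun y : A => ((y, 0) : A × W)) y := by fun_prop
  have h3 : ContDiffAt ℝ n (fun y : A => iteratedFDeriv ℝ j f (y, 0)) y :=
    ContDiffAt.comp y (hf.iteratedFDeriv_right (by exact_mod_cast le_top))
      (contDiffAt_id.prodMk contDiffAt_const)
  refine ((ContinuousMultilinearMap.compContinuousLinearMapL (F := V) fun _ : Fin j =>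
    ContinuousLinearMap.inr ℝ A W).contDiff.contDiffAt.comp y h3).congr_of_eventuallyEq ?_
  filter_upwards [h2.eventually (h1.eventually (by simp))] with y' hy'
  exact iter_slice hy'

theorem hfd_snd {T : W → G} {y : A} {s : W} (hT : DifferentiableAt ℝ T s) :
    HasFDerivAt (fun p : A × W => T p.2) (fderiv ℝ T s ∘L ContinuousLinearMap.snd ℝ A W) (y, s) :=
  HasFDerivAt.comp (y, s) (f := Prod.snd) hT.hasFDerivAt hasFDerivAt_snd

theorem fd_T {T : W → V →L[ℝ] G} {c : A → V} {y : A} {s : W}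
    (hT : DifferentiableAt ℝ T s) (hc : DifferentiableAt ℝ c y) :
    DifferentiableAt ℝ (fun p : A × W => T p.2 (c p.1)) (y, s) ∧ ∀ u : A × W,
      fderiv ℝ (fun p : A × W => T p.2 (c p.1)) (y, s) u
        = T s (fderiv ℝ c y u.1) + fderiv ℝ T s u.2 (c y) := by
  have h1 := hfd_snd (y := y) hT
  have h2 : HasFDerivAt (fun p : A × W => c p.1)
      (fderiv ℝ c y ∘L ContinuousLinearMap.fst ℝ A W) (y, s) :=
    HasFDerivAt.comp (y, s) (f := Prod.fst) hc.hasFDerivAt hasFDerivAt_fst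
  have h3 := h1.clm_apply h2
  exact ⟨h3.differentiableAt, fun u => by rw [h3.fderiv]; simp⟩

theorem fd_app {T : W → V →L[ℝ] G} {s : W} (hT : DifferentiableAt ℝ T s) (v : W)
    (a : V) : fderiv ℝ T s v a = fderiv ℝ (fun s => T s a) s v := by
  rw [fderiv_clm_apply hT (differentiableAt_const _)]; simp

theorem diff_polyL (s : W) : DifferentiableAt ℝ (polyL J W V) s :=
  contDiff_polyL.differentiable (by simp) s

theorem fd_polyL (s v : W) (a : Jet J W V) :
    fderiv ℝ (polyL J W V) s v a = fderiv ℝ (poly a) s v := by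
  rw [fd_app (V := Jet J W V) (diff_polyL s)]
  simp only [polyL_apply]

theorem pf_eq (c : A → Jet J W V) : pf c = fun p => polyL J W V p.2 (c p.1) :=
  funext fun p => (polyL_apply _ _).symm

theorem contDiffAt_pf {c : A → Jet J W V} {y : A} (hc : ContDiffAt ℝ ∞ c y) (s : W) :
    ContDiffAt ℝ ∞ (pf c) (y, s) := by
  rw [pf_eq]
  exact (ContDiffAt.comp (g := polyL J W V) (y, s) contDiff_polyL.contDiffAt
    contDiffAt_snd).clm_apply
    (ContDiffAt.comp (y, s) hc contDiffAt_fst)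

theorem fd_pf {c : A → Jet J W V} {y : A} (hc : DifferentiableAt ℝ c y) (s : W) (v : A × W) :
    fderiv ℝ (pf c) (y, s) v = poly (fderiv ℝ c y v.1) s + fderiv ℝ (poly (c y)) s v.2 := by
  rw [pf_eq, (fd_T (V := Jet J W V) (diff_polyL s) hc).2, polyL_apply, fd_polyL]

theorem diff_fd {g : A → G} {y : A} (hg : ContDiffAt ℝ 2 g y) (v : A) :
    DifferentiableAt ℝ (fun y => fderiv ℝ g y v) y :=
  ((hg.fderiv_right (m := 1) (by norm_num)).differentiableAt (by simp)).clm_apply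
    (differentiableAt_const _)

theorem fd2_pf {c : A → Jet J W V} {y : A} (hc : ContDiffAt ℝ 2 c y) (s : W) (u v : A × W) :
    fderiv ℝ (fun p => fderiv ℝ (pf c) p v) (y, s) u
      = poly (fderiv ℝ (fun y => fderiv ℝ c y v.1) y u.1) s
        + fderiv ℝ (poly (fderiv ℝ c y v.1)) s u.2 + (fderiv ℝ (poly (fderiv ℝ c y u.1)) s v.2
        + fderiv ℝ (fun s => fderiv ℝ (poly (c y)) s v.2) s u.2) := by
  have hT : DifferentiableAt ℝ (fun s => fderiv ℝ (polyL J W V) s v.2) s :=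
    diff_fd (contDiff_polyL.contDiffAt.of_le (cast_le 2)) _
  have e : (fun p => fderiv ℝ (pf c) p v) =ᶠ[𝓝 (y, s)] fun p : A × W =>
      polyL J W V p.2 (fderiv ℝ c p.1 v.1) + fderiv ℝ (polyL J W V) p.2 v.2 (c p.1) := by
    have h1 : ∀ᶠ p : A × W in 𝓝 (y, s), ContDiffAt ℝ 2 c p.1 :=
      continuousAt_fst.eventually (hc.eventually (by simp))
    filter_upwards [h1] with p hp
    rw [show p = (p.1, p.2) from rfl, fd_pf (hp.differentiableAt (by simp)), polyL_apply, fd_polyL]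
  have h2 := fd_T (V := Jet J W V) (diff_polyL (V := V) s) (diff_fd hc v.1)
  have h3 := fd_T (V := Jet J W V) hT (hc.differentiableAt (by simp))
  rw [e.fderiv_eq, fderiv_fun_add h2.1 h3.1, ContinuousLinearMap.add_apply, h2.2, h3.2,
    polyL_apply, fd_polyL, fd_polyL, fd_app (V := Jet J W V) hT]
  simp only [fd_polyL]

theorem nb1 (g : A → G) (y v : A) : ‖fderiv ℝ g y v‖ ≤ ‖v‖ * ‖iteratedFDeriv ℝ 1 g y‖ := by
  rw [norm_iteratedFDeriv_one, mul_comm]
  exact ContinuousLinearMap.le_opNorm _ _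

theorem nb2 {g : A → G} {y : A} (hg : ContDiffAt ℝ 2 g y) (u v : A) :
    ‖fderiv ℝ (fun y => fderiv ℝ g y v) y u‖ ≤ ‖u‖ * ‖v‖ * ‖iteratedFDeriv ℝ 2 g y‖ := by
  refine (nb1 _ _ _).trans ?_
  rw [mul_assoc, ← norm_iteratedFDeriv_fderiv (n := 1)]
  exact mul_le_mul_of_nonneg_left (norm_iteratedFDeriv_clm_apply_const
    (hg.fderiv_right (m := 1) (by norm_num)) le_rfl) (norm_nonneg _)

theorem fd_proj {c : A → Jet J W V} {y : A} (hc : DifferentiableAt ℝ c y) (v : A)
    (j : Fin (J + 1)) : fderiv ℝ c y v j = fderiv ℝ (fun y => c y j) y v := by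
  rw [fderiv_apply hc j]; rfl

theorem flat_fd {k : ℕ} {f : A × W → V} {y : A} (hf : ContDiffAt ℝ ∞ f (y, 0)) :
    Flat k (fun p => fderiv ℝ f p
      - fderiv ℝ (pf fun y => jet (k + 1) (fun s => f (y, s)) 0) p) (y, 0) := by
  have h1 := (contDiffAt_pf (contDiffAt_jet (J := k + 1) hf) 0).of_le (cast_le (k + 1))
  have h2 := hf.of_le (cast_le (k + 1))
  refine ((flat_pf (hf.of_le (cast_le _))).fderiv (h2.sub h1)).congr ?_
  filter_upwards [h1.eventually (by simp), h2.eventually (by simp)] with p h3 h4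
  rw [fderiv_fun_sub (h4.differentiableAt (by simp)) (h3.differentiableAt (by simp))]

theorem flat_slice {k : ℕ} {g : A × W → G} {y : A} (h : Flat k g (y, 0)) :
    Flat k (fun s => g (y, s)) 0 :=
  Flat.comp (τ := fun s : W => ((y, s) : A × W)) h (by fun_prop)

/-- the derivative of the tangency defect -/
theorem fd_tan {P : V → V →L[ℝ] V} {q : A → V} {p : A} (hP : DifferentiableAt ℝ P (q p))
    (hq : ContDiffAt ℝ 2 q p) (v : A) :
    DifferentiableAt ℝ (fun p => cmp P (q p) (fderiv ℝ q p v)) p ∧ ∀ u,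
      fderiv ℝ (fun p => cmp P (q p) (fderiv ℝ q p v)) p u
        = cmp P (q p) (fderiv ℝ (fun p => fderiv ℝ q p v) p u)
          - fderiv ℝ P (q p) (fderiv ℝ q p u) (fderiv ℝ q p v) := by
  have h1 := ((hP.hasFDerivAt.comp p (hq.differentiableAt (by simp)).hasFDerivAt).const_sub
    1).clm_apply (diff_fd hq v).hasFDerivAt
  refine ⟨h1.differentiableAt, fun u => ?_⟩
  have h2 : fderiv ℝ (fun p => cmp P (q p) (fderiv ℝ q p v)) p = _ := h1.fderiv
  rw [h2]
  simp [cmp, sub_eq_add_neg]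

theorem nd1 (f g : A → G) (p v : A) : ‖fderiv ℝ f p v - fderiv ℝ g p v‖
    ≤ ‖v‖ * ‖iteratedFDeriv ℝ 1 f p - iteratedFDeriv ℝ 1 g p‖ := by
  have h := (iteratedFDeriv ℝ 1 f p - iteratedFDeriv ℝ 1 g p).le_opNorm fun _ => v
  simpa [mul_comm] using h

theorem nd2 {f g : A → G} {p : A} (hf : ContDiffAt ℝ 2 f p) (hg : ContDiffAt ℝ 2 g p) (u v : A) :
    ‖fderiv ℝ (fun p => fderiv ℝ f p v) p u - fderiv ℝ (fun p => fderiv ℝ g p v) p u‖
      ≤ ‖u‖ * ‖v‖ * ‖iteratedFDeriv ℝ 2 f p - iteratedFDeriv ℝ 2 g p‖ := by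
  have h := (iteratedFDeriv ℝ 2 f p - iteratedFDeriv ℝ 2 g p).le_opNorm ![u, v]
  rw [← fd_app ((hf.fderiv_right (m := 1) (by norm_num)).differentiableAt (by simp)),
    ← fd_app ((hg.fderiv_right (m := 1) (by norm_num)).differentiableAt (by simp))]
  simpa [iteratedFDeriv_two_apply, mul_comm] using h

variable {K R β : ℝ} {l : Filter ℕ} {N m : ℕ}

/-- bounds of the coefficients and of their derivatives of order at most two -/
def CB (l : Filter ℕ) (K β : ℝ) (m : ℕ) (c : ℕ → A → Jet J W V) (y : A) : Prop :=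
  ∃ C : ℝ, 0 ≤ C ∧ ∀ᶠ n in l, ContDiffAt ℝ ∞ (c n) y ∧ ∀ i ≤ 2, ∀ j : Fin (J + 1),
    ‖iteratedFDeriv ℝ i (fun y => c n y j) y‖ ≤ C * ex (β * i) n * wt K m n j

variable {c : ℕ → A → Jet J W V} {y : A}

theorem CB.sm (h : CB l K β m c y) : ∀ᶠ n in l, ContDiffAt ℝ ∞ (c n) y :=
  h.choose_spec.2.mono fun _ h => h.1

theorem CB.j0 (h : CB l K β m c y) : JB l K m 0 fun n => c n y := by
  obtain ⟨C, hC, h⟩ := h
  exact ⟨C, hC, h.mono fun n hn j => by simpa using hn.2 0 (by norm_num) j⟩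

theorem CB.j1 (h : CB l K β m c y) (v : A) : JB l K m β fun n => fderiv ℝ (c n) y v := by
  obtain ⟨C, hC, h⟩ := h
  refine ⟨‖v‖ * C, by positivity, h.mono fun n hn j => ?_⟩
  beta_reduce
  rw [fd_proj (hn.1.differentiableAt (by simp)), mul_assoc, mul_assoc, ← mul_assoc C]
  refine (nb1 _ _ _).trans (mul_le_mul_of_nonneg_left ?_ (norm_nonneg _))
  simpa using hn.2 1 (by norm_num) j

theorem CB.j2 (h : CB l K β m c y) (u v : A) :
    JB l K m (β + β) fun n => fderiv ℝ (fun y => fderiv ℝ (c n) y v) y u := by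
  obtain ⟨C, hC, h⟩ := h
  refine ⟨‖u‖ * ‖v‖ * C, by positivity, h.mono fun n hn j => ?_⟩
  have h2 : ContDiffAt ℝ 2 (c n) y := hn.1.of_le (cast_le 2)
  have e : (fun y => fderiv ℝ (c n) y v j) =ᶠ[𝓝 y] fun y => fderiv ℝ (fun y => c n y j) y v :=
    (h2.eventually (by simp)).mono fun y hy => fd_proj (hy.differentiableAt (by simp)) _ _
  beta_reduce
  rw [fd_proj (diff_fd h2 v), e.fderiv_eq, mul_assoc (‖u‖ * ‖v‖), mul_assoc (‖u‖ * ‖v‖)]
  refine (nb2 (contDiffAt_pi.1 h2 j) _ _).trans (mul_le_mul_of_nonneg_left ?_ (by positivity))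
  have h3 := hn.2 2 le_rfl j
  rwa [Nat.cast_ofNat, mul_two] at h3

variable [FiniteDimensional ℝ V]

theorem CB.sb1 (hK : 0 ≤ K) (hβ : 0 ≤ β) (h : CB l K β m c y) (v : A × W) :
    SB l K R N m β fun n s => fderiv ℝ (pf (c n)) (y, s) v :=
  (((h.j1 v.1).sb hK R N).add ((((h.j0.sb hK R (N + 1)).fderiv hK).app v.2).mono hK le_rfl
    hβ)).congr (h.sm.mono fun n hn s _ => fd_pf (hn.differentiableAt (by simp)) s v)

theorem CB.sb2 (hK : 0 ≤ K) (hβ : 0 ≤ β) (h : CB l K β m c y) (u v : A × W) :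
    SB l K R N m (β + β) fun n s => fderiv ℝ (fun p => fderiv ℝ (pf (c n)) p v) (y, s) u :=
  ((((h.j2 u.1 v.1).sb hK R N).add (((((h.j1 v.1).sb hK R (N + 1)).fderiv hK).app u.2).mono hK
    le_rfl (le_add_of_nonneg_left hβ))).add ((((((h.j1 u.1).sb hK R (N + 1)).fderiv hK).app
    v.2).mono hK le_rfl (le_add_of_nonneg_left hβ)).add ((((((h.j0.sb hK R (N + 1 + 1)).fderiv
    hK).app v.2).fderiv hK).app u.2).mono hK le_rfl (add_nonneg hβ hβ)))).congr
    (h.sm.mono fun n hn s _ => fd2_pf (hn.of_le (cast_le 2)) s u v)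

end Vale.Agent.P207Z.Lim
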