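import Vale.Agent.P207Z.Real.CDefs
import Vale.Agent.P207Z.Real.LimB
import Vale.Agent.P207Z.End.Rep
import Vale.Agent.P207Z.An.Glue

/-!
# P207 CORE: the formal identities pass to the limit
-/

set_option linter.all false

open Set Filter Topology Metric Asymptotics
open scoped ContDiff

noncomputable section

namespace Vale.Agent.P207Z

open Lim

variable {Γ X B E V : Type} [Group Γ] [Countable Γ] [MetricSpace X] [ProperSpace X]
  [MulAction Γ X] [IsIsometricSMul Γ X] [MeasurableSpace X] [BorelSpace X]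
  [TopologicalSpace B] [CompactSpace B] [T2Space B] [SecondCountableTopology B] [MulAction Γ B]
  [ContinuousConstSMul Γ B] [MeasurableSpace B] [BorelSpace B]
  [NormedAddCommGroup E] [InnerProductSpace ℝ E] [FiniteDimensional ℝ E]
  [NormedAddCommGroup V] [NormedSpace ℝ V] [FiniteDimensional ℝ V]

namespace Sys

section

variable {S : Sys Γ X B E V} {A W : Type} [NormedAddCommGroup A] [NormedSpace ℝ A]
  [NormedAddCommGroup W] [NormedSpace ℝ W] {h β K D ε : ℝ} {i₁ J n₁ : ℕ} {x₀ z : X}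
  {Pt : A × W → V} {P : A × W → B × B} {y : A} {l : Filter ℕ}

theorem lim_self (n : ℕ) : y ∈ ball y (2 * Real.exp (-β * n)) := mem_ball_self (by positivity)

theorem Coef.lim_sm (hc : S.Coef h β K D i₁ J n₁ x₀ Pt ε) (hy : y ∈ ball (0 : A) ε)
    (hz : S.Ov x₀ Pt y z) : ∀ᶠ n : ℕ in atTop, Pt (y, 0) ∈ S.dom x₀ (S.φ (n * h) z) ∧
      ContDiffAt ℝ ∞ (S.Th x₀ Pt z (n * h)) (y, 0) :=
  (eventually_ge_atTop n₁).mono fun n hn =>
    let h1 := hc.mem n hn y hy z hz y (lim_self n); ⟨h1.2.1, h1.2.2.1⟩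

theorem norm_comp_le {c : A → Jet J W V} (hc : ContDiffAt ℝ ∞ c y) (i : ℕ) (j : Fin (J + 1)) :
    ‖iteratedFDeriv ℝ i (fun y => c y j) y‖ ≤ ‖iteratedFDeriv ℝ i c y‖ := by
  have h1 := (ContinuousLinearMap.proj (R := ℝ)
    (φ := fun i : Fin (J + 1) => W [×(i : ℕ)]→L[ℝ] V) j).norm_iteratedFDeriv_comp_left hc
    (cast_le i)
  refine h1.trans (mul_le_of_le_one_left (norm_nonneg _) ?_)
  exact ContinuousLinearMap.opNorm_le_bound _ zero_le_one fun a => by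
    rw [one_mul]; exact norm_le_pi_norm a j

theorem Coef.cb (hc : S.Coef h β K D i₁ J n₁ x₀ Pt ε) (hy : y ∈ ball (0 : A) ε)
    (hz : S.Ov x₀ Pt y z) (hl : l ≤ atTop) :
    CB l K β (i₁ + 1) (fun n : ℕ => S.co J x₀ Pt z (n * h)) y := by
  choose C hC using hc.bd
  refine ⟨|C 0| + |C 1| + |C 2|, by positivity, ?_⟩
  filter_upwards [hl (eventually_ge_atTop n₁), hl (hc.lim_sm hy hz)] with n hn hs
  have h0 : ContDiffAt ℝ ∞ (S.co J x₀ Pt z (n * h)) y := contDiffAt_jet hs.2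
  refine ⟨h0, fun i hi j => ?_⟩
  have h1 := hC i n hn y hy z hz y (lim_self n)
  have h2 : C i ≤ |C 0| + |C 1| + |C 2| := by
    have := abs_nonneg (C 0); have := abs_nonneg (C 1); have := abs_nonneg (C 2)
    have := le_abs_self (C i)
    interval_cases i <;> linarith
  have h3 := ex_pos (β * i) n
  rw [wt]
  split_ifs with hj
  · exact (h1.2 j (by omega)).trans (mul_le_mul_of_nonneg_right
      (mul_le_mul_of_nonneg_right h2 h3.le) (Real.exp_pos _).le)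
  · refine (norm_comp_le h0 i j).trans (h1.1.trans ((mul_le_mul_of_nonneg_right
      (mul_le_mul_of_nonneg_right h2 h3.le) (by positivity)).trans ?_))
    exact mul_le_mul_of_nonneg_left (pow_le_one₀ (by norm_num) (by norm_num)) (by positivity)

theorem Coef.c34 (hc : S.Coef h β K D i₁ J n₁ x₀ Pt ε) (hy : y ∈ ball (0 : A) ε)
    (hz : S.Ov x₀ Pt y z) : ∃ C : ℝ, ∀ᶠ n : ℕ in atTop, ∀ j : Fin (J + 1),
      ‖S.co J x₀ Pt z (n * h) y j‖ ≤ C * (3 / 4) ^ n ∧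
      (i₁ + 1 ≤ (j : ℕ) → ‖S.co J x₀ Pt z (n * h) y j‖ ≤ C * ex (-K) n) := by
  obtain ⟨C, hC⟩ := hc.bd 0
  refine ⟨C, (eventually_ge_atTop n₁).mono fun n hn j => ?_⟩
  have h1 := hC n hn y hy z hz y (lim_self n)
  simp only [norm_iteratedFDeriv_zero, Nat.cast_zero, mul_zero, zero_mul, Real.exp_zero,
    mul_one] at h1
  exact ⟨(norm_le_pi_norm _ j).trans h1.1, fun hj => h1.2 j (by omega)⟩

/-- the readings of `P` in the charts along the orbit -/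
structure Rd (S : Sys Γ X B E V) (h β K : ℝ) (J : ℕ) (x₀ z : X) (Pt : A × W → V)
    (P : A × W → B × B) (p : A × W) (Q : ℕ → A × W → V) : Prop where
  rep : ∀ᶠ n : ℕ in atTop, S.Rep P p (S.φ (n * h) z) (Q n)
  d0 : (fun n : ℕ => Q n p - S.ap J x₀ Pt z (n * h) p) =O[atTop] ex (-K)
  d1 : ∀ v, Cl atTop K β (fun n => fderiv ℝ (Q n) p v)
    fun n : ℕ => fderiv ℝ (S.ap J x₀ Pt z (n * h)) p v
  d2 : ∀ u v, Cl atTop K (β + β) (fun n => fderiv ℝ (fun p => fderiv ℝ (Q n) p v) p u)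
    fun n : ℕ => fderiv ℝ (fun p => fderiv ℝ (S.ap J x₀ Pt z (n * h)) p v) p u
  s0 : ∀ ρ > 0, ∀ᶠ n : ℕ in atTop, S.ap J x₀ Pt z (n * h) p ∈ ball (0 : V) ρ
  s1 : ∀ ρ > 0, ∀ᶠ n : ℕ in atTop, Q n p ∈ ball (0 : V) ρ

theorem exists_filter {p : ℕ → Prop} (h : ∃ᶠ n in atTop, p n) :
    ∃ l : Filter ℕ, l.NeBot ∧ l ≤ atTop ∧ ∀ᶠ n in l, p n :=
  ⟨atTop ⊓ 𝓟 {n | p n}, frequently_iff_neBot.1 h, inf_le_left,
    mem_inf_of_right (mem_principal_self _)⟩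

theorem mem_big (s : W) : s ∈ ball (0 : W) (‖s‖ + 1) := mem_ball_zero_iff.2 (lt_add_one _)

theorem exists_rd (hK : 0 < K) (hβ : 0 ≤ β) (hc : S.Coef h β K D i₁ J n₁ x₀ Pt ε)
    (ha : S.Apx h K J x₀ Pt ε P) (hy : y ∈ ball (0 : A) ε) (hz : S.Ov x₀ Pt y z) (s : W) :
    ∃ Q, S.Rd h β K J x₀ z Pt P (y, s) Q := by
  obtain ⟨C, n₂, h1⟩ := ha.apx (‖s‖ + 1)
  have h2 : ∀ n : ℕ, ∃ Q, n₂ ≤ n → S.Rep P (y, s) (S.φ (n * h) z) Q ∧ ∀ i ≤ 2,
      ‖iteratedFDeriv ℝ i Q (y, s) - iteratedFDeriv ℝ i (S.ap J x₀ Pt z (n * h)) (y, s)‖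
        ≤ C * ex (-K) n := fun n => by
    by_cases hn : n₂ ≤ n
    · obtain ⟨Q, hQ⟩ := h1 n hn y hy z hz s (mem_big s)
      exact ⟨Q, fun _ => hQ⟩
    · exact ⟨0, fun h => (hn h).elim⟩
  choose Q hQ using h2
  have h3 := (eventually_ge_atTop n₂).mono hQ
  have hb := hc.cb hy hz le_rfl
  obtain ⟨C', h4⟩ := hc.c34 hy hz
  have d0 : (fun n : ℕ => Q n (y, s) - S.ap J x₀ Pt z (n * h) (y, s)) =O[atTop] ex (-K) :=
    bo_of_le (h3.mono fun n hn => by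
      have h5 := hn.2 0 (by norm_num)
      rwa [An.norm_sub_zero'] at h5)
  have s0 : ∀ ρ > 0, ∀ᶠ n : ℕ in atTop, S.ap J x₀ Pt z (n * h) (y, s) ∈ ball (0 : V) ρ :=
    fun ρ hρ => (ev_small le_rfl hρ (h4.mono fun n hn j => (hn j).1) _).mono fun n hn =>
      hn s (mem_big s)
  refine ⟨Q, h3.mono fun n hn => hn.1, d0, fun v => ⟨bo_mono (bo_of_le (C := ‖v‖ * C)
    (h3.mono fun n hn => ?_)) (by linarith : -K ≤ _), (hb.sb1 (N := 0) hK.le hβ v).val hK.le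
    (mem_big s)⟩, fun u v => ⟨bo_mono (bo_of_le (C := ‖u‖ * ‖v‖ * C) ?_) (by linarith : -K ≤ _),
    (hb.sb2 (N := 0) hK.le hβ u v).val hK.le (mem_big s)⟩, s0, fun ρ hρ => ?_⟩
  · rw [mul_assoc]
    exact (nd1 _ _ _ _).trans (mul_le_mul_of_nonneg_left (hn.2 1 (by norm_num)) (norm_nonneg _))
  · filter_upwards [h3, hb.sm] with n hn hs
    rw [mul_assoc]
    exact (nd2 hn.1.sm ((contDiffAt_pf hs s).of_le (cast_le 2)) _ _).trans
      (mul_le_mul_of_nonneg_left (hn.2 2 le_rfl) (by positivity))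
  · filter_upwards [s0 _ (half_pos hρ), (d0.trans_tendsto (ex_tendsto (neg_neg_of_pos hK))).eventually
      (ball_mem_nhds 0 (half_pos hρ))] with n h5 h6
    rw [dist_zero_right] at h6
    rw [mem_ball_zero_iff] at h5 ⊢
    have := norm_add_le (Q n (y, s) - S.ap J x₀ Pt z (n * h) (y, s)) (S.ap J x₀ Pt z (n * h) (y, s))
    rw [sub_add_cancel] at this
    linarith

theorem lim_om {k : ℕ} (hβ : 0 ≤ β) (hK : β + β < K) (hJ : i₁ + 1 + (i₁ + 1) ≤ k + 1)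
    (hp : S.Pre0 x₀ Pt ε) (hc : S.Coef h β K D i₁ (k + 1) n₁ x₀ Pt ε)
    (ha : S.Apx h K (k + 1) x₀ Pt ε P) (hy : y ∈ ball (0 : A) ε) (hz : S.Ov x₀ Pt y z)
    {u v : A × W} {m : ℝ}
    (hf : Flat k (fun s => S.om (fderiv ℝ Pt (y, s) u) (fderiv ℝ Pt (y, s) v) - m) 0) {s : W}
    {x : X} {Q₀ : A × W → V} (hQ : S.Rep P (y, s) x Q₀) :
    S.om (fderiv ℝ Q₀ (y, s) u) (fderiv ℝ Q₀ (y, s) v) = m := by
  have hK0 : 0 < K := by linarith
  obtain ⟨Q, hr⟩ := exists_rd hK0 hβ hc ha hy hz s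
  have hb := hc.cb hy hz le_rfl
  have hP : ContDiffAt ℝ 1 Pt (y, 0) :=
    (hp.sm y (ball_subset_ball (by linarith [hp.pos]) hy)).of_le (cast_le 1)
  have h1 := (((hb.sb1 (R := ‖s‖ + 1) (N := k + 1) hK0.le hβ u).bilin hK0.le S.om
    (hb.sb1 hK0.le hβ v)).sub ((SB.const m).mono hK0.le (by omega) (add_nonneg hβ hβ))).small hJ
    (by
      filter_upwards [hc.lim_sm hy hz, hb.sm] with n hn hs
      have h2 := flat_slice (flat_fd (k := k) hn.2)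
      have c0 : ContinuousAt (fun s : W => ((y, s) : A × W)) 0 := by fun_prop
      have c1 : ∀ w, ContinuousAt (fun s => fderiv ℝ (S.Th x₀ Pt z (n * h)) (y, s) w) 0 := fun w =>
        (ContinuousAt.comp (f := fun s : W => ((y, s) : A × W))
          (hn.2.continuousAt_fderiv (by simp)) c0).clm_apply continuousAt_const
      have c2 : ∀ w, ContinuousAt (fun s => fderiv ℝ (pf (S.co (k + 1) x₀ Pt z (n * h))) (y, s) w)
          0 := fun w => (ContinuousAt.comp (f := fun s : W => ((y, s) : A × W))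
          ((contDiffAt_pf hs 0).continuousAt_fderiv (by simp)) c0).clm_apply continuousAt_const
      refine ((hf.sub ((h2.apply (s := fun _ => u) continuousAt_const).bilin_left S.om (c1 v))).sub
        ((h2.apply (s := fun _ => v) continuousAt_const).bilin_right S.om (c2 u))).congr ?_
      filter_upwards [c0.eventually (hP.eventually (by simp)),
        c0.eventually (hP.continuousAt.eventually (dom_nhds hn.1))] with s h3 h4
      have h5 : ∀ w, fderiv ℝ (S.Th x₀ Pt z (n * h)) (y, s) w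
          = fderiv ℝ (S.τ x₀ (S.φ (n * h) z)) (Pt (y, s)) (fderiv ℝ Pt (y, s) w) := fun w => by
        have h6 : fderiv ℝ (S.Th x₀ Pt z (n * h)) (y, s) = _ :=
          fderiv_comp (y, s) (differentiableAt_τ h4) (h3.differentiableAt (by simp))
        rw [h6]; rfl
      have e0 : (fun y => jet (k + 1) (fun s => S.Th x₀ Pt z (n * h) (y, s)) 0)
          = S.co (k + 1) x₀ Pt z (n * h) := rfl
      rw [← om_τ h4 (fderiv ℝ Pt (y, s) u), ← h5, ← h5, e0]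
      simp only [ContinuousLinearMap.sub_apply, map_sub]
      ring) (mem_big s)
  have h7 := (((hr.d1 u).bilin hK0.le S.om (hr.d1 v)).sub
    ((Cl.const m).mono (add_nonneg hβ hβ))).small h1
  refine sub_eq_zero.1 (eq_zero_of_bo le_rfl (sub_neg.2 hK) (h7.congr' ?_ EventuallyEq.rfl))
  filter_upwards [hr.rep] with n hn
  rw [hQ.om_eq hn]

/-- the defect of tangency of the true family, at the time `n` -/
theorem lim_def {k R N : ℕ} (hβ : 0 ≤ β) (hK : 0 < K) (hl : l ≤ atTop)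
    (hN : (3 / 4 : ℝ) ^ N ≤ Real.exp (-K)) (hN1 : 1 ≤ N)
    (hJ : (i₁ + 1) * N + (i₁ + 1) + (i₁ + 1) ≤ k + 1) (hc : S.Coef h β K D i₁ (k + 2) n₁ x₀ Pt ε)
    (hy : y ∈ ball (0 : A) ε) (hz : S.Ov x₀ Pt y z) {s : W} {Q : ℕ → A × W → V}
    (hr : S.Rd h β K (k + 2) x₀ z Pt P (y, s) Q) {v : A × W} {Pn : ℕ → V → V →L[ℝ] V}
    (hP : ∀ᶠ n : ℕ in l, CkB (k + 2) R (Pn n) ∧ Flat (k + 2) (fun p => cmp (Pn n)
      (S.Th x₀ Pt z (n * h) p) (fderiv ℝ (S.Th x₀ Pt z (n * h)) p v)) (y, 0)) :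
    (fun n => cmp (Pn n) (Q n (y, s)) (fderiv ℝ (Q n) (y, s) v)) =O[l] ex (β - K) ∧ ∀ u,
      (fun n => fderiv ℝ (fun p => cmp (Pn n) (Q n p) (fderiv ℝ (Q n) p v)) (y, s) u)
        =O[l] ex (β + β - K) := by
  have hb := hc.cb hy hz hl
  obtain ⟨C, h4⟩ := hc.c34 hy hz
  have hm : 1 ≤ (i₁ + 1) * N := Nat.mul_pos (Nat.succ_pos _) hN1
  have hs := mem_big s
  have hP1 := hP.mono fun _ h => h.1
  have b0 := ev_small hl (rad_pos R) ((h4.filter_mono hl).mono fun n hn j => (hn j).1) (‖s‖ + 1)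
  have a0 := ((SB.const (1 : V →L[ℝ] V)).mono hK.le hm le_rfl).sub (sb_comp (N := k + 1) hl hN hm
    (hP1.mono fun _ h => h.mono (Nat.le_succ _) le_rfl) (h4.filter_mono hl) (‖s‖ + 1))
  have a1 := sb_comp (N := k + 1) hl hN hm (hP1.mono fun _ h => h.fderiv) (h4.filter_mono hl) (‖s‖ + 1)
  have fl : ∀ᶠ n : ℕ in l, ContDiffAt ℝ (k + 1 : ℕ) (fun p => cmp (Pn n)
      (pf (S.co (k + 2) x₀ Pt z (n * h)) p) (fderiv ℝ (pf (S.co (k + 2) x₀ Pt z (n * h))) p v))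
      (y, 0) ∧ Flat (k + 1) (fun p => cmp (Pn n) (pf (S.co (k + 2) x₀ Pt z (n * h)) p)
      (fderiv ℝ (pf (S.co (k + 2) x₀ Pt z (n * h))) p v)) (y, 0) := by
    filter_upwards [hP, hl (hc.lim_sm hy hz), hb.sm, b0] with n h1 h2 h3 h5
    have c1 := contDiffAt_pf h3 0
    have c2 : ContDiffAt ℝ (k + 1 : ℕ) (cmp (Pn n)) (pf (S.co (k + 2) x₀ Pt z (n * h)) (y, 0)) :=
      contDiffAt_const.sub ((h1.1.contDiffAt (h5 0 (mem_ball_self (by positivity)))).of_le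
        (by exact_mod_cast Nat.le_succ _))
    have c3 : ContDiffAt ℝ (k + 1 : ℕ)
        (fun p => fderiv ℝ (pf (S.co (k + 2) x₀ Pt z (n * h))) p v) (y, 0) :=
      (c1.fderiv_right (by exact_mod_cast le_top)).clm_apply contDiffAt_const
    refine ⟨(ContDiffAt.comp _ c2 (c1.of_le (cast_le _))).clm_apply c3, ?_⟩
    have f1 := ((flat_pf (J := k + 2) (h2.2.of_le (cast_le _))).mono (Nat.le_succ _)).map
      c1.continuousAt (c2.of_le (by exact_mod_cast Nat.le_add_left 1 k))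
    have f2 := (flat_fd (k := k + 1) h2.2).apply (s := fun _ => v) continuousAt_const
    refine (((h1.2.mono (Nat.le_succ _)).sub (f1.apply ((h2.2.continuousAt_fderiv
      (by simp)).clm_apply (continuousAt_const (y := v))))).sub (f2.bilin_right
      (ContinuousLinearMap.id ℝ (V →L[ℝ] V)) (ContinuousAt.comp c2.continuousAt
      c1.continuousAt))).congr (Eventually.of_forall fun p => ?_)
    have e0 : (fun y => jet (k + 2) (fun s => S.Th x₀ Pt z (n * h) (y, s)) 0)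
        = S.co (k + 2) x₀ Pt z (n * h) := rfl
    simp only [ContinuousLinearMap.sub_apply, map_sub, ContinuousLinearMap.id_apply,
      Function.comp_apply, e0]
    abel
  have q0 := cl_comp hP1 ((hr.s1 _ (rad_pos R)).filter_mono hl) ((hr.s0 _ (rad_pos R)).filter_mono hl) (hr.d0.mono hl)
  have q1 := cl_comp (hP1.mono fun _ h => h.fderiv) ((hr.s1 _ (rad_pos R)).filter_mono hl)
    ((hr.s0 _ (rad_pos R)).filter_mono hl) (hr.d0.mono hl)
  have q2 := (Cl.const (1 : V →L[ℝ] V)).sub q0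
  have d1 : ∀ v, Cl l K β _ _ := fun v => ⟨(hr.d1 v).1.mono hl, (hr.d1 v).2.mono hl⟩
  have d2 : ∀ u v, Cl l K (β + β) _ _ := fun u v => ⟨(hr.d2 u v).1.mono hl, (hr.d2 u v).2.mono hl⟩
  refine ⟨?_, fun u => ?_⟩
  · have h6 := (a0.apply hK.le (hb.sb1 hK.le hβ v)).small (by omega)
      (fl.mono fun n hn => flat_slice (hn.2.mono (Nat.le_succ _))) hs
    have h7 := (q2.apply hK.le (d1 v)).small h6
    rwa [zero_add] at h7
  · have h6 := ((((a0.apply hK.le (hb.sb2 hK.le hβ u v)).mono hK.le (Nat.le_add_right _ (i₁ + 1))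
      (zero_add _).le).sub (((a1.apply hK.le (hb.sb1 hK.le hβ u)).apply hK.le
      (hb.sb1 hK.le hβ v)).mono hK.le le_rfl (by rw [zero_add]))).congr (f' := fun n s =>
        fderiv ℝ (fun p => cmp (Pn n) (pf (S.co (k + 2) x₀ Pt z (n * h)) p)
          (fderiv ℝ (pf (S.co (k + 2) x₀ Pt z (n * h))) p v)) (y, s) u) (by
        filter_upwards [hP1, hb.sm, b0] with n h1 h3 h5 s' hs'
        exact (fd_tan (q := pf (S.co (k + 2) x₀ Pt z (n * h))) (p := (y, s'))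
          ((h1.contDiffAt (h5 s' hs')).differentiableAt (by simp))
          ((contDiffAt_pf h3 s').of_le (cast_le 2)) v).2 u)).small hJ (fl.mono fun n hn =>
      flat_slice ((hn.2.fderiv hn.1).apply (s := fun _ => u) continuousAt_const)) hs
    have h8 := ((q2.apply hK.le (d2 u v)).mono (zero_add _).le).sub
      (((q1.apply hK.le (d1 u)).apply hK.le (d1 v)).mono (by rw [zero_add]))
    refine (h8.small (h6.congr' ?_ EventuallyEq.rfl)).congr' ?_ EventuallyEq.rfl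
    · filter_upwards [hP1, hb.sm, b0] with n h1 h3 h5
      exact (fd_tan (q := pf (S.co (k + 2) x₀ Pt z (n * h))) (p := (y, s))
        ((h1.contDiffAt (h5 s hs)).differentiableAt (by simp))
        ((contDiffAt_pf h3 s).of_le (cast_le 2)) v).2 u
    · filter_upwards [hP1, hl hr.rep, hl (hr.s1 _ (rad_pos R))] with n h1 h3 h5
      exact ((fd_tan ((h1.contDiffAt h5).differentiableAt (by simp)) h3.sm v).2 u).symm

/-- the way back to a fixed chart -/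
theorem lim_back (S : Sys Γ X B E V) {h : ℝ} (hh : 0 < h) : ∃ b : ℝ, 0 ≤ b ∧ ∃ r > 0,
    ∀ (z : X) (n₀ : ℕ) (q : V), S.pU q = 0 → ‖q‖ < r → ∀ i, 1 ≤ i →
      (fun n : ℕ => iteratedFDeriv ℝ i (S.τ (S.φ (n * h) z) (S.φ (n₀ * h) z))
        (S.τ (S.φ (n₀ * h) z) (S.φ (n * h) z) q)) =O[atTop] ex (b * i) := by
  obtain ⟨b, hb, h1⟩ := S.stay_τ (a := 1 / 2) (by norm_num)
  obtain ⟨r, C, hr, -, h2⟩ := S.stayS (a := 1 / 2) (by norm_num)
  refine ⟨b * h, by positivity, r, hr, fun z n₀ q hq hqr i hi => ?_⟩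
  obtain ⟨C', hC', h3⟩ := h1 i hi
  refine bo_of_le (C := C') ((eventually_ge_atTop n₀).mono fun n hn => ?_)
  have ht : 0 ≤ (n - n₀ : ℝ) * h := mul_nonneg (sub_nonneg.2 (Nat.cast_le.2 hn)) hh.le
  have e1 : S.φ ((n - n₀ : ℝ) * h) (S.φ (n₀ * h) z) = S.φ (n * h) z := by
    rw [← S.φ_add]; congr 1; ring
  have e2 : S.φ (-((n - n₀ : ℝ) * h)) (S.φ (n * h) z) = S.φ (n₀ * h) z := by
    rw [← S.φ_add]; congr 1; ring
  have e3 : S.iS (S.pS q) = q := by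
    have := S.iS_add q
    rwa [hq, map_zero, add_zero] at this
  have h4 := (h2 (S.φ (n₀ * h) z) _ ht (S.pS q)
    (mem_ball_zero_iff.2 ((S.norm_pS_le q).trans_lt hqr))).1.symm
  rw [e1, e3] at h4
  have h5 := h3 _ _ _ h4
  rw [e2, abs_neg, abs_of_nonneg ht] at h5
  refine h5.trans (mul_le_mul_of_nonneg_left (Real.exp_le_exp.2 ?_) hC')
  have : 0 ≤ b * i * (n₀ * h) := by positivity
  nlinarith

theorem lim_tan {k R N : ℕ} {b r : ℝ} (hβ : 0 ≤ β) (hb : 0 ≤ b) (hr0 : 0 < r)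
    (hback : ∀ (n₀ : ℕ) (q : V), S.pU q = 0 → ‖q‖ < r → ∀ i, 1 ≤ i →
      (fun n : ℕ => iteratedFDeriv ℝ i (S.τ (S.φ (n * h) z) (S.φ (n₀ * h) z))
        (S.τ (S.φ (n₀ * h) z) (S.φ (n * h) z) q)) =O[atTop] ex (b * i))
    (hK : b * 2 + (β + β) < K) (hN : (3 / 4 : ℝ) ^ N ≤ Real.exp (-K)) (hN1 : 1 ≤ N)
    (hJ : (i₁ + 1) * N + (i₁ + 1) + (i₁ + 1) ≤ k + 1) (hc : S.Coef h β K D i₁ (k + 2) n₁ x₀ Pt ε)
    (ha : S.Apx h K (k + 2) x₀ Pt ε P) (hy : y ∈ ball (0 : A) ε) (hz : S.Ov x₀ Pt y z)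
    {v : A × W} {s : W} {x : X} {Q₀ : A × W → V} {Pr : V → V →L[ℝ] V} (hQ : S.Rep P (y, s) x Q₀)
    (hPr : ContDiffAt ℝ 1 Pr (Q₀ (y, s)))
    (hf : ∃ᶠ n : ℕ in atTop, ∃ Pn, Prj (k + 2) R Pn ∧
      Flat (k + 2) (fun p => cmp Pn (S.Th x₀ Pt z (n * h) p)
        (fderiv ℝ (S.Th x₀ Pt z (n * h)) p v)) (y, 0) ∧
      (Q₀ (y, s) ∈ S.dom x (S.φ (n * h) z) →
        S.τ x (S.φ (n * h) z) (Q₀ (y, s)) ∈ ball (0 : V) (rad R) →
        Flat 1 (fun q => cmp Pr q ∘L S.TV.conj x (S.φ (n * h) z) Pn q) (Q₀ (y, s)))) :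
    Flat 1 (fun p => cmp Pr (Q₀ p) (fderiv ℝ Q₀ p v)) (y, s) := by
  have hK0 : 0 < K := by linarith
  obtain ⟨Q, hr⟩ := exists_rd hK0 hβ hc ha hy hz s
  obtain ⟨l, hl1, hl, hl2⟩ := exists_filter hf
  obtain ⟨Pn, hPn⟩ := hl2.choice
  obtain ⟨g0, g1⟩ := lim_def hβ hK0 hl hN hN1 hJ hc hy hz hr (hPn.mono fun n hn => ⟨hn.1.ckb, hn.2.1⟩)
  obtain ⟨n₀, h0, h1⟩ := (hr.rep.and (hr.s1 r hr0)).exists
  have hU : S.pU (Q n₀ (y, s)) = 0 := by
    rw [← S.c_S _ _ h0.mem, ← h0.eq0, ha.leaf y hy, ← hz.1, S.ep_φ]; rfl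
  have hb' : ∀ i, 1 ≤ i → (fun n : ℕ => iteratedFDeriv ℝ i (S.τ (S.φ (n * h) z) (S.φ (n₀ * h) z))
      (Q n (y, s))) =O[l] ex (b * i) := fun i hi =>
    ((hback n₀ _ hU (mem_ball_zero_iff.1 h1) i hi).congr' (hr.rep.mono fun n hn => by
      simp only [(h0.evEq hn).eq_of_nhds]) EventuallyEq.rfl).mono hl
  have b1 : (fun n : ℕ => fderiv ℝ (S.τ (S.φ (n * h) z) (S.φ (n₀ * h) z)) (Q n (y, s)))
      =O[l] ex b := by
    simpa only [norm_iteratedFDeriv_one, isBigO_norm_left, Nat.cast_one, mul_one]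
      using (hb' 1 le_rfl).norm_left
  have b2 : (fun n : ℕ => fderiv ℝ (fderiv ℝ (S.τ (S.φ (n * h) z) (S.φ (n₀ * h) z))) (Q n (y, s)))
      =O[l] ex (b * 2) := by
    have h2 := (hb' 2 one_le_two).norm_left
    simp only [← norm_iteratedFDeriv_fderiv (n := 1), norm_iteratedFDeriv_one] at h2
    exact isBigO_norm_left.1 h2
  set M : A × W → V →L[ℝ] V := fun p =>
    cmp Pr (Q₀ p) ∘L fderiv ℝ (S.τ (S.φ (n₀ * h) z) x) (Q n₀ p) with hM
  have dC : DifferentiableAt ℝ (fun p => cmp Pr (Q₀ p)) (y, s) :=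
    (DifferentiableAt.comp _ (hPr.differentiableAt (by simp)) hQ.diff).const_sub 1
  have dτ : ∀ {a a' : X} {q : V}, q ∈ S.dom a a' → DifferentiableAt ℝ (fderiv ℝ (S.τ a a')) q :=
    fun hq => ((contDiffAt_τ hq).fderiv_right (m := 1) (cast_le 2)).differentiableAt (by simp)
  have dM : DifferentiableAt ℝ M (y, s) :=
    dC.clm_comp (DifferentiableAt.comp _ (dτ (h0.dom hQ)) h0.diff)
  have df := (fd_tan (hPr.differentiableAt (by simp)) hQ.sm v).1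
  set G : ℕ → A × W → V := fun n p => cmp (Pn n) (Q n p) (fderiv ℝ (Q n) p v) with hG
  set T : ℕ → V → V →L[ℝ] V := fun n => fderiv ℝ (S.τ (S.φ (n * h) z) (S.φ (n₀ * h) z)) with hT
  have key : ∀ᶠ n in l, cmp Pr (Q₀ (y, s)) (fderiv ℝ Q₀ (y, s) v)
      = M (y, s) (T n (Q n (y, s)) (G n (y, s))) ∧ ∀ u,
      fderiv ℝ (fun p => cmp Pr (Q₀ p) (fderiv ℝ Q₀ p v)) (y, s) u
        = M (y, s) (T n (Q n (y, s)) (fderiv ℝ (G n) (y, s) u)
          + fderiv ℝ (T n) (Q n (y, s)) (fderiv ℝ (Q n) (y, s) u) (G n (y, s)))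
          + fderiv ℝ M (y, s) u (T n (Q n (y, s)) (G n (y, s))) := by
    filter_upwards [hPn, hl hr.rep, hl (hr.s1 _ (rad_pos R))] with n h2 h3 h4
    have h5 := ((h2.2.2 (hQ.dom h3) (by rwa [← (hQ.evEq h3).eq_of_nhds])).comp hQ.diff).apply
      (diff_fd hQ.sm v).continuousAt
    have h6 : Flat 1 (fun p => cmp Pr (Q₀ p) (fderiv ℝ Q₀ p v) - M p (T n (Q n p) (G n p)))
        (y, s) := by
      refine h5.congr ?_
      filter_upwards [hQ.eventually, h3.eventually, h0.eventually] with p e1 e2 e3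
      have e4 : S.τ x (S.φ (n * h) z) (Q₀ p) = Q n p := (e1.evEq e2).eq_of_nhds.symm
      have e5 : ∀ w, fderiv ℝ (S.τ (S.φ (n₀ * h) z) x) (Q n₀ p) (T n (Q n p) w)
          = fderiv ℝ (S.τ (S.φ (n * h) z) x) (Q n p) w := fun w => by
        rw [← fderiv_τ_trans (e2.dom e3) (e2.dom e1), ← (e2.evEq e3).eq_of_nhds]; rfl
      have e6 : S.TV.conj x (S.φ (n * h) z) (Pn n) (Q₀ p) (fderiv ℝ Q₀ p v)
          = fderiv ℝ (S.τ (S.φ (n * h) z) x) (Q n p) (Pn n (Q n p) (fderiv ℝ (Q n) p v)) := by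
        rw [e1.fderiv_eq e2, ← e4]; rfl
      simp only [hM, hG, ContinuousLinearMap.comp_apply, e5, e6]
      rw [← map_sub, e2.fderiv_eq e1, ← map_sub]
      simp [cmp]
    obtain ⟨h7, h8⟩ := flat_one_iff.1 h6
    have dG := (fd_tan ((h2.1.ckb.contDiffAt h4).differentiableAt (by simp)) h3.sm v).1
    have h9 := dM.hasFDerivAt.clm_apply ((HasFDerivAt.comp (y, s) (dτ (h3.dom h0)).hasFDerivAt
      h3.diff.hasFDerivAt).clm_apply dG.hasFDerivAt)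
    refine ⟨sub_eq_zero.1 h7, fun u => ?_⟩
    have h10 := sub_eq_zero.1 ((df.hasFDerivAt.sub h9).unique h8)
    rw [h10]
    rfl
  have t0 := bo_apply b1 g0
  refine flat_one_iff.2 ⟨eq_zero_of_bo hl (by linarith : b + (β - K) < 0)
    ((bo_clm (M (y, s)) t0).congr' (key.mono fun n hn => hn.1.symm) EventuallyEq.rfl), ?_⟩
  have h11 : fderiv ℝ (fun p => cmp Pr (Q₀ p) (fderiv ℝ Q₀ p v)) (y, s) = 0 := by
    refine ContinuousLinearMap.ext fun u => eq_zero_of_bo hl (by linarith : b * 2 + (β + β) - K < 0) (((bo_clm (M (y, s))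
      ((bo_mono (bo_apply b1 (g1 u)) (by linarith)).add (bo_mono (bo_apply (bo_apply b2
      (((hr.d1 u).left hK0.le).mono hl)) g0) (by linarith)))).add (bo_mono
      (bo_clm (fderiv ℝ M (y, s) u) t0) (by linarith))).congr'
      (key.mono fun n hn => (hn.2 u).symm) EventuallyEq.rfl)
  exact h11 ▸ df.hasFDerivAt

end

variable (S : Sys Γ X B E V)

theorem lim {h β : ℝ} (hh : 0 < h) (hβ : 0 < β) : ∃ K : ℝ, ∀ i₁ : ℕ, ∃ J₀, ∀ J ≥ J₀,
    ∀ (A W : Type) [NormedAddCommGroup A] [NormedSpace ℝ A] [FiniteDimensional ℝ A]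
    [NormedAddCommGroup W] [NormedSpace ℝ W] [FiniteDimensional ℝ W] (x₀ : X) (Pt : A × W → V)
    (ε D : ℝ) (n₁ : ℕ) (P : A × W → B × B), S.Pre0 x₀ Pt ε → S.Coef h β K D i₁ J n₁ x₀ Pt ε →
    S.Apx h K J x₀ Pt ε P → S.Out h J x₀ Pt ε P := by
  obtain ⟨b, hb, r, hr, hback⟩ := S.lim_back hh
  obtain ⟨N, hN⟩ := An.exists_pow_le (c := 3 / 4) (by norm_num)
    (Real.exp_pos (-(b * 2 + (β + β) + 1)))
  have hN' : (3 / 4 : ℝ) ^ (N + 1) ≤ Real.exp (-(b * 2 + (β + β) + 1)) :=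
    (pow_le_pow_of_le_one (by norm_num) (by norm_num) (Nat.le_succ N)).trans hN
  refine ⟨b * 2 + (β + β) + 1, fun i₁ => ⟨(i₁ + 1) * (N + 1) + (i₁ + 1) + (i₁ + 1) + 2,
    fun J hJ A W _ _ _ _ _ _ x₀ Pt ε D n₁ P hp hc ha => ?_⟩⟩
  obtain ⟨k, rfl⟩ : ∃ k, J = k + 2 := ⟨J - 2, by omega⟩
  have hz : ∀ y ∈ ball (0 : A) ε, ∃ z, S.Ov x₀ Pt y z := fun y hy =>
    S.exists_frame_lv (S.c_ne x₀ _ (mem_ball_zero_iff.2 ((hp.small y
      (ball_subset_ball (by linarith [hp.pos]) hy)).trans_lt (by norm_num)))) _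
  refine ⟨ha.base, ha.leaf, fun y hy s => ?_, fun y hy u v m hf s x Q hQ => ?_,
    fun y hy z hz v R s x Q Pr hQ hPr hf => lim_tan hβ.le hb hr (hback z) (lt_add_one _) hN'
      (Nat.succ_pos N) (by omega) hc ha hy hz hQ hPr hf⟩
  · obtain ⟨z, hz⟩ := hz y hy
    obtain ⟨C, n, h1⟩ := ha.apx (‖s‖ + 1)
    obtain ⟨Q, hQ, -⟩ := h1 n le_rfl y hy z hz s (mem_big s)
    exact ⟨_, Q, hQ⟩
  · obtain ⟨z, hz⟩ := hz y hy
    exact lim_om (k := k + 1) hβ.le (by linarith) (by omega) hp hc ha hy hz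
      (hf.mono (Nat.le_succ _)) hQ

end Sys

end Vale.Agent.P207Z
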