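import Vale.Agent.P207Z.Real.CCoef
import Vale.Agent.P207Z.Real.CAp
import Vale.Agent.P207Z.Real.CEst
import Vale.Agent.P207Z.Real.CGlue
import Vale.Agent.P207Z.Real.CLim

/-!
# P207 CORE: the realisation of a formal family
-/

set_option linter.all false

open Set Filter Topology Metric MeasureTheory
open scoped ContDiff

noncomputable section

namespace Vale.Agent.P207Z

variable {Γ X B E V : Type} [Group Γ] [Countable Γ] [MetricSpace X] [ProperSpace X]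
  [MulAction Γ X] [IsIsometricSMul Γ X] [MeasurableSpace X] [BorelSpace X]
  [TopologicalSpace B] [CompactSpace B] [T2Space B] [SecondCountableTopology B] [MulAction Γ B]
  [ContinuousConstSMul Γ B] [MeasurableSpace B] [BorelSpace B]
  [NormedAddCommGroup E] [InnerProductSpace ℝ E] [FiniteDimensional ℝ E]
  [NormedAddCommGroup V] [NormedSpace ℝ V] [FiniteDimensional ℝ V]

namespace Sys

variable (S : Sys Γ X B E V)

theorem core : ∃ h > 0, ∃ J₀ : ℕ, ∀ J ≥ J₀, ∀ (A W : Type) [NormedAddCommGroup A]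
    [NormedSpace ℝ A] [FiniteDimensional ℝ A] [NormedAddCommGroup W] [NormedSpace ℝ W]
    [FiniteDimensional ℝ W] (x₀ : X) (Pt : A × W → V) (ε C : ℝ), S.Pre J x₀ Pt ε C →
    ∃ P, S.Out h J x₀ Pt ε P := by
  obtain ⟨h, hh, β, hβ, hc⟩ := S.coef
  obtain ⟨K₁, h1⟩ := S.lim hh hβ
  obtain ⟨K₂, h2⟩ := S.est hh hβ (max K₁ (β + 1))
  obtain ⟨i₁, -, h3⟩ := hc (max K₁ K₂)
  obtain ⟨J₁, h4⟩ := h1 i₁
  obtain ⟨J₂, h5⟩ := h2 i₁
  refine ⟨h, hh, max J₁ J₂, fun J hJ A W _ _ _ _ _ _ x₀ Pt ε C hp => ?_⟩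
  obtain ⟨D, n₁, h6⟩ := h3 J A W x₀ Pt ε C hp
  obtain ⟨P, hP⟩ := S.glue_apx hh hβ (lt_max_of_lt_right (lt_add_one β)) hp
    (h5 J (le_of_max_le_right hJ) A W x₀ Pt ε D n₁ (h6.mono (le_max_right _ _)))
  refine ⟨P, h4 J (le_of_max_le_left hJ) A W x₀ Pt ε D n₁ P hp.toPre0 (h6.mono (le_max_left _ _))
    ⟨hP.base, hP.leaf, fun R => ?_⟩⟩
  obtain ⟨C', n₂, h7⟩ := hP.apx R
  refine ⟨|C'|, n₂, fun n hn y hy z hz s hs => ?_⟩
  obtain ⟨Q, hQ, h8⟩ := h7 n hn y hy z hz s hs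
  refine ⟨Q, hQ, fun i hi => (h8 i hi).trans ?_⟩
  refine mul_le_mul (le_abs_self _) (Real.exp_le_exp.2 ?_) (Real.exp_pos _).le (abs_nonneg _)
  exact mul_le_mul_of_nonneg_right (neg_le_neg (le_max_left _ _)) (Nat.cast_nonneg _)

end Sys

end Vale.Agent.P207Z
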