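import Vale.Agent.P207Z.Real.Ext

/-!
# P207 REAL: good leaves cross every plaque
-/

set_option linter.all false

open Set Filter Topology Metric MeasureTheory VectorField
open scoped ContDiff

noncomputable section

namespace Vale.Agent.P207Z

variable {Γ X B E V Y : Type} [Group Γ] [Countable Γ] [MetricSpace X] [ProperSpace X]
  [MulAction Γ X] [IsIsometricSMul Γ X] [MeasurableSpace X] [BorelSpace X]
  [TopologicalSpace B] [CompactSpace B] [T2Space B] [SecondCountableTopology B] [MulAction Γ B]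
  [ContinuousConstSMul Γ B] [MeasurableSpace B] [BorelSpace B]
  [NormedAddCommGroup E] [InnerProductSpace ℝ E] [FiniteDimensional ℝ E]
  [NormedAddCommGroup V] [NormedSpace ℝ V] [FiniteDimensional ℝ V]
  [MeasurableSpace Y] [MulAction Γ Y]
  {F G : Type} [NormedAddCommGroup F] [NormedSpace ℝ F] [FiniteDimensional ℝ F]
  [NormedAddCommGroup G] [NormedSpace ℝ G]
  {S : Sys Γ X B E V} {𝔉 : Bun S F}

namespace GoodAux

/-- a field of projections near the point `pt x` of the chart of `y`, read in the chart of `x` -/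
theorem prj_at (𝔉 : Bun S F) (D : ℝ) (k n : ℕ) : ∃ m, ∀ x y, dist x y ≤ D →
    (0 : V) ∈ S.dom x y → ‖S.τ x y 0‖ ≤ 1 / 4 →
      ∀ P, Prj k n (fun q => P (S.τ x y 0 + q)) → Prj k m (𝔉.conj x y P) := by
  obtain ⟨n₁, h1⟩ := OpsE.unif_shift (Sys.jc_τ (S := S)) (fun g x y q hq => Sys.τ_smul g hq) D
    (k + 1)
  obtain ⟨n₂, h2⟩ := OpsE.unif_shift 𝔉.jc 𝔉.smul D k
  obtain ⟨n₃, h3⟩ := OpsE.unif_shift 𝔉.jc_inv (fun g x y q hq => by
    change 𝔉.A _ _ _ = _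
    rw [Sys.τ_smul g hq, 𝔉.smul g y x _ (Sys.τ_dom hq)]) D k
  obtain ⟨n₄, a4, h4⟩ := ckB_comp (V := V) (V' := V) (W := F →L[ℝ] F) k (2 * (n₁ + 1) + n)
  obtain ⟨n₅, a5, h5⟩ := ckB_bilin (V := V) (ContinuousLinearMap.mul ℝ (F →L[ℝ] F)) k (n₃ + n₄)
  obtain ⟨n₆, a6, h6⟩ := ckB_bilin (V := V) (ContinuousLinearMap.mul ℝ (F →L[ℝ] F)) k (n₅ + n₂)
  refine ⟨n₆, fun x y hd hp b P hP => ?_⟩
  have a : ‖(0 : V)‖ ≤ 1 / 4 := by
    rw [norm_zero]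
    norm_num
  obtain ⟨d1, e1⟩ := h1 x y hd 0 hp a b
  obtain ⟨e4, d4⟩ := h4 (fun q => P (S.τ x y 0 + q)) (fun q => S.τ x y (0 + q) - S.τ x y 0)
    (hP.ckb.mono le_rfl (by omega))
    (((e1.mono le_rfl (Nat.le_succ _)).sub (CkB.const _ (by
      push_cast
      linarith [Nat.cast_nonneg (α := ℝ) n₁]))).mono le_rfl (by omega)) (by simp)
  have e2 := (h2 x y hd 0 hp a b).2
  have e3 := (h3 x y hd 0 hp a b).2
  simp only [add_sub_cancel, zero_add] at e4 e2 e3 d1 d4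
  refine ⟨h6 _ _ ((h5 _ _ (e3.mono le_rfl (by omega))
    (e4.mono le_rfl (by omega))).mono le_rfl (by omega)) (e2.mono le_rfl (by omega)),
    fun q hq => ?_⟩
  have f1 := d1 q (ball_subset_ball (rad_anti (by omega)) hq)
  have f2 := hP.idem _ (ball_subset_ball (rad_anti (by omega))
    (d4 (ball_subset_ball (rad_anti (by omega)) hq)))
  simp only [add_sub_cancel] at f2
  simp only [Bun.conj]
  calc _ = 𝔉.A y x (S.τ x y q) * (P (S.τ x y q) * ((𝔉.A x y q *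
        𝔉.A y x (S.τ x y q)) * P (S.τ x y q))) * 𝔉.A x y q := by
          simp only [mul_assoc]
    _ = _ := by rw [𝔉.inv' f1, one_mul, f2]

/-- the tube property -/
def Tb (W : SSub 𝔉) (k : ℕ) (a : ℝ) (n : ℕ) (z : X) : Prop :=
  ∃ Q, TubeS S k n a Q ∧ S.AlongS z a (W.At k z Q)

/-- a tube gives an extension at all the points of the plaque -/
theorem shift (W : SSub 𝔉) (k : ℕ) {a b : ℝ} (hb : b < a) (hb1 : b ≤ 1 / 4) (D : ℝ) (n : ℕ) :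
    ∃ m, ∀ y z, dist y z ≤ D → S.ep y = S.ep z → (0 : V) ∈ S.dom y z → ‖S.τ y z 0‖ ≤ b →
      Tb W k a n z → W.BS k m y := by
  obtain ⟨a', h1, h2⟩ := exists_between (lt_min hb (hb1.trans_lt (by norm_num : (1 : ℝ) / 4 < 1)))
  obtain ⟨r, hr, h3⟩ := S.unif_dom D h1 (h2.trans_le (min_le_right _ _))
  obtain ⟨m₁, h4⟩ := prj_at 𝔉 D k n
  obtain ⟨m₂, h5⟩ := exists_rad_le hr
  refine ⟨m₁ + m₂, fun y z hd he h0 ht ⟨Q, q1, q2⟩ => ⟨𝔉.conj y z Q, ?_, ?_⟩⟩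
  · refine (h4 y z hd h0 (ht.trans hb1) Q ?_).mono le_rfl (Nat.le_add_right _ _)
    rw [← S.iS_pS ((Sys.pU_τ he h0).2 (map_zero _))]
    exact q1.loc _ (mem_ball_zero_iff.2 ((S.norm_pS_le _).trans_lt (ht.trans_lt hb)))
  · refine Eventually.mono q2 fun ξ hξ y' hy ⟨q, hq, e⟩ => ?_
    obtain ⟨c1, -, c2⟩ := h3 y z hd 0 h0 (by rw [norm_zero]; exact (norm_nonneg _).trans ht) ht q
      (ball_subset_closedBall (ball_subset_ball (h5 _ (Nat.le_add_left _ _)) hq))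
    exact W.e_move c1 (mem_ball_zero_iff.2 (c2.trans_lt (h2.trans_le (min_le_left _ _)))) e
      (hξ y' (he ▸ hy))

/-- the local statement -/
theorem loc (W : SSub 𝔉) (P : Prob S Y) (k : ℕ) {a : ℝ} (ha : 0 < a) (c : ℝ) (x₀ : X) :
    ∃ n, ∀ᶠ x in 𝓝 x₀, ∀ Q : B → Prop, (∀ᵐ η ∂S.ν, Q η) → ∃ u ∈ ball (0 : E) a,
      Q (S.c x (S.iU u)).2 ∧
        ∀ y, S.pt y = S.c x (S.iU u) → |S.lv y - S.lv x| ≤ c → W.BS k n y := by
  obtain ⟨a₀, ha₀, hg⟩ := SSub.globS P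
  have hT : ∀ᵐ z ∂S.μ, ∃ n, Tb W k a₀ n z :=
    (hg F 𝔉 W k).ae.mono fun z ⟨n, Q, q1, _, q3⟩ => ⟨n, Q, q1, q3⟩
  obtain ⟨b, hb0, hb⟩ := exists_between (lt_min ha₀ (by norm_num : (0 : ℝ) < 1 / 4))
  have hb1 : b < 1 / 4 := hb.trans_le (min_le_right _ _)
  obtain ⟨D, hD⟩ := S.fr_near (a := 1 / 2) one_half_lt_one
  obtain ⟨r, hr, h1⟩ := S.unif_dom D (half_lt_self hb0) (hb1.trans (by norm_num))
  obtain ⟨D₁, hD₁, h2⟩ := S.dist_le_lv
  obtain ⟨C, hC⟩ := (isCompact_closedBall x₀ (|D| + 1)).exists_bound_of_continuousOn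
    S.lv_cont.continuousOn
  have hρ : 0 < min (r / 2) (b / 2) := lt_min (half_pos hr) (half_pos hb0)
  have hρ1 : min (r / 2) (b / 2) ≤ 1 / 2 := (min_le_right _ _).trans (by linarith)
  have hO := (S.isOpen_image x₀ isOpen_ball (ball_subset_ball (hρ1.trans (by norm_num)))).mem_nhds
    (x := (S.em x₀, S.ep x₀)) ⟨0, mem_ball_self hρ, S.c_zero x₀⟩
  obtain ⟨O₁, o1, O₂, o2, o3⟩ := mem_nhds_prod_iff.1 hO
  have ha' : 0 < min a (1 / 2) := lt_min ha one_half_pos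
  have hO' := ((S.c_open _ isOpen_ball (ball_subset_ball ((min_le_right a (1 / 2)).trans
    (by norm_num)))).preimage (f := fun p : X × B => (p.1, (S.em p.1, p.2)))
    (continuous_fst.prodMk ((S.em_cont.comp continuous_fst).prodMk continuous_snd))).mem_nhds
    (x := (x₀, S.ep x₀)) ⟨0, mem_ball_self ha', S.c_zero x₀⟩
  obtain ⟨N, o4, O₃, o5, o6⟩ := mem_nhds_prod_iff.1 hO'
  have h3 : ∀ᵐ η ∂S.ν, η ∈ O₂ → ∃ n z, S.ep z = η ∧ S.em z ∈ O₁ ∧ dist x₀ z ≤ D ∧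
      Tb W k a₀ n z := by
    filter_upwards [Sys.ae_ae_S hT] with η hη h
    obtain ⟨ξ, a1, a2⟩ := Sys.ν_exists hη isOpen_interior ⟨_, mem_interior_iff_mem_nhds.2 o1⟩
    obtain ⟨q, hq, e⟩ := o3 (mk_mem_prod (interior_subset a1) h)
    obtain ⟨z, z1, z2⟩ := hD x₀ q ((mem_ball_zero_iff.1 hq).le.trans hρ1)
    obtain ⟨n, hn⟩ := a2 z (z1.trans e)
    exact ⟨n, z, congrArg Prod.snd (z1.trans e),
      (show S.em z = ξ from congrArg Prod.fst (z1.trans e)) ▸ interior_subset a1, z2, hn⟩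
  have h4 : ∃ n, ∃ᵐ η ∂S.ν, (η ∈ O₂ ∧ η ∈ O₃) ∧ ∃ z, S.ep z = η ∧ S.em z ∈ O₁ ∧ dist x₀ z ≤ D ∧
      Tb W k a₀ n z := by
    by_contra h
    push Not at h
    obtain ⟨η, a1, a2, a3⟩ := Sys.ν_exists (h3.and (ae_all_iff.2 h)) isOpen_interior
      ⟨_, mem_interior_iff_mem_nhds.2 (inter_mem o2 o5)⟩
    obtain ⟨n, z, z1, z2, z3, z4⟩ := a2 (interior_subset a1).1
    exact a3 n (interior_subset (s := O₂ ∩ O₃) a1) z z1 z2 z3 z4
  obtain ⟨n, h4⟩ := h4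
  obtain ⟨m, hm⟩ := shift W k (hb.trans_le (min_le_left _ _)) hb1.le
    (D₁ * (c + 2 * C + 1) + (D + 1) + D) n
  refine ⟨m, ?_⟩
  filter_upwards [o4, S.em_cont.continuousAt.eventually o1, closedBall_mem_nhds x₀ one_pos]
    with x x1 x2 x3 Q hQ
  obtain ⟨η, ⟨⟨e2, e3⟩, z, z1, z2, z3, z4⟩, e4⟩ := (h4.and_eventually hQ).exists
  obtain ⟨q, hq, e⟩ := o6 (mk_mem_prod x1 e3)
  have e : S.c x q = (S.em x, η) := e
  have q1 : ‖q‖ ≤ 1 / 2 := (mem_ball_zero_iff.1 hq).le.trans (min_le_right _ _)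
  have q2 := S.iU_pU ((S.c_U x q (mem_ball_zero_iff.2 (q1.trans_lt one_half_lt_one))).1
    (congrArg Prod.fst e))
  refine ⟨S.pU q, mem_ball_zero_iff.2 ((S.norm_pU_le q).trans_lt
    ((mem_ball_zero_iff.1 hq).trans_le (min_le_left _ _))), by rw [q2, e]; exact e4,
    fun y hy hl => ?_⟩
  rw [q2] at hy
  obtain ⟨y', y1, y2⟩ := hD x q q1
  obtain ⟨p, hp, f⟩ := o3 (mk_mem_prod z2 (z1 ▸ e2))
  obtain ⟨p', hp', f'⟩ := o3 (mk_mem_prod x2 e2)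
  have p1 : p ∈ ball (0 : V) 1 := ball_subset_ball (hρ1.trans (by norm_num)) hp
  have p2 : S.c z 0 = S.c x₀ p := (S.c_zero z).trans f.symm
  obtain ⟨c1, -, c2⟩ := h1 x₀ z z3 p (Sys.mem_dom p1 (mem_ball_self one_pos) p2)
    ((mem_ball_zero_iff.1 hp).le.trans (min_le_right _ _))
    (by rw [Sys.τ_eq (mem_ball_self one_pos) p2, norm_zero]; exact (half_pos hb0).le) p' (by
      have a1 := (mem_ball_zero_iff.1 hp).le.trans (min_le_left _ _)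
      have a2 := (mem_ball_zero_iff.1 hp').le.trans (min_le_left _ _)
      rw [mem_closedBall, dist_eq_norm]
      linarith [norm_sub_le p' p])
  have c3 : S.pt y = S.c z (S.τ x₀ z p') := by rw [Sys.c_τ c1, f', hy, e]
  have x4 : dist x x₀ ≤ 1 := x3
  have d1 : dist y' x₀ ≤ D + 1 := by linarith [dist_triangle_left y' x₀ x]
  refine hm y z ?_ ((congrArg Prod.snd (hy.trans e)).trans z1.symm)
    (Sys.zero_dom' (Sys.τ_ball c1) c3) (by rwa [Sys.τ_zero' (Sys.τ_ball c1) c3]) z4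
  have l1 := hC x (mem_closedBall.2 (by linarith [abs_nonneg D]))
  have l2 := hC y' (mem_closedBall.2 (by linarith [le_abs_self D]))
  rw [Real.norm_eq_abs, abs_le] at l1 l2
  rw [abs_le] at hl
  have d2 : dist y y' ≤ D₁ * (c + 2 * C + 1) := (h2 y y' (hy.trans y1.symm)).trans
    (mul_le_mul_of_nonneg_left (by
      have : |S.lv y - S.lv y'| ≤ c + 2 * C := abs_le.2 ⟨by linarith, by linarith⟩
      linarith) hD₁.le)
  linarith [dist_triangle4 y y' x₀ z]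

end GoodAux

namespace SSub

variable (W : SSub 𝔉)

theorem goodS (P : Prob S Y) (k : ℕ) {a : ℝ} (ha : 0 < a) (ha1 : a ≤ 1) (c : ℝ) :
    ∃ n, ∀ (x : X) (Q : B → Prop), (∀ᵐ η ∂S.ν, Q η) → ∃ u ∈ ball (0 : E) a,
      Q (S.c x (S.iU u)).2 ∧
        ∀ y, S.pt y = S.c x (S.iU u) → |S.lv y - S.lv x| ≤ c → W.BS k n y := by
  obtain ⟨K, hK, hKx⟩ := S.cocompact
  choose n hn using GoodAux.loc W P k ha c
  obtain ⟨t, -, ht⟩ := hK.elim_nhds_subcover _ fun x _ => hn x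
  refine ⟨t.sup n, fun x Q hQ => ?_⟩
  obtain ⟨g, hg⟩ := hKx x
  obtain ⟨i, hi, h⟩ := mem_iUnion₂.1 (ht hg)
  obtain ⟨u, hu, h1, h2⟩ := h _ (Sys.ae_ν_smul g⁻¹ hQ)
  have hu1 := ball_subset_ball ha1 hu
  rw [S.c_smul g x _ (S.iU_mem.2 hu1)] at h1 h2
  refine ⟨u, hu, by simpa using h1, fun y hy hl => ?_⟩
  have h3 := h2 (g • y) (by rw [S.pt_smul, hy]) (by
    rwa [S.lv_smul g y x ((congrArg Prod.fst hy).trans (S.c_iU x hu1))])
  have h4 := (W.port_BS k).smul _ g⁻¹ _ h3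
  rw [inv_smul_smul] at h4
  exact (W.port_BS k).mono _ _ _ (Finset.le_sup hi) h4

theorem goodU (P : Prob S Y) (k : ℕ) {a : ℝ} (ha : 0 < a) (ha1 : a ≤ 1) (c : ℝ) :
    ∃ n, ∀ (x : X) (Q : B → Prop), (∀ᵐ ξ ∂S.ν, Q ξ) → ∃ w ∈ ball (0 : E) a,
      Q (S.c x (S.iS w)).1 ∧
        ∀ y, S.pt y = S.c x (S.iS w) → |S.lp y - S.lp x| ≤ c → W.BU k n y := by
  obtain ⟨n, h⟩ := W.rev.goodS P.rev k ha ha1 c
  refine ⟨n, fun x Q hQ => ?_⟩
  obtain ⟨w, hw, h1, h2⟩ := h x Q hQ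
  exact ⟨w, hw, h1, fun y hy hl => W.rev_BS.1 (h2 y (congrArg Prod.swap hy) hl)⟩

end SSub

end Vale.Agent.P207Z
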