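import Vale.Agent.P207Z.Real.EqA
import Vale.Agent.P207Z.Real.Good

/-!
# P207: the two extensions agree at every crossing of typical leaves
-/

set_option linter.all false

open Set Filter Topology Metric MeasureTheory
open scoped ContDiff

noncomputable section

namespace Vale.Agent.P207Z

open Sys

variable {Γ X B E V Y : Type} [Group Γ] [Countable Γ] [MetricSpace X] [ProperSpace X]
  [MulAction Γ X] [IsIsometricSMul Γ X] [MeasurableSpace X] [BorelSpace X]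
  [TopologicalSpace B] [CompactSpace B] [T2Space B] [SecondCountableTopology B] [MulAction Γ B]
  [ContinuousConstSMul Γ B] [MeasurableSpace B] [BorelSpace B]
  [NormedAddCommGroup E] [InnerProductSpace ℝ E] [FiniteDimensional ℝ E]
  [NormedAddCommGroup V] [NormedSpace ℝ V] [FiniteDimensional ℝ V]
  [MeasurableSpace Y] [MulAction Γ Y]
  {F : Type} [NormedAddCommGroup F] [NormedSpace ℝ F] [FiniteDimensional ℝ F]
  {S : Sys Γ X B E V} {𝔉 : Bun S F}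

namespace EqA

variable (W : SSub 𝔉)

/-- typical frames -/
def Typ (y : X) : Prop :=
  (∀ (k : ℕ) x ρ P, S.AlongU x ρ (W.At k x P) → S.em y = S.em x → (0 : V) ∈ S.dom y x →
    S.τ y x 0 ∈ ball (0 : V) ρ → Idm k P (S.τ y x 0) → W.At k x P y) ∧
  (∀ (k : ℕ) x ρ P, S.AlongS x ρ (W.At k x P) → S.ep y = S.ep x → (0 : V) ∈ S.dom y x →
    S.τ y x 0 ∈ ball (0 : V) ρ → Idm k P (S.τ y x 0) → W.At k x P y) ∧
  ∀ (k : ℕ) x P, (0 : V) ∈ S.dom y x → Idm k P (S.τ y x 0) →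
    W.At k x P y → (P (S.τ y x 0)).range = (W.H y).map (𝔉.A y x 0 : F →ₗ[ℝ] F)

theorem ae_typ : ∀ᵐ y ∂S.μ, Typ W y := W.centreU.and (W.centreS.and W.at_val)

theorem half : ∃ (k₀ : ℕ) (a : ℝ), 0 < a ∧ a ≤ 1 ∧ ∀ k ≥ k₀, ∀ (n : ℕ) x Pu, W.UExt k x Pu →
    ∀ ε > 0, ∀ᶠ T : ℝ in atTop, ∀ u ∈ ball (0 : E) a, ∀ w ∈ ball (0 : E) a,
      (∀ y, S.pt y = S.c (S.φ T x) (S.iU u) →
        Typ W y ∧ (|S.lv y - S.lv (S.φ T x)| ≤ 0 → W.BS k n y)) →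
      (S.c (S.φ (-T) x) (S.iS w)).1 ≠ (S.c (S.φ T x) (S.iU u)).2 ∧
      ∀ z, S.em z = (S.c (S.φ (-T) x) (S.iS w)).1 → S.ep z = (S.c (S.φ T x) (S.iU u)).2 →
        Typ W z → (0 : V) ∈ S.dom z x ∧
          ∀ v ∈ W.H z, ‖cmp Pu 0 (𝔉.A z x 0 v)‖ ≤ ε * ‖𝔉.A z x 0 v‖ := by
  obtain ⟨a, D, C, β, ha, ha1, hβ, h1⟩ := quad S
  obtain ⟨b, h2⟩ := est 𝔉 D
  obtain ⟨k₀, hk₀⟩ := exists_nat_ge (b / β)
  rw [div_le_iff₀ hβ] at hk₀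
  refine ⟨k₀ + 1, a, ha, ha1, fun k hk n x Pu ⟨hP, ρ, hρ, hA⟩ ε hε => ?_⟩
  obtain ⟨k, rfl⟩ : ∃ k', k = k' + 1 := ⟨k - 1, by omega⟩
  obtain ⟨n₁, hn₁⟩ : ∃ n₁, CkB (k + 1) n₁ (cmp Pu) :=
    CkB.of_contDiffAt (contDiffAt_const.sub hP.self_of_nhds.1)
  obtain ⟨r, C', hr, hC', h3⟩ := h2 k n n₁
  obtain ⟨δ, hδ, h4⟩ := Metric.mem_nhds_iff.1 hP.ev
  have e0 : 0 < β * (k + 1 : ℕ) - b := by
    have : (k₀ : ℝ) ≤ k := by exact_mod_cast (by omega : k₀ ≤ k)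
    push_cast
    nlinarith
  have e1 := (((tendsto_exp e0 (C ^ (k + 1))).add (tendsto_exp hβ C)).add
    (tendsto_exp hβ C)).const_mul C'
  rw [add_zero, add_zero, mul_zero] at e1
  filter_upwards [h1, eventually_ge_atTop 0, ev_exp hβ C (lt_min hr (lt_min hρ hδ)),
    e1.eventually (gt_mem_nhds hε)] with T q1 hT e2 e3 u hu w hw hy
  obtain ⟨y, p, y1, y2, y3, y4, y5, y6, y7, y8⟩ := q1 x u hu w hw
  have y9 : S.ep y = (S.c (S.φ T x) (S.iU u)).2 := congrArg Prod.snd y2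
  have y10 := y6.trans_lt e2
  rw [lt_min_iff, lt_min_iff] at y10
  obtain ⟨P, hP', hS⟩ := (hy (S.φ T y) ((S.pt_φ T y).trans y2)).2
    (by rw [S.lv_φ, S.lv_φ, y1, sub_self, abs_zero])
  have t1 := (hy y y2).1
  have a1 := t1.1 _ x ρ Pu hA y3 y5 (mem_ball_zero_iff.2 y10.2.1)
    (h4 (mem_ball_zero_iff.2 y10.2.2))
  have a2 : S.τ y (S.φ T y) 0 ∈ ball (0 : V) (rad n) := by
    rw [τ_zero (S.pt_φ T y).symm]; exact mem_ball_self (rad_pos n)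
  have a3 := t1.2.1 _ _ _ P hS (S.ep_φ T y).symm (zero_dom (S.pt_φ T y).symm) a2 (hP'.idm a2)
  obtain ⟨b1, b2, b3, b4⟩ := h3 x y T _ P hT y4 y5 y10.1 hn₁ hP' (a1.1.trans a3.2) p
    ((y7.trans_lt e2).trans_le (min_le_left _ _))
  refine ⟨by simpa only [y8, y9] using S.c_ne y _ (dom_ball b1), fun z z1 z2 tz => ?_⟩
  have z3 : S.pt z = S.c y (S.iS p) := by rw [y8, y9, ← z1, ← z2]; rfl
  have z4 := zero_dom' (dom_ball b1) z3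
  have z5 := τ_zero' (dom_ball b1) z3
  rw [← z5] at b1 b2 b3 b4
  have z6 := dom_trans z4 b1
  have z7 := dom_trans z4 b2
  rw [τ_trans z4 z7] at b3
  have z8 := tz.2.2 _ _ P z7 (hP'.idm b3) (tz.2.1 _ _ _ P hS
    (by rw [S.ep_φ, z2, y9]) z7 b3 (hP'.idm b3))
  refine ⟨z6, fun v hv => ?_⟩
  have c0 : ∀ {s t : X}, (0 : V) ∈ S.dom z s → (0 : V) ∈ S.dom z t →
      𝔉.A s t (S.τ z s 0) (𝔉.A z s 0 v) = 𝔉.A z t 0 v := fun h h' =>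
    congrArg (fun L : F →L[ℝ] F => L v) (𝔉.coc _ _ _ 0 h h')
  obtain ⟨v', hv'⟩ := z8.ge ⟨v, hv, rfl⟩
  have c1 : P (S.τ z (S.φ T y) 0) (𝔉.A z (S.φ T y) 0 v) = 𝔉.A z (S.φ T y) 0 v := by
    rw [show 𝔉.A z (S.φ T y) 0 v = P (S.τ z (S.φ T y) 0) v' from hv'.symm]
    exact congrArg (fun L : F →L[ℝ] F => L v') (hP'.idem _ b3)
  have c2 := b4 (𝔉.A z y 0 v) (by
    change 𝔉.A _ y (S.τ y _ _) (P (S.τ y _ _) (𝔉.A y _ _ _)) = _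
    rw [c0 z4 z7, τ_trans z4 z7, c1, c0 z7 z4])
  rw [c0 z4 z6] at c2
  refine c2.trans (mul_le_mul_of_nonneg_right (le_trans (mul_le_mul_of_nonneg_left
    (add_le_add (add_le_add ?_ y6) y7) hC') e3.le) (norm_nonneg _))
  refine (mul_le_mul_of_nonneg_left (pow_le_pow_left₀ (norm_nonneg _) y7 _)
    (by positivity)).trans (le_of_eq ?_)
  rw [mul_pow, ← Real.exp_nat_mul, mul_left_comm, ← Real.exp_add]
  congr 2
  ring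

theorem half' : ∃ (k₀ : ℕ) (a : ℝ), 0 < a ∧ a ≤ 1 ∧ ∀ k ≥ k₀, ∀ (n : ℕ) x Ps, W.SExt k x Ps →
    ∀ ε > 0, ∀ᶠ T : ℝ in atTop, ∀ w ∈ ball (0 : E) a, ∀ u ∈ ball (0 : E) a,
      (∀ y, S.pt y = S.c (S.φ (-T) x) (S.iS w) →
        Typ W.rev y ∧ (|S.lp y - S.lp (S.φ (-T) x)| ≤ 0 → W.BU k n y)) →
      ∀ z, S.ep z = (S.c (S.φ T x) (S.iU u)).2 → S.em z = (S.c (S.φ (-T) x) (S.iS w)).1 →
        Typ W.rev z → ∀ v ∈ W.H z, ‖cmp Ps 0 (𝔉.A z x 0 v)‖ ≤ ε * ‖𝔉.A z x 0 v‖ := by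
  obtain ⟨k₀, a, ha, ha1, h⟩ := half W.rev
  refine ⟨k₀, a, ha, ha1, fun k hk n x Ps hP ε hε => ?_⟩
  filter_upwards [h k hk n x Ps (W.rev_UExt.2 hP) ε hε] with T hT w hw u hu hy z z1 z2 tz
  exact ((hT w hw u hu fun y h1 => (hy y (Prod.swap_injective h1)).imp_right
    fun h2 h3 => W.rev_BS.2 (h2 h3)).2 z (by rw [rev_φ, neg_neg]; exact z1) z2 tz).2

end EqA

open EqA in
theorem SSub.eq0 (W : SSub 𝔉) (P : Prob S Y) : ∃ (k₀ : ℕ) (A A' : Set B), (∀ᵐ ξ ∂S.ν, ξ ∈ A) ∧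
    (∀ᵐ η ∂S.ν, η ∈ A') ∧ ∀ x, S.em x ∈ A → S.ep x ∈ A' → ∀ k ≥ k₀, ∀ Pu Ps,
      W.UExt k x Pu → W.SExt k x Ps → (Pu 0).range = (Ps 0).range := by
  obtain ⟨k₁, a₁, ha₁, ha₁', h1⟩ := half W
  obtain ⟨k₂, a₂, ha₂, -, h2⟩ := half' W
  obtain ⟨d, hd, hdU⟩ := W.uExt_rank P
  obtain ⟨d', hd', hdS⟩ := W.sExt_rank P
  have h3 := ae_typ W.rev
  rw [rev_μ] at h3
  have h4 := S.ae_iff.1 (((ae_typ W).and h3).and (hd.and hd'))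
  have h5 := Measure.ae_ae_of_ae_prod h4
  have h6 := Measure.ae_ae_of_ae_prod
    (Measure.measurePreserving_swap.quasiMeasurePreserving.ae h4)
  refine ⟨max k₁ k₂, _, _, h5.and hdU, h6.and hdS, fun x hx hx' k hk Pu Ps hu hs => ?_⟩
  have ha : 0 < min a₁ a₂ := lt_min ha₁ ha₂
  have ha' : min a₁ a₂ ≤ 1 := (min_le_left _ _).trans ha₁'
  obtain ⟨n, h7⟩ := W.goodS P k ha ha' 0
  obtain ⟨n', h8⟩ := W.goodU P k ha ha' 0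
  have key : ∀ ε > 0, ∃ H : Submodule ℝ F, (Module.finrank ℝ H = d ∧ Module.finrank ℝ H = d') ∧
      (∀ v ∈ H, ‖v - Pu 0 v‖ ≤ ε * ‖v‖) ∧ ∀ v ∈ H, ‖v - Ps 0 v‖ ≤ ε * ‖v‖ := by
    intro ε hε
    obtain ⟨T, t1, t2⟩ := ((h1 k (le_of_max_le_left hk) n x Pu hu ε hε).and
      (h2 k (le_of_max_le_right hk) n' x Ps hs ε hε)).exists
    obtain ⟨u, u1, ⟨u2, u3⟩, u4⟩ := h7 (S.φ T x) _ (hx.1.and h6)
    obtain ⟨w, w1, ⟨w2, w3⟩, w4⟩ := h8 (S.φ (-T) x) _ (hx'.1.and u3)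
    have u5 : (S.c (S.φ T x) (S.iU u)).1 = S.em x := by
      rw [(S.c_U _ _ (mem_ball_zero_iff.2 ((S.norm_iU u).trans_lt
        ((mem_ball_zero_iff.1 u1).trans_le ha')))).2 (S.pS_iU u), S.em_φ]
    have w5 : (S.c (S.φ (-T) x) (S.iS w)).2 = S.ep x := by
      rw [(S.c_S _ _ (mem_ball_zero_iff.2 ((S.norm_iS w).trans_lt
        ((mem_ball_zero_iff.1 w1).trans_le ha')))).2 (S.pU_iS w), S.ep_φ]
    obtain ⟨c1, c2⟩ := t1 u (ball_subset_ball (min_le_left _ _) u1) w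
      (ball_subset_ball (min_le_left _ _) w1) fun y hy =>
        ⟨(u2 y (hy.trans (Prod.ext u5 rfl))).1.1, u4 y hy⟩
    obtain ⟨z, z1, z2⟩ := S.exists_frame _ _ c1
    obtain ⟨⟨z3, z4⟩, z5⟩ := w3 z (Prod.ext z1 z2)
    obtain ⟨c3, c4⟩ := c2 z z1 z2 z3
    have c5 := t2 w (ball_subset_ball (min_le_right _ _) w1) u
      (ball_subset_ball (min_le_right _ _) u1) (fun y hy =>
        ⟨(w2 y (hy.trans (Prod.ext rfl w5))).1.2, w4 y hy⟩) z z2 z1 z4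
    have c6 : Function.Injective (𝔉.A z x 0 : F →ₗ[ℝ] F) := Function.LeftInverse.injective
      (g := 𝔉.A x z (S.τ z x 0)) fun v => congrArg (fun L : F →L[ℝ] F => L v) (𝔉.inv c3)
    refine ⟨(W.H z).map (𝔉.A z x 0 : F →ₗ[ℝ] F), ?_, ?_, ?_⟩
    · rwa [← (Submodule.equivMapOfInjective _ c6 _).finrank_eq]
    · rintro _ ⟨v, hv, rfl⟩
      exact c4 v hv
    · rintro _ ⟨v, hv, rfl⟩
      exact c5 v hv
  refine le_antisymm (range_le fun ε hε => ?_) (range_le fun ε hε => ?_)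
  · obtain ⟨H, a1, a2⟩ := key ε hε
    exact ⟨H, ((hx.2 x rfl k Pu hu).trans a1.1.symm).le, a2⟩
  · obtain ⟨H, a1, a2⟩ := key ε hε
    exact ⟨H, ((hx'.2 x rfl k Ps hs).trans a1.2.symm).le, a2.symm⟩

end Vale.Agent.P207Z
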