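import Vale.Agent.P207Z.OpsB
import Vale.Agent.P207Z.Real.Eq

/-!
# P207: the two extensions agree to the first order
-/

set_option linter.all false

open Set Filter Topology Metric MeasureTheory VectorField
open scoped ContDiff

noncomputable section

namespace Vale.Agent.P207Z

variable {Γ X B E V Y : Type} [Group Γ] [Countable Γ] [MetricSpace X] [ProperSpace X]
  [MulAction Γ X] [IsIsometricSMul Γ X] [MeasurableSpace X] [BorelSpace X]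
  [TopologicalSpace B] [CompactSpace B] [T2Space B] [SecondCountableTopology B] [MulAction Γ B]
  [ContinuousConstSMul Γ B] [MeasurableSpace B] [BorelSpace B]
  [NormedAddCommGroup E] [InnerProductSpace ℝ E] [FiniteDimensional ℝ E]
  [NormedAddCommGroup V] [NormedSpace ℝ V] [FiniteDimensional ℝ V]
  [MeasurableSpace Y] [MulAction Γ Y]
  {F G : Type} [NormedAddCommGroup F] [NormedSpace ℝ F] [FiniteDimensional ℝ F]
  [NormedAddCommGroup G] [NormedSpace ℝ G]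
  {S : Sys Γ X B E V} {𝔉 : Bun S F}

theorem Idm.cd1 {k : WithTop ℕ∞} {P : V → F →L[ℝ] F} {z : V} (h : Idm k P z) :
    ContDiffAt ℝ k P z := h.self_of_nhds.1

theorem Idm.pgc1 {k : ℕ} {x y : X} {P : V → F →L[ℝ] F} (hy : (0 : V) ∈ S.dom y x)
    (h : Idm k P (S.τ y x 0)) : OpB.PG k (𝔉.conj y x P) := by
  have h1 : ContDiffAt ℝ k (S.τ y x) 0 := (Sys.contDiffAt_τ hy).of_le (by exact_mod_cast le_top)
  refine ⟨((((𝔉.contDiffAt (Sys.τ_dom hy)).of_le (by exact_mod_cast le_top)).comp 0 h1).mul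
    (h.cd1.comp 0 h1)).mul ((𝔉.contDiffAt hy).of_le (by exact_mod_cast le_top)), ?_⟩
  filter_upwards [Sys.dom_nhds hy, h1.continuousAt.eventually h] with q h2 h3
  unfold Bun.conj
  rw [mul_assoc, ← mul_assoc (𝔉.A y x q), ← mul_assoc (𝔉.A y x q), 𝔉.inv' h2, one_mul,
    mul_assoc, ← mul_assoc (P _), h3.2, mul_assoc]

theorem SSub.at_jet1 (W : SSub 𝔉) : ∀ᵐ y ∂S.μ, ∀ (k : ℕ) x P, (0 : V) ∈ S.dom y x →
    Idm (k + 1 : ℕ) P (S.τ y x 0) → W.At (k + 1) x P y → W.jet1.At k x (j1 P) y := by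
  filter_upwards [ae_all_iff.2 (OpB.ae_pg W)] with y hy k x P h0 hP h
  refine (𝔉.jet1.eqv_conj _ h0).symm.trans ((OpB.j1_eqv (hP.pgc1 h0) (hy (k + 1))
    ((𝔉.eqv_conj _ h0).trans h)).congr (OpB.cmp_congr ?_) EventuallyEq.rfl)
  filter_upwards [Sys.dom_nhds h0, (Sys.differentiableAt_τ h0).continuousAt.eventually
    (OpB.ev_diff hP.cd1)] with q h1 h2
  exact OpB.jet1_conj h1 h2

theorem Idm.j1 {k : ℕ} {P : V → F →L[ℝ] F} {z : V} (h : Idm (k + 1 : ℕ) P z) :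
    Idm k (j1 P) z := by
  filter_upwards [h, h.eventually_nhds] with q h1 h2
  have h3 := (OpB.cd_jet h1.1).continuousLinearMap_comp
    (G := F × (V →L[ℝ] F) →L[ℝ] F × (V →L[ℝ] F)) (OpB.jL V F F)
  exact ⟨h3, OpB.j1_idem (h1.1.differentiableAt (by simp)) (h2.mono fun _ e => e.2)⟩

theorem flat_of_j1 {P P' : V → F →L[ℝ] F} {z : V} (h : Idm 1 P z) (h' : Idm 1 P' z)
    (e : (j1 P' z).range ≤ (j1 P z).range) : Flat 1 (fun q => cmp P q ∘L P' q) z := by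
  have d : DifferentiableAt ℝ P z := h.cd1.differentiableAt (by simp)
  have d' : DifferentiableAt ℝ P' z := h'.cd1.differentiableAt (by simp)
  have d1 : DifferentiableAt ℝ (cmp P) z := (differentiableAt_const _).sub d
  have h1 : ∀ v, j1 (fun q => cmp P q ∘L P' q) z (v, 0) = 0 := fun v => by
    rw [j1_comp d1 d', OpB.j1_cmp]
    exact (ker_cmp (OpB.j1_idem d (h.mono fun _ e => e.2))).ge (e ⟨(v, 0), rfl⟩)
  have h2 : cmp P z ∘L P' z = 0 := ContinuousLinearMap.ext fun v => congrArg Prod.fst (h1 v)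
  have h3 : fderiv ℝ (fun q => cmp P q ∘L P' q) z = 0 := by
    ext w v
    have h3 := DFunLike.congr_fun (congrArg Prod.snd (h1 v)) w
    rw [j1_apply, ContinuousLinearMap.comp_zero, add_zero] at h3
    exact h3
  have h4 := hasFDerivAt_iff_isLittleO.1 (h3 ▸ (d1.clm_comp d').hasFDerivAt)
  simp only [h2, sub_zero, ContinuousLinearMap.zero_apply] at h4
  simpa only [Flat, pow_one, Asymptotics.isLittleO_norm_right] using h4

theorem Idm.ball1 {k : WithTop ℕ∞} {P : V → F →L[ℝ] F} (h : Idm k P 0) {ρ : ℝ} (hρ : 0 < ρ) :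
    ∃ r > 0, r ≤ ρ ∧ ∀ x y, S.pt y ∈ S.c x '' ball 0 r →
      (0 : V) ∈ S.dom y x ∧ Idm k P (S.τ y x 0) := by
  obtain ⟨ε, hε, h1⟩ := Metric.eventually_nhds_iff_ball.1 h.eventually_nhds
  refine ⟨min ρ (min ε 1), by positivity, min_le_left _ _, fun x y hy => ?_⟩
  obtain ⟨h2, h3⟩ := Sys.zero_dom_image ((min_le_right _ _).trans (min_le_right _ _)) hy
  exact ⟨h2, h1 _ (ball_subset_ball ((min_le_right _ _).trans (min_le_left _ _)) h3)⟩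

theorem SSub.uExt_jet1 (W : SSub 𝔉) : ∀ᵐ ξ ∂S.ν, ∀ x, S.em x = ξ → ∀ (k : ℕ) P,
    W.UExt (k + 1) x P → W.jet1.UExt k x (j1 P) := by
  filter_upwards [Sys.ae_ae_U W.at_jet1] with ξ h x hx k P ⟨h1, ρ, hρ, h2⟩
  obtain ⟨r, hr, h3, h4⟩ := h1.ball1 (S := S) hρ
  refine ⟨h1.j1, r, hr, ?_⟩
  filter_upwards [h, h2] with η h5 h6 y hy hb
  exact h5 y (hx ▸ hy) k x P (h4 x y hb).1 (h4 x y hb).2
    (h6 y hy (image_mono (ball_subset_ball h3) hb))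

theorem SSub.sExt_jet1 (W : SSub 𝔉) : ∀ᵐ η ∂S.ν, ∀ x, S.ep x = η → ∀ (k : ℕ) P,
    W.SExt (k + 1) x P → W.jet1.SExt k x (j1 P) := by
  filter_upwards [Sys.ae_ae_S W.at_jet1] with η h x hx k P ⟨h1, ρ, hρ, h2⟩
  obtain ⟨r, hr, h3, h4⟩ := h1.ball1 (S := S) hρ
  refine ⟨h1.j1, r, hr, ?_⟩
  filter_upwards [h, h2] with ξ h5 h6 y hy hb
  exact h5 y (hx ▸ hy) k x P (h4 x y hb).1 (h4 x y hb).2
    (h6 y hy (image_mono (ball_subset_ball h3) hb))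

theorem SSub.eq1 (W : SSub 𝔉) (P : Prob S Y) : ∃ (k₀ : ℕ) (A A' : Set B), (∀ᵐ ξ ∂S.ν, ξ ∈ A) ∧
    (∀ᵐ η ∂S.ν, η ∈ A') ∧ ∀ x, S.em x ∈ A → S.ep x ∈ A' → ∀ k ≥ k₀, ∀ Pu Ps,
      W.UExt k x Pu → W.SExt k x Ps → Flat 1 (fun q => cmp Pu q ∘L Ps q) 0 ∧
        Flat 1 (fun q => cmp Ps q ∘L Pu q) 0 := by
  obtain ⟨k₀, A, A', h1, h2, h3⟩ := W.jet1.eq0 P
  refine ⟨k₀ + 1, _, _, h1.and W.uExt_jet1, h2.and W.sExt_jet1,
    fun x hx hx' k hk Pu Ps hu hs => ?_⟩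
  obtain ⟨j, rfl⟩ : ∃ j, k = j + 1 := ⟨k - 1, by omega⟩
  have e := h3 x hx.1 hx'.1 j (by omega) _ _ (hx.2 x rfl j Pu hu) (hx'.2 x rfl j Ps hs)
  have k1 : ∀ Q : V → F →L[ℝ] F, Idm (j + 1 : ℕ) Q 0 → Idm 1 Q 0 := fun Q hQ =>
    hQ.mono fun _ h => ⟨h.1.of_le (by exact_mod_cast Nat.le_add_left 1 j), h.2⟩
  exact ⟨flat_of_j1 (k1 _ hu.1) (k1 _ hs.1) e.ge, flat_of_j1 (k1 _ hs.1) (k1 _ hu.1) e.le⟩

end Vale.Agent.P207Z
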