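import Vale.Agent.P207Z.Real.FarD

/-!
# P207: the equation of the geodesics at one point (block FAR A)
-/

set_option linter.all false

open Set Filter Topology Metric MeasureTheory VectorField
open scoped ContDiff NNReal

noncomputable section

namespace Vale.Agent.P207Z

variable {Γ X B E V Y : Type} [Group Γ] [Countable Γ] [MetricSpace X] [ProperSpace X]
  [MulAction Γ X] [IsIsometricSMul Γ X] [MeasurableSpace X] [BorelSpace X]
  [TopologicalSpace B] [CompactSpace B] [T2Space B] [SecondCountableTopology B] [MulAction Γ B]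
  [ContinuousConstSMul Γ B] [MeasurableSpace B] [BorelSpace B]
  [NormedAddCommGroup E] [InnerProductSpace ℝ E] [FiniteDimensional ℝ E]
  [NormedAddCommGroup V] [NormedSpace ℝ V] [FiniteDimensional ℝ V]
  [MeasurableSpace Y] [MulAction Γ Y]
  {F G A W : Type} [NormedAddCommGroup F] [NormedSpace ℝ F] [FiniteDimensional ℝ F]
  [NormedAddCommGroup G] [NormedSpace ℝ G] [FiniteDimensional ℝ G]
  [NormedAddCommGroup A] [NormedSpace ℝ A] [FiniteDimensional ℝ A]
  [NormedAddCommGroup W] [NormedSpace ℝ W] [FiniteDimensional ℝ W]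
  {S : Sys Γ X B E V} {𝔉 : Bun S F}

namespace FarA

theorem der_zero {f : A → W} {f' : A →L[ℝ] W} {z : A} (h : Flat 1 f z) (hf : HasFDerivAt f f' z)
    (v : A) : f' v = 0 := by
  have h1 : HasFDerivAt f (0 : A →L[ℝ] W) z := by
    rw [hasFDerivAt_iff_isLittleO]
    simpa [h.eq_zero, Flat] using h
  rw [hf.unique h1, ContinuousLinearMap.zero_apply]

/-- the linear algebra -/
theorem lin {P : V →L[ℝ] V} {j : W →L[ℝ] V} {i : A →L[ℝ] V}
    {M : W →L[ℝ] A →L[ℝ] ℝ} (hd : Module.finrank ℝ W = Module.finrank ℝ P.range)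
    (hM : ∀ e, M e = 0 → e = 0) (h0 : ∀ e k, S.om (j e) (i k) = M e k) (hj : ∀ e, P (j e) = j e)
    (v : V) : ∃ k, ∀ u, S.om (P u) (v - i k) = 0 := by
  let B : W →ₗ[ℝ] A →ₗ[ℝ] ℝ := (ContinuousLinearMap.coeLM ℝ).comp M.toLinearMap
  have h1 : Function.Injective B := (injective_iff_map_eq_zero B).2 fun e he =>
    hM e (ContinuousLinearMap.ext fun k => LinearMap.congr_fun he k)
  obtain ⟨k, hk⟩ := LinearMap.flip_surjective_iff₁.2 h1 (S.om.flip v ∘L j).toLinearMap
  have h2 : Function.Injective j.toLinearMap := (injective_iff_map_eq_zero _).2 fun e he =>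
    hM e (ContinuousLinearMap.ext fun k => by
      rw [← h0, show j e = 0 from he, map_zero]
      rfl)
  have h3 : j.range = P.range := Submodule.eq_of_le_of_finrank_eq
    (by rintro _ ⟨e, rfl⟩; exact ⟨_, hj e⟩) ((LinearMap.finrank_range_of_inj h2).trans hd)
  refine ⟨k, fun u => ?_⟩
  obtain ⟨e, he⟩ : P u ∈ j.range := h3 ▸ ⟨u, rfl⟩
  rw [← show j e = P u from he, map_sub, h0]
  exact sub_eq_zero.2 (LinearMap.congr_fun hk e).symm

end FarA

open FarA ContinuousLinearMap in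
theorem aff_pt {P : V → V →L[ℝ] V} {Q : A × W → V} {s : W} {M : A → W →L[ℝ] A →L[ℝ] ℝ}
    (hP : Idm 1 P (Q (0, s))) (hQ : ContDiffAt ℝ 2 Q (0, s))
    (hd : Module.finrank ℝ W = Module.finrank ℝ (P (Q (0, s))).range)
    (iso : ∀ u u', Flat 1 (fun q => S.om (P q u) (P q u')) (Q (0, s)))
    (br : ∀ u w, cmp (S.prp P) (Q (0, s))
      (lieBracket ℝ (fun p => P p u) (fun p => S.prp P p w) (Q (0, s))) = 0)
    (tan : ∀ e, Flat 1 (fun z => cmp P (Q z) (fderiv ℝ Q z (0, e))) (0, s))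
    (hom : ∀ᶠ z in 𝓝 ((0 : A), s), ∀ e k,
      S.om (fderiv ℝ Q z (0, e)) (fderiv ℝ Q z (k, 0)) = M z.1 e k)
    (hM : ∀ e, M 0 e = 0 → e = 0) :
    (∀ e, fderiv ℝ Q (0, s) (0, e) = 0 → e = 0) ∧
    (∀ e, P (Q (0, s)) (fderiv ℝ Q (0, s) (0, e)) = fderiv ℝ Q (0, s) (0, e)) ∧
    ∀ e e', ‖fderiv ℝ (fderiv ℝ Q) (0, s) (0, e) (0, e')‖ ≤ ‖S.omInv‖ * ‖S.om‖ *
      ‖fderiv ℝ P (Q (0, s))‖ * ‖fderiv ℝ Q (0, s) (0, e)‖ * ‖fderiv ℝ Q (0, s) (0, e')‖ := by
  set J := fderiv ℝ Q (0, s) with hJ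
  set H := fderiv ℝ (fderiv ℝ Q) (0, s) with hH
  set D := fderiv ℝ P (Q (0, s)) with hD
  have dP : HasFDerivAt P D (Q (0, s)) :=
    (hP.self_of_nhds.1.differentiableAt one_ne_zero).hasFDerivAt
  have dQ : HasFDerivAt Q J (0, s) := (hQ.differentiableAt two_ne_zero).hasFDerivAt
  have dJ : HasFDerivAt (fderiv ℝ Q) H (0, s) :=
    ((hQ.fderiv_right (m := 1) le_rfl).differentiableAt one_ne_zero).hasFDerivAt
  have sy : ∀ a a', H a a' = H a' a := hQ.isSymmSndFDerivAt (by simp)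
  have dPu := fun u => dP.clm_apply (hasFDerivAt_const u (Q (0, s)))
  have dJu := fun u => dJ.clm_apply (hasFDerivAt_const u ((0 : A), s))
  have t0 : ∀ e, P (Q (0, s)) (J (0, e)) = J (0, e) := fun e =>
    (sub_eq_zero.1 (tan e).eq_zero).symm
  have t1 : ∀ a e, H a (0, e) = P (Q (0, s)) (H a (0, e)) + D (J a) (J (0, e)) := fun a e => by
    have h := der_zero (tan e) ((((hasFDerivAt_const 1 _).sub dP).comp _ dQ).clm_apply (dJu (0, e))) a
    simp [cmp] at h
    rw [← sub_eq_zero, ← h]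
    abel
  have i0 : ∀ u u', S.om (P (Q (0, s)) u) (P (Q (0, s)) u') = 0 := fun u u' => (iso u u').eq_zero
  have i1 : ∀ v u u', S.om (P (Q (0, s)) u) (D v u') + S.om (D v u) (P (Q (0, s)) u') = 0 :=
    fun v u u' => by
      simpa using der_zero (iso u u') ((S.om.hasFDerivAt.comp _ (dPu u)).clm_apply (dPu u')) v
  have b1 : ∀ u u' w, S.om (D (P (Q (0, s)) u) (P (Q (0, s)) u')) w +
      S.om (P (Q (0, s)) u') (D (w - S.adj (P (Q (0, s))) w) u) = 0 := fun u u' w => by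
    have h1 : HasFDerivAt (fun p => S.prp P p w) _ (Q (0, s)) :=
      ((hasFDerivAt_const 1 _).sub (S.adj.hasFDerivAt.comp _ dP)).clm_apply (hasFDerivAt_const w _)
    have h := congrArg (S.om u') (br u w)
    rw [lieBracket, h1.fderiv, (dPu u).fderiv] at h
    simp [cmp, Sys.prp, S.om_adj] at h
    simp only [map_sub, sub_apply]
    linarith
  have h0 := hom.self_of_nhds
  have h1 : ∀ e e' k, S.om (J (0, e)) (H (0, e') (k, 0)) +
      S.om (H (0, e') (0, e)) (J (k, 0)) = 0 := fun e e' k => by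
    have c : HasFDerivAt (fun w : W => ((0 : A), w)) (inr ℝ A W) s := hasFDerivAt_prodMk_right 0 s
    have h := (((S.om.hasFDerivAt.comp _ (dJu (0, e))).clm_apply (dJu (k, 0))).comp s c).unique
      ((hasFDerivAt_const (M 0 e k) s).congr_of_eventuallyEq
        ((c.continuousAt.eventually hom).mono fun w hw => hw e k))
    simpa using congrArg (· e') h
  refine ⟨fun e he => hM e (ext fun k => by rw [← h0, he, map_zero]; rfl), t0, fun e e' => ?_⟩
  have key : ∀ v, S.om (H (0, e) (0, e')) v = -S.om (J (0, e)) (D v (J (0, e'))) := fun v => by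
    obtain ⟨k, hk⟩ := lin (j := J ∘L inr ℝ A W) (i := J ∘L inl ℝ A W) hd hM h0 t0 v
    change ∀ u, S.om _ (v - J (k, 0)) = 0 at hk
    have a1 : S.adj (P (Q (0, s))) (v - J (k, 0)) = 0 := S.om_inj fun u => by
      rw [S.om_anti, S.om_adj, hk, neg_zero]
    have a2 := b1 (J (0, e)) (J (0, e')) (v - J (k, 0))
    have a3 := i1 (v - J (k, 0)) (J (0, e)) (J (0, e'))
    have a4 := h1 e e' k
    have a5 := i0 (J (0, e)) (H (k, 0) (0, e'))
    have a6 := congrArg (S.om · (v - J (k, 0))) (t1 (0, e) e')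
    have a7 := congrArg (S.om (J (0, e))) (t1 (k, 0) e')
    rw [a1, sub_zero, t0, t0, S.om_anti (J (0, e'))] at a2
    rw [t0, t0] at a3
    rw [t0] at a5
    rw [sy (0, e'), sy (0, e')] at a4
    simp only [map_add, add_apply, hk] at a6 a7
    simp only [map_sub, sub_apply] at a2 a3 a6
    linarith
  rw [← S.omInv_om (H (0, e) (0, e')), mul_assoc, mul_assoc, mul_assoc]
  refine (le_opNorm _ _).trans (mul_le_mul_of_nonneg_left
    (opNorm_le_bound _ (by positivity) fun v => ?_) (norm_nonneg _))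
  rw [key, norm_neg]
  refine (S.om.le_opNorm₂ _ _).trans ((mul_le_mul_of_nonneg_left (D.le_opNorm₂ _ _)
    (by positivity)).trans (le_of_eq (by ring)))

end Vale.Agent.P207Z
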