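import Vale.Agent.P207Z.Real.Defs

/-!
# P207: extensions along a stable leaf in a chart which is not centred on the leaf (block FAR)
-/

set_option linter.all false

open Set Filter Topology Metric MeasureTheory
open scoped ContDiff

noncomputable section

namespace Vale.Agent.P207Z

variable {Γ X B E V : Type} [Group Γ] [Countable Γ] [MetricSpace X] [ProperSpace X]
  [MulAction Γ X] [IsIsometricSMul Γ X] [MeasurableSpace X] [BorelSpace X]
  [TopologicalSpace B] [CompactSpace B] [T2Space B] [SecondCountableTopology B] [MulAction Γ B]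
  [ContinuousConstSMul Γ B] [MeasurableSpace B] [BorelSpace B]
  [NormedAddCommGroup E] [InnerProductSpace ℝ E] [FiniteDimensional ℝ E]
  [NormedAddCommGroup V] [NormedSpace ℝ V] [FiniteDimensional ℝ V]
  {F G : Type} [NormedAddCommGroup F] [NormedSpace ℝ F] [FiniteDimensional ℝ F]
  [NormedAddCommGroup G] [NormedSpace ℝ G]
  {S : Sys Γ X B E V} {𝔉 : Bun S F}

/-- `P`, in the chart of `x`, extends `W` along the `S`-leaf of `η` -/
def SSub.Box (W : SSub 𝔉) (k n : ℕ) (x : X) (η : B) (P : V → F →L[ℝ] F) : Prop :=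
  Prj k n P ∧ ∀ᵐ ξ ∂S.ν, ∀ y, S.pt y = (ξ, η) → S.pt y ∈ S.c x '' ball 0 (rad n) → W.At k x P y

/-- `π` is uniformly injective on the range of `P`, and takes the value `e` -/
def Tr (n : ℕ) (π : V →L[ℝ] G) (e : G) (P : V → V →L[ℝ] V) : Prop :=
  ∀ q ∈ ball (0 : V) (rad n), (∀ v, P q v = v → ‖v‖ ≤ n * ‖π v‖) ∧ ∃ v, P q v = v ∧ π v = e

/-- curves tangent to the range of `P`, with the velocity `e` after projection -/
structure Crv (n : ℕ) (π : V →L[ℝ] G) (e : G) (P : V → V →L[ℝ] V) (u₀ : ℝ) (γ : ℝ → V) :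
    Prop where
  mem : ∀ u ∈ Icc 0 u₀, ‖γ u‖ ≤ rad n / 2
  der : ∀ u ∈ Icc 0 u₀, ∃ v, P (γ u) v = v ∧ π v = e ∧ HasDerivWithinAt γ v (Icc 0 u₀) u

end Vale.Agent.P207Z
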