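import Vale.Agent.P207Z.Real.Ident
import Vale.Agent.P207Z.End.Rep
import Vale.Agent.P207Z.Real.FarD

/-!
# P207 FAR: boxes
-/

set_option linter.all false

open Set Filter Topology Metric MeasureTheory VectorField
open scoped ContDiff NNReal

noncomputable section

namespace Vale.Agent.P207Z

variable {Γ X B E V Y : Type} [Group Γ] [Countable Γ] [MetricSpace X] [ProperSpace X]
  [MulAction Γ X] [IsIsometricSMul Γ X] [MeasurableSpace X] [BorelSpace X]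
  [TopologicalSpace B] [CompactSpace B] [T2Space B] [SecondCountableTopology B] [MulAction Γ B]
  [ContinuousConstSMul Γ B] [MeasurableSpace B] [BorelSpace B]
  [NormedAddCommGroup E] [InnerProductSpace ℝ E] [FiniteDimensional ℝ E]
  [NormedAddCommGroup V] [NormedSpace ℝ V] [FiniteDimensional ℝ V]
  [MeasurableSpace Y] [MulAction Γ Y]
  {F G A W : Type} [NormedAddCommGroup F] [NormedSpace ℝ F] [FiniteDimensional ℝ F]
  [NormedAddCommGroup G] [NormedSpace ℝ G] [FiniteDimensional ℝ G]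
  [NormedAddCommGroup A] [NormedSpace ℝ A] [FiniteDimensional ℝ A]
  [NormedAddCommGroup W] [NormedSpace ℝ W] [FiniteDimensional ℝ W]
  {S : Sys Γ X B E V} {𝔉 : Bun S F}

theorem Sys.near_ball (S : Sys Γ X B E V) {a' : ℝ} (ha : 0 < a') : ∃ a > 0, ∃ δ > 0, ∀ x x₀,
    dist x x₀ < δ → S.c x '' ball 0 a ⊆ S.c x₀ '' ball 0 a' := by
  obtain ⟨K, hK, hKx⟩ := S.cocompact
  have hO : IsOpen (S.Dm ∩ (fun p : (X × X) × V => S.τ p.1.1 p.1.2 p.2) ⁻¹' ball 0 a') :=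
    Sys.jc_τ.continuousOn.isOpen_inter_preimage Sys.isOpen_Dm isOpen_ball
  obtain ⟨δ, hδ, hs⟩ := (hK.image (f := fun x => ((x, x), (0 : V)))
    (by fun_prop)).exists_cthickening_subset_open hO (by
      rintro _ ⟨x, -, rfl⟩
      exact ⟨Sys.zero_dom rfl, by
        rw [mem_preimage, Sys.τ_zero rfl]
        exact mem_ball_self ha⟩)
  refine ⟨δ, hδ, δ, hδ, fun x x₀ h => ?_⟩
  rintro _ ⟨q, hq, rfl⟩
  obtain ⟨g, hg⟩ := hKx x
  have h2 := hs (mem_cthickening_of_dist_le ((g • x, g • x₀), q) ((g • x, g • x), 0) δ _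
    ⟨_, hg, rfl⟩ (by
      rw [Prod.dist_eq, Prod.dist_eq, dist_self, dist_smul, dist_comm x₀]
      exact max_le (max_le hδ.le h.le) (mem_ball.1 hq).le))
  have h3 : q ∈ S.dom x x₀ := Sys.dom_smul (S := S) g ▸ h2.1
  exact ⟨_, Sys.τ_smul g h3 ▸ h2.2, Sys.c_τ h3⟩

theorem Sys.freq_leaf {R : B → Prop} (h : ∀ᵐ ξ ∂S.ν, R ξ) (x : X) {z : V}
    (hz : z ∈ ball (0 : V) 1) :
    ∃ᶠ q in 𝓝 z, q ∈ ball (0 : V) 1 ∧ (S.c x q).2 = (S.c x z).2 ∧ R (S.c x q).1 := by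
  refine frequently_iff.2 fun {U} hU => ?_
  obtain ⟨O, hO, ho, hzO⟩ := _root_.mem_nhds_iff.1 (inter_mem hU (isOpen_ball.mem_nhds hz))
  obtain ⟨ξ, ⟨q, hq, e⟩, hξ⟩ := Sys.ν_exists h ((S.isOpen_image x ho
    (hO.trans inter_subset_right)).preimage (f := fun ξ => (ξ, (S.c x z).2)) (by fun_prop))
      ⟨(S.c x z).1, z, hzO, rfl⟩
  exact ⟨q, (hO hq).1, (hO hq).2, by rw [e], by rwa [e]⟩

theorem SSub.Box.mono {H : SSub 𝔉} {k n n' : ℕ} {x : X} {η : B} {P : V → F →L[ℝ] F}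
    (h : H.Box k n x η P) (hn : n ≤ n') : H.Box k n' x η P :=
  ⟨h.1.mono le_rfl hn, h.2.mono fun _ hξ y hy hm =>
    hξ y hy (image_mono (ball_subset_ball (rad_anti hn)) hm)⟩

theorem SSub.box_of_BS (H : SSub 𝔉) (k n : ℕ) : ∃ (n' : ℕ) (δ : ℝ), 0 < δ ∧ ∀ x x₀,
    dist x x₀ < δ → H.BS k n x → ∃ P, H.Box k n' x₀ (S.ep x) P := by
  have hr := rad_pos n
  obtain ⟨m, hm⟩ := OpsE.prj_shift 𝔉 1 k n
  obtain ⟨a, ha, δ, hδ, h⟩ := S.near_ball (a' := min (1 / 4) (rad n / 2)) (by positivity)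
  obtain ⟨N, hN⟩ := exists_rad_le ha
  have h1 : min (1 / 4) (rad n / 2) ≤ rad n := (min_le_right _ _).trans (half_le_self hr.le)
  refine ⟨max m N, min δ 1, by positivity, fun x x₀ hd ⟨P, hP, hS⟩ => ⟨𝔉.conj x₀ x P, ?_, ?_⟩⟩
  · obtain ⟨h2, h3⟩ := Sys.zero_dom_image (h1.trans (rad_le_one n))
      (h x₀ x (dist_comm x x₀ ▸ hd.trans_le (min_le_left _ _)) ⟨0, mem_ball_self ha, S.c_zero' x₀⟩)
    have h4 := (mem_ball_zero_iff.1 h3).le
    have h5 := hm x₀ x (dist_comm x x₀ ▸ hd.le.trans (min_le_right _ _)) 0 h2 (by simp)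
      (h4.trans (min_le_left _ _)) n le_rfl (h4.trans (min_le_right _ _)) P hP
    simp only [zero_add] at h5
    exact h5.mono le_rfl (le_max_left _ _)
  · refine Eventually.mono hS fun ξ hξ y hy hm => ?_
    have h2 := image_mono (ball_subset_ball h1) (h x₀ x (dist_comm x x₀ ▸ hd.trans_le
      (min_le_left _ _)) (image_mono (ball_subset_ball (hN _ (le_max_right _ _))) hm))
    exact (H.at_conj (Sys.zero_dom_image (rad_le_one _) h2).1
      (Sys.zero_dom_image (rad_le_one _) hm).1).2 (hξ y hy h2)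

theorem SSub.Box.sExt {H : SSub 𝔉} {k n : ℕ} {x y : X} {η : B} {P : V → F →L[ℝ] F}
    (h : H.Box k n x η P) {z : V} (hz : z ∈ ball (0 : V) (rad n)) (hl : (S.c x z).2 = η)
    (hy : S.pt y = S.c x z) : H.SExt k y (𝔉.conj y x P) := by
  have hz1 := ball_subset_ball (rad_le_one n) hz
  have h0 := Sys.zero_dom' hz1 hy
  have h1 := Sys.τ_zero' hz1 hy
  obtain ⟨ρ, hρ, hb⟩ := Metric.mem_nhds_iff.1 (inter_mem (Sys.dom_nhds h0)
    ((Sys.continuousAt_τ h0).preimage_mem_nhds (isOpen_ball.mem_nhds (h1.symm ▸ hz))))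
  refine ⟨Idm.conj (by exact_mod_cast le_top) h0 (h1.symm ▸ h.1.idm hz), ρ, hρ,
    h.2.mono fun ξ hξ y' hy' ⟨q, hq, e⟩ => ?_⟩
  have h2 : S.pt y' ∈ S.c x '' ball 0 (rad n) := ⟨_, (hb hq).2, (Sys.c_τ (hb hq).1).trans e⟩
  exact (H.at_conj (Sys.zero_dom_image (rad_le_one _) h2).1
    (Sys.zero_dom' (hb hq).1.1 e.symm)).2
      (hξ y' (hy'.trans (Prod.ext rfl ((congrArg Prod.snd hy).trans hl))) h2)

theorem Data.box_id (P : Prob S Y) {F' C Z : SSub S.TV} (h : Data F' C Z) :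
    ∃ f, (∀ᵐ x ∂S.μ, Module.finrank ℝ (F'.H x) = f) ∧ ∀ᵐ η ∂S.ν, ∀ k ≥ 2, ∀ n x Q,
      F'.Box k n x η Q → ∀ z ∈ ball (0 : V) (rad n), (S.c x z).2 = η →
        Module.finrank ℝ (Q z).range = f ∧
        (∀ u u', Flat 1 (fun q => S.om (Q q u) (Q q u')) z) ∧ ∀ u w,
          cmp (S.prp Q) z (lieBracket ℝ (fun p => Q p u) (fun p => S.prp Q p w) z) = 0 := by
  obtain ⟨f, hf⟩ := F'.rank P
  have hom := at_om (H₁ := F') (H₂ := F') P (h.F_le.mono fun x hx v hv w hw => by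
    rw [S.om_apply, S.mem_Es.1 (hx hv), S.mem_Es.1 (hx hw), inner_zero_left, inner_zero_right,
      sub_zero])
  refine ⟨f, hf, (Sys.ae_ae_S ((hf.and (F'.at_val.and F'.at_mono)).and
    (hom.and ((at_prp P h.C_eq).and (at_br P h.brFC))))).mono fun η hη k hk n x Q hQ z hz hl => ?_⟩
  have h1 : ∀ q ∈ ball (0 : V) (rad n), Idm (1 : ℕ) Q q := fun q hq =>
    (hQ.1.idm hq).of_le (by exact_mod_cast (by omega : 1 ≤ k))
  have key : ∃ᶠ q in 𝓝 z, Module.finrank ℝ (Q q).range = f ∧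
      (∀ u u', Flat 1 (fun q => S.om (Q q u) (Q q u')) q) ∧ ∀ u w, Flat 0 (fun q =>
        cmp (S.prp Q) q (lieBracket ℝ (fun p => Q p u) (fun p => S.prp Q p w) q)) q := by
    refine ((Sys.freq_leaf (hη.and hQ.2) x (ball_subset_ball (rad_le_one n) hz)).and_eventually
      (isOpen_ball.mem_nhds hz)).mono fun q ⟨⟨a1, a2, a3, a4⟩, hq⟩ => ?_
    obtain ⟨y, hy⟩ := S.exists_pt_c x a1
    have e : S.pt y = ((S.c x q).1, η) := hy.trans (Prod.ext rfl (a2.trans hl))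
    obtain ⟨⟨b1, b2, b3⟩, b4, b5, b6⟩ := a3 y e
    have h0 := Sys.zero_dom' a1 hy
    have ht := Sys.τ_zero' a1 hy
    have hA := b3 k 1 x Q (by omega) (a4 y e ⟨q, hq, hy.symm⟩)
    have hI : Idm (1 : ℕ) Q (S.τ y x 0) := ht.symm ▸ h1 q hq
    rw [← ht]
    refine ⟨?_, b4 1 x Q Q h0 hI hI hA hA,
      b6 0 x Q _ _ h0 hI hI.prp hI.prp hA (b5 1 x Q h0 hI hA) (b5 1 x Q h0 hI hA)⟩
    rw [b2 1 x Q h0 hI hA, ← b1]
    exact (LinearEquiv.finrank_eq (Submodule.equivMapOfInjective _ (Function.LeftInverse.injective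
      (g := S.TV.A x y (S.τ y x 0)) fun v => DFunLike.congr_fun (S.TV.inv h0) v) _)).symm
  have c1 := (h1 z hz).self_of_nhds.1
  have c2 := (h1 z hz).prp (S := S) |>.self_of_nhds.1
  refine ⟨?_, fun u u' => flat_closed ?_ (key.mono fun q hq => hq.2.1 u u'),
    fun u w => (flat_closed (z := z) ?_ (key.mono fun q hq => hq.2.2 u w)).eq_zero⟩
  · obtain ⟨q, a, b⟩ := (key.and_eventually (h1 z hz).rank).exists
    exact b.symm.trans a.1
  · exact (S.om.contDiff.contDiffAt.comp z (c1.clm_apply contDiffAt_const)).clm_apply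
      (c1.clm_apply contDiffAt_const)
  · exact ((contDiffAt_const.sub c2).of_le (by simp)).clm_apply
      ((c1.clm_apply contDiffAt_const).lieBracket_vectorField (c2.clm_apply contDiffAt_const)
        (by simp))

theorem tan_move {p : A → B × B} {a v : A} {x y : X} {Q : A → V} (h : S.Rep p a x Q)
    (hy : S.pt y = p a) {P : V → V →L[ℝ] V}
    (ht : Flat 1 (fun z => cmp (S.TV.conj y x P) (S.τ x y (Q z))
      (fderiv ℝ (fun z => S.τ x y (Q z)) z v)) a) :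
    Flat 1 (fun z => cmp P (Q z) (fderiv ℝ Q z v)) a := by
  have hd := (Sys.dom_of_pt h.mem (hy.trans h.eq0)).1
  have hc := h.diff.continuousAt
  refine (ht.bilin_right (ContinuousLinearMap.id ℝ (V →L[ℝ] V))
    (g := fun z => S.TV.A y x (S.τ x y (Q z))) (ContinuousAt.comp (f := fun z => S.τ x y (Q z))
      (S.TV.continuousAt (Sys.τ_dom hd)) ((Sys.continuousAt_τ hd).comp hc))).congr ?_
  filter_upwards [h.eventually, hc.eventually (Sys.dom_nhds hd)] with z h1 h2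
  have e1 : fderiv ℝ (fun z => S.τ x y (Q z)) z v = S.TV.A x y (Q z) (fderiv ℝ Q z v) :=
    congrArg (· v) (fderiv_comp z (Sys.differentiableAt_τ h2) h1.diff)
  have e2 : ∀ u, S.TV.A y x (S.τ x y (Q z)) (S.TV.A x y (Q z) u) = u :=
    fun u => DFunLike.congr_fun (S.TV.inv h2) u
  simp only [e1, cmp, Bun.conj, Sys.τ_τ h2, ContinuousLinearMap.id_apply, map_sub, e2,
    ContinuousLinearMap.sub_apply, ContinuousLinearMap.mul_apply, ContinuousLinearMap.one_apply]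

end Vale.Agent.P207Z
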