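import Vale.Agent.P207Z.Real.FarD
import Vale.Agent.P207Z.An.Glue

/-!
# P207 FAR: continuation of the lifts of segments, and transversal projections
-/

set_option linter.all false

open Set Filter Topology Metric MeasureTheory
open scoped ContDiff NNReal

noncomputable section

namespace Vale.Agent.P207Z

variable {V G W : Type} [NormedAddCommGroup V] [NormedSpace ℝ V] [FiniteDimensional ℝ V]
  [NormedAddCommGroup G] [NormedSpace ℝ G] [FiniteDimensional ℝ G]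
  [NormedAddCommGroup W] [NormedSpace ℝ W] [FiniteDimensional ℝ W]

theorem cl_field (hd : Module.finrank ℝ W = Module.finrank ℝ G) {U : Set W} {A : W → W →L[ℝ] G}
    (hA : ∀ s ∈ U, ContinuousAt A s) (hinj : ∀ s ∈ U, ∀ w, A s w = 0 → w = 0) (e : G) :
    ∃ w : W → W, ∀ s ∈ U, A s (w s) = e ∧ ContinuousAt w s := by
  have := FiniteDimensional.complete ℝ W
  refine ⟨fun s => (A s).inverse e, fun s hs => ?_⟩
  have hI : (A s).IsInvertible := ⟨(LinearMap.linearEquivOfInjective (A s : W →ₗ[ℝ] G)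
    ((injective_iff_map_eq_zero _).2 (hinj s hs)) hd).toContinuousLinearEquiv, by ext; rfl⟩
  exact ⟨hI.self_apply_inverse e, ((hI.contDiffAt_map_inverse (n := 0)).continuousAt.comp
    (hA s hs)).clm_apply continuousAt_const⟩

theorem cl_cut {U : Set W} (hU : IsOpen U) {f : W → ℝ} (hf : ∀ s ∈ U, ContinuousAt f s) {r R : ℝ}
    (hr : 0 < r) (R0 : 0 < R) (hcl : IsClosed {s | s ∈ U ∧ f s ≤ 3 * r / 4}) {w : W → W}
    (w2 : ∀ s ∈ U, ContinuousAt w s) :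
    ∃ v : W → W, Continuous v ∧ (∀ s, ‖v s‖ ≤ R) ∧ ∀ s ∈ U, (∃ θ : ℝ, ‖θ‖ ≤ 1 ∧ v s = θ • w s) ∧
      (f s ≤ r / 2 → ‖w s‖ ≤ R → v s = w s) := by
  classical
  obtain ⟨θ, hθ⟩ : ∃ θ : W → ℝ, ∀ s,
      θ s = max 0 (min 1 (3 - 4 * f s / r)) * (R / max R ‖w s‖) := ⟨_, fun _ => rfl⟩
  have a1 : ∀ s, 0 < max R ‖w s‖ := fun s => lt_max_of_lt_left R0
  have a2 : ∀ s, max 0 (min 1 (3 - 4 * f s / r)) ≤ 1 := fun s =>
    max_le zero_le_one (min_le_left _ _)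
  have θ0 : ∀ s, 0 ≤ θ s := fun s => by
    rw [hθ]
    exact mul_nonneg (le_max_left _ _) (div_pos R0 (a1 s)).le
  have θ1 : ∀ s, θ s ≤ 1 := fun s => by
    rw [hθ]
    exact mul_le_one₀ (a2 s) (div_pos R0 (a1 s)).le ((div_le_one (a1 s)).2 (le_max_left _ _))
  obtain ⟨v, hv⟩ : ∃ v : W → W, ∀ s, v s = if s ∈ U then θ s • w s else 0 := ⟨_, fun _ => rfl⟩
  refine ⟨v, continuous_iff_continuousAt.2 fun s => ?_, fun s => ?_, fun s hs =>
    ⟨⟨θ s, (Real.norm_of_nonneg (θ0 s)).trans_le (θ1 s), by rw [hv, if_pos hs]⟩, fun h1 h2 => ?_⟩⟩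
  · by_cases hs : s ∈ U
    · refine ContinuousAt.congr (f := fun s => θ s • w s) (ContinuousAt.smul ?_ (w2 s hs)) ?_
      · rw [funext hθ]
        exact (continuousAt_const.max (continuousAt_const.min (continuousAt_const.sub
          ((continuousAt_const.mul (hf s hs)).div_const _)))).mul
          (continuousAt_const.div (continuousAt_const.max (w2 s hs).norm) (a1 s).ne')
      · filter_upwards [hU.mem_nhds hs] with s hs
        rw [hv, if_pos hs]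
    · refine ContinuousAt.congr (f := fun _ => 0) continuousAt_const ?_
      filter_upwards [hcl.isOpen_compl.mem_nhds fun h => hs h.1] with s hs
      rw [hv]
      split_ifs with h
      · have h1 : 3 * r / 4 < f s := not_le.1 fun h1 => hs ⟨h, h1⟩
        have h2 : 3 ≤ 4 * f s / r := by rw [le_div_iff₀ hr]; linarith
        rw [hθ, max_eq_left (min_le_of_right_le (by linarith)), zero_mul, zero_smul]
      · rfl
  · rw [hv]
    split_ifs
    · rw [norm_smul, Real.norm_of_nonneg (θ0 s), hθ, mul_assoc]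
      refine (mul_le_of_le_one_left (mul_nonneg (div_pos R0 (a1 s)).le (norm_nonneg _))
        (a2 s)).trans ?_
      rw [div_mul_eq_mul_div, div_le_iff₀ (a1 s)]
      exact mul_le_mul_of_nonneg_left (le_max_right _ _) R0.le
    · simpa using R0.le
  · have g4 : 4 * f s / r ≤ 2 := by rw [div_le_iff₀ hr]; linarith
    rw [hv, if_pos hs, hθ, max_eq_left h2, div_self R0.ne', min_eq_left (by linarith),
      max_eq_right zero_le_one, one_mul, one_smul]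

theorem cl_gron {A : W → W →L[ℝ] V} {σ v : ℝ → W} {t C δ : ℝ} (ht : 0 ≤ t) (hC : 0 ≤ C)
    (hA : ∀ u ∈ Icc 0 t, DifferentiableAt ℝ A (σ u))
    (hσ : ∀ u ∈ Icc 0 t, HasDerivWithinAt σ (v u) (Icc 0 t) u) (w : W) (hw : ‖A (σ t) w‖ ≤ δ)
    (hacc : ∀ u ∈ Icc 0 t, ‖fderiv ℝ A (σ u) (v u) w‖ ≤ C * ‖A (σ u) w‖) :
    ‖A (σ 0) w‖ ≤ δ * Real.exp (C * t) := by
  have n : ∀ x ∈ Icc 0 t, t - x ∈ Icc 0 t := fun x hx =>
    ⟨sub_nonneg.2 hx.2, sub_le_self _ hx.1⟩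
  have g1 : ∀ x ∈ Icc 0 t, HasDerivWithinAt (fun x => A (σ (t - x)) w)
      (-fderiv ℝ A (σ (t - x)) (v (t - x)) w) (Icc 0 t) x := fun x hx => by
    have h1 := (hσ _ (n x hx)).scomp x ((hasDerivAt_id x).const_sub t).hasDerivWithinAt n
    have h2 := (ContinuousLinearMap.apply ℝ V w).hasFDerivAt.comp_hasDerivWithinAt x
      ((hA _ (n x hx)).hasFDerivAt.comp_hasDerivWithinAt x h1)
    rw [neg_one_smul, map_neg, map_neg] at h2
    exact h2
  have g2 := norm_le_gronwallBound_of_norm_deriv_right_le (K := C) (ε := 0) (δ := δ)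
    (fun x hx => (g1 x hx).continuousWithinAt)
    (fun x hx => (g1 x (Ico_subset_Icc_self hx)).mono_of_mem_nhdsWithin (Icc_mem_nhdsGE_of_mem hx))
    (by rwa [sub_zero])
    (fun x hx => by
      rw [norm_neg, add_zero]
      exact hacc _ (n x (Ico_subset_Icc_self hx))) t ⟨ht, le_rfl⟩
  rwa [sub_self, gronwallBound_ε0, sub_zero] at g2

theorem cont_lift (hd : Module.finrank ℝ W = Module.finrank ℝ G) {U : Set W} (hU : IsOpen U)
    {Q : W → V} (hQ : ∀ s ∈ U, ContDiffAt ℝ 2 Q s) {r N C u₀ : ℝ} (hr : 0 < r) (hN : 0 ≤ N)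
    (hC : 0 ≤ C) (hcl : IsClosed {s | s ∈ U ∧ ‖Q s‖ ≤ 3 * r / 4}) (h0 : (0 : W) ∈ U)
    (hQ0 : ‖Q 0‖ ≤ r / 4) (π : V →L[ℝ] G) (e : G)
    (hinj : ∀ s ∈ U, ∀ w, fderiv ℝ Q s w = 0 → w = 0)
    (htr : ∀ s ∈ U, ∀ w, ‖fderiv ℝ Q s w‖ ≤ N * ‖π (fderiv ℝ Q s w)‖)
    (hacc : ∀ s ∈ U, ∀ w w', ‖fderiv ℝ (fderiv ℝ Q) s w w'‖ ≤
      C * ‖fderiv ℝ Q s w‖ * ‖fderiv ℝ Q s w'‖) (hu : N * ‖e‖ * u₀ ≤ r / 4) :
    ∃ σ : ℝ → W, σ 0 = 0 ∧ ∀ u ∈ Icc 0 u₀, σ u ∈ U ∧ ‖Q (σ u)‖ ≤ r / 2 ∧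
      ∃ w, π (fderiv ℝ Q (σ u) w) = e ∧ HasDerivWithinAt σ w (Icc 0 u₀) u := by
  have hD : ∀ s ∈ U, ContDiffAt ℝ 1 (fderiv ℝ Q) s := fun s hs =>
    (hQ s hs).fderiv_right (by norm_num)
  obtain ⟨w, hw⟩ := cl_field hd (A := fun s => π ∘L fderiv ℝ Q s)
    (fun s hs => continuousAt_const.clm_comp (hD s hs).continuousAt)
    (fun s hs w hw => hinj s hs w (norm_le_zero_iff.1 (by
      have h2 : π (fderiv ℝ Q s w) = 0 := hw
      simpa only [h2, norm_zero, mul_zero] using htr s hs w))) e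
  have w1 : ∀ s ∈ U, π (fderiv ℝ Q s (w s)) = e := fun s hs => (hw s hs).1
  have w3 : ∀ s ∈ U, ‖fderiv ℝ Q s (w s)‖ ≤ N * ‖e‖ := fun s hs => by
    simpa only [w1 s hs] using htr s hs (w s)
  obtain ⟨c, -, hc⟩ := LinearMap.exists_antilipschitzWith (fderiv ℝ Q 0 : W →ₗ[ℝ] V)
    (LinearMap.ker_eq_bot'.2 (hinj 0 h0))
  obtain ⟨v, v1, v2, hv⟩ := cl_cut hU (f := fun s => ‖Q s‖)
    (R := c * (N * ‖e‖ * Real.exp (C * (N * ‖e‖) * u₀)) + 1)
    (fun s hs => (hQ s hs).continuousAt.norm) hr (by positivity) hcl fun s hs => (hw s hs).2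
  obtain ⟨σ, s0, hσ⟩ := An.peano (a := fun _ s => v s) (T := u₀)
    (v1.comp continuous_snd).continuousOn (fun _ _ s => v2 s) 0
  have v3 : ∀ s ∈ U, ‖fderiv ℝ Q s (v s)‖ ≤ N * ‖e‖ := fun s hs => by
    obtain ⟨θ, h1, h2⟩ := (hv s hs).1
    rw [h2, map_smul, norm_smul]
    exact (mul_le_of_le_one_left (norm_nonneg _) h1).trans (w3 s hs)
  have hb : ∀ t ∈ Icc 0 u₀, (∀ u ∈ Icc 0 t, σ u ∈ U) → ‖Q (σ t)‖ ≤ r / 2 := fun t ht h => by
    have h1 := norm_image_sub_le_of_norm_deriv_le_segment' (f := fun u => Q (σ u))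
      (f' := fun u => fderiv ℝ Q (σ u) (v (σ u))) (a := 0) (b := t) (C := N * ‖e‖)
      (fun u hu => ((hQ _ (h u hu)).differentiableAt (by norm_num)).hasFDerivAt.comp_hasDerivWithinAt
        u ((hσ u ⟨hu.1, hu.2.trans ht.2⟩).mono (Icc_subset_Icc_right ht.2)))
      (fun u hu => v3 _ (h u (Ico_subset_Icc_self hu))) t ⟨ht.1, le_rfl⟩
    have h2 := mul_le_mul_of_nonneg_left ht.2 (mul_nonneg hN (norm_nonneg e))
    have h3 := norm_sub_norm_le (Q (σ t)) (Q (σ 0))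
    rw [s0] at h1 h3
    linarith
  have hc0 : ContinuousOn σ (Icc 0 u₀) := fun u hu => (hσ u hu).continuousWithinAt
  have hin : Icc 0 u₀ ⊆ σ ⁻¹' {s | s ∈ U ∧ ‖Q s‖ ≤ 3 * r / 4} := by
    refine IsClosed.Icc_subset_of_forall_mem_nhdsGT_of_Icc_subset
      (inter_comm _ _ ▸ hc0.preimage_isClosed_of_isClosed isClosed_Icc hcl)
      (by rw [mem_preimage, s0]; exact ⟨h0, by linarith⟩) fun t ht h => ?_
    have h1 := hb t (Ico_subset_Icc_self ht) fun u hu => (h hu).1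
    have h2 := (h ⟨ht.1, le_rfl⟩).1
    refine nhdsWithin_le_of_mem (Icc_mem_nhdsGT_of_mem ht)
      ((hc0 t (Ico_subset_Icc_self ht)).preimage_mem_nhdsWithin (inter_mem (hU.mem_nhds h2)
        ((hQ _ h2).continuousAt.norm.eventually_le_const (by linarith))))
  refine ⟨σ, s0, fun t ht => ?_⟩
  have m : ∀ u ∈ Icc 0 t, u ∈ Icc 0 u₀ := fun u hu => ⟨hu.1, hu.2.trans ht.2⟩
  have b1 := hb t ht fun u hu => (hin (m u hu)).1
  refine ⟨(hin ht).1, b1, w (σ t), w1 _ (hin ht).1, ?_⟩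
  have g2 := cl_gron (A := fderiv ℝ Q) (C := C * (N * ‖e‖)) ht.1 (by positivity)
    (fun u hu => (hD _ (hin (m u hu)).1).differentiableAt one_ne_zero)
    (fun u hu => (hσ u (m u hu)).mono (Icc_subset_Icc_right ht.2)) _ (w3 _ (hin ht).1)
    fun u hu => (hacc _ (hin (m u hu)).1 _ _).trans (mul_le_mul_of_nonneg_right
      (mul_le_mul_of_nonneg_left (v3 _ (hin (m u hu)).1) hC) (norm_nonneg _))
  rw [s0] at g2
  rw [← (hv _ (hin ht).1).2 b1 ?_]
  · exact hσ t ht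
  have h2 : N * ‖e‖ * Real.exp (C * (N * ‖e‖) * t) ≤
      N * ‖e‖ * Real.exp (C * (N * ‖e‖) * u₀) := by
    gcongr
    exact ht.2
  exact ((ZeroHomClass.bound_of_antilipschitz _ hc (w (σ t))).trans (mul_le_mul_of_nonneg_left
    (g2.trans h2) c.coe_nonneg)).trans (le_add_of_nonneg_right zero_le_one)

theorem exists_tr0 (V : Type) [NormedAddCommGroup V] [NormedSpace ℝ V] [FiniteDimensional ℝ V]
    (G : Type) [NormedAddCommGroup G] [NormedSpace ℝ G] [FiniteDimensional ℝ G] :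
    ∃ c : ℝ, 0 < c ∧ ∀ H : Submodule ℝ V, Module.finrank ℝ H = Module.finrank ℝ G →
      ∃ π : V →L[ℝ] G, ‖π‖ ≤ c ∧ ∀ v ∈ H, ‖v‖ ≤ c * ‖π v‖ := by
  let e := toEuclidean (E := V)
  let f := toEuclidean (E := G)
  refine ⟨‖f.symm.toContinuousLinearMap‖ * ‖e.toContinuousLinearMap‖ +
    ‖e.symm.toContinuousLinearMap‖ * ‖f.toContinuousLinearMap‖ + 1, by positivity, fun H hH => ?_⟩
  let K := H.map e.toLinearEquiv.toLinearMap
  have hK : Module.finrank ℝ K = Module.finrank ℝ G := (LinearEquiv.finrank_map_eq _ _).trans hH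
  let j := ((stdOrthonormalBasis ℝ K).reindex (finCongr hK)).repr
  let p := j.toLinearIsometry.toContinuousLinearMap ∘L K.orthogonalProjectionOnto
  have hp : ∀ v, ‖p v‖ ≤ ‖v‖ := fun v =>
    (j.norm_map _).trans_le (K.norm_orthogonalProjectionOnto_apply_le v)
  refine ⟨f.symm.toContinuousLinearMap ∘L p ∘L e.toContinuousLinearMap,
    ContinuousLinearMap.opNorm_le_bound _ (by positivity) fun v => ?_, fun v hv => ?_⟩
  · refine (f.symm.toContinuousLinearMap.le_opNorm _).trans ((mul_le_mul_of_nonneg_left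
      ((hp _).trans (e.toContinuousLinearMap.le_opNorm v)) (norm_nonneg _)).trans ?_)
    rw [← mul_assoc]
    gcongr
    rw [add_assoc]
    exact le_add_of_nonneg_right (by positivity)
  · have h1 : ‖p (e v)‖ = ‖e v‖ :=
      (j.norm_map _).trans (K.norm_orthogonalProjectionOnto_apply ⟨v, hv, rfl⟩)
    have h2 := e.symm.toContinuousLinearMap.le_opNorm (e v)
    have h3 := f.toContinuousLinearMap.le_opNorm (f.symm (p (e v)))
    simp only [ContinuousLinearEquiv.coe_coe, e.symm_apply_apply, f.apply_symm_apply] at h2 h3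
    rw [← h1] at h2
    refine (h2.trans (mul_le_mul_of_nonneg_left h3 (norm_nonneg _))).trans ?_
    rw [← mul_assoc]
    gcongr
    · rw [add_right_comm]
      exact le_add_of_nonneg_left (by positivity)
    · rfl

theorem exists_tr (V : Type) [NormedAddCommGroup V] [NormedSpace ℝ V] [FiniteDimensional ℝ V]
    (G : Type) [NormedAddCommGroup G] [NormedSpace ℝ G] [FiniteDimensional ℝ G] :
    ∃ c : ℝ, 0 < c ∧ ∀ n : ℕ, ∃ n' ≥ n, ∀ P : V → V →L[ℝ] V, Prj 1 n P →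
      Module.finrank ℝ (P 0).range = Module.finrank ℝ G → ∀ D : Set (V →L[ℝ] G), Dense D →
        ∃ π ∈ D, ‖π‖ ≤ c ∧ ∀ e, Tr n' π e P := by
  obtain ⟨c, hc, h⟩ := exists_tr0 V G
  refine ⟨c + (4 * c)⁻¹, by positivity, fun n => ?_⟩
  obtain ⟨m, hm⟩ := exists_rad_le (ε := (4 * (1 + c * c))⁻¹ * rad n)
    (mul_pos (by positivity) (rad_pos n))
  obtain ⟨k, hk⟩ := exists_nat_ge (2 * c)
  refine ⟨n + m + k, by omega, fun P hP hr D hD => ?_⟩
  obtain ⟨π₀, p1, p2⟩ := h _ hr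
  obtain ⟨π, hπ, p3⟩ := hD.exists_dist_lt π₀ (ε := (4 * c)⁻¹) (by positivity)
  rw [dist_eq_norm] at p3
  refine ⟨π, hπ, by linarith [norm_sub_norm_le π π₀, norm_sub_rev π π₀], fun e q hq => ?_⟩
  have hq' : q ∈ ball (0 : V) (rad n) := ball_subset_ball (rad_anti (by omega)) hq
  have h1 := (CalcAux.lip_lt (k := 0) hP.ckb (by omega) (hm _ (by omega)) hq).le
  have h2 : ∀ v, P q v = v → ‖v‖ ≤ 2 * c * ‖π v‖ := fun v hv => by
    obtain ⟨ε, hε⟩ : ∃ ε, ε = (4 * (1 + c * c))⁻¹ := ⟨_, rfl⟩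
    rw [← hε] at h1
    have a0 : ε * (1 + c * c) = 1 / 4 := by rw [hε]; field_simp
    have a1 : ‖v - P 0 v‖ ≤ ε * ‖v‖ := by
      have := (P q - P 0).le_of_opNorm_le h1 v
      rwa [ContinuousLinearMap.sub_apply, hv] at this
    have a2 := p2 (P 0 v) ⟨v, rfl⟩
    have a3 : ‖π₀ (P 0 v)‖ ≤ ‖π v‖ + (4 * c)⁻¹ * ‖v‖ + c * (ε * ‖v‖) := by
      have : π₀ (P 0 v) = π v + (π₀ - π) v - π₀ (v - P 0 v) := by simp
      rw [this]
      exact (norm_sub_le _ _).trans (add_le_add ((norm_add_le _ _).trans (add_le_add_right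
        ((π₀ - π).le_of_opNorm_le p3.le v) _)) ((π₀.le_of_opNorm_le p1 _).trans
          (mul_le_mul_of_nonneg_left a1 hc.le)))
    have a4 := mul_le_mul_of_nonneg_left a3 hc.le
    have a5 : c * ((4 * c)⁻¹ * ‖v‖) = ‖v‖ / 4 := by field_simp
    have a6 : (ε * (1 + c * c)) * ‖v‖ = 1 / 4 * ‖v‖ := by rw [a0]
    have a7 := norm_sub_norm_le v (P 0 v)
    nlinarith
  refine ⟨fun v hv => (h2 v hv).trans (mul_le_mul_of_nonneg_right ?_ (norm_nonneg _)), ?_⟩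
  · push_cast
    linarith [n.cast_nonneg (α := ℝ), m.cast_nonneg (α := ℝ)]
  have h3 : ∀ v : (P q).range, P q v = v := by
    rintro ⟨_, w, rfl⟩
    exact congrArg (· w) (hP.idem q hq')
  obtain ⟨v, hv⟩ := (LinearMap.injective_iff_surjective_of_finrank_eq_finrank
    (f := (π : V →ₗ[ℝ] G) ∘ₗ (P q).range.subtype) ((hP.rank hq').trans hr)).1
    ((injective_iff_map_eq_zero _).2 fun v hv => Subtype.ext (norm_le_zero_iff.1 (by
      have h4 : π v = 0 := hv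
      simpa [h4] using h2 _ (h3 v)))) e
  exact ⟨v, h3 v, hv⟩

end Vale.Agent.P207Z
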