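import Vale.Agent.P207Z.Real.FarT
import Vale.Agent.P207Z.Real.FarA
import Vale.Agent.P207Z.Real.FarB
import Vale.Agent.P207Z.Real.FarC

/-!
# P207: a complete affine leaf contains typical points which are far away (block FAR)
-/

set_option linter.all false

open Set Filter Topology Metric MeasureTheory
open scoped ContDiff NNReal

noncomputable section

namespace Vale.Agent.P207Z

variable {Γ X B E V Y : Type} [Group Γ] [Countable Γ] [MetricSpace X] [ProperSpace X]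
  [MulAction Γ X] [IsIsometricSMul Γ X] [MeasurableSpace X] [BorelSpace X]
  [TopologicalSpace B] [CompactSpace B] [T2Space B] [SecondCountableTopology B] [MulAction Γ B]
  [ContinuousConstSMul Γ B] [MeasurableSpace B] [BorelSpace B]
  [NormedAddCommGroup E] [InnerProductSpace ℝ E] [FiniteDimensional ℝ E]
  [MeasurableSpace E] [BorelSpace E]
  [NormedAddCommGroup V] [NormedSpace ℝ V] [FiniteDimensional ℝ V]
  [MeasurableSpace Y] [MulAction Γ Y]
  {S : Sys Γ X B E V}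

section

variable {A W : Type} [NormedAddCommGroup A] [NormedSpace ℝ A] [NormedAddCommGroup W]
  [NormedSpace ℝ W]

theorem Sys.Rep.ci {p : A → B × B} {a : A} {x x₀ : X} {Q : A → V} (h : S.Rep p a x Q)
    (hm : p a ∈ S.c x₀ '' ball 0 1) : S.Rep p a x₀ fun z => S.ci x₀ (p z) := by
  have h1 := h.tr (y := x₀) ⟨h.mem, h.eq0 ▸ hm⟩
  have e : (fun z => S.ci x₀ (p z)) =ᶠ[𝓝 a] fun z => S.τ x x₀ (Q z) :=
    h.eq.mono fun z hz => congrArg (S.ci x₀) hz
  refine ⟨h1.sm.congr_of_eventuallyEq e, mem_of_eq_of_mem e.self_of_nhds h1.mem, ?_⟩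
  filter_upwards [h1.eq, e] with z a b using a.trans (congrArg _ b.symm)

theorem slice_two {Q : A × W → V} {s : W} (h : ContDiffAt ℝ 2 Q (0, s)) (w w' : W) :
    fderiv ℝ (fun s => Q (0, s)) s w = fderiv ℝ Q (0, s) (0, w) ∧
      fderiv ℝ (fderiv ℝ fun s => Q (0, s)) s w w' =
        fderiv ℝ (fderiv ℝ Q) (0, s) (0, w) (0, w') := by
  have ι := fun s => (ContinuousLinearMap.inr ℝ A W).hasFDerivAt (x := s)
  have e : fderiv ℝ (fun s => Q (0, s)) =ᶠ[𝓝 s]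
      fun s => fderiv ℝ Q (0, s) ∘L ContinuousLinearMap.inr ℝ A W := by
    filter_upwards [(ι s).continuousAt (h.eventually (by simp))] with s' h'
    exact ((ContDiffAt.differentiableAt (show ContDiffAt ℝ 2 Q (0, s') from h')
      (by simp)).hasFDerivAt.comp s' (ι s')).fderiv
  refine ⟨by rw [e.self_of_nhds]; rfl, ?_⟩
  have h2 : HasFDerivAt (fderiv ℝ Q) (fderiv ℝ (fderiv ℝ Q) (0, s)) (0, s) :=
    ((h.fderiv_right (m := 1) (by norm_num)).differentiableAt (by simp)).hasFDerivAt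
  have h3 := (HasFDerivAt.clm_comp (HasFDerivAt.comp (f := fun s => ((0 : A), s)) s h2 (ι s))
    (hasFDerivAt_const (ContinuousLinearMap.inr ℝ A W) s)).fderiv
  simp only [Function.comp_def] at h3
  rw [e.fderiv_eq, h3]
  simp

end

theorem far0 (P : Prob S Y) (hL : Leb S) {F C Z : SSub S.TV} (h : Data F C Z) {T : Set B}
    (hT : ∀ᵐ ξ ∂S.ν, ξ ∈ T) : ∀ᵐ x ∂S.μ, ∀ (A W : Type) [NormedAddCommGroup A] [NormedSpace ℝ A]
      [FiniteDimensional ℝ A] [NormedAddCommGroup W] [NormedSpace ℝ W] [FiniteDimensional ℝ W]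
      (p : A × W → B × B) (M : A → W →L[ℝ] A →L[ℝ] ℝ),
      Module.finrank ℝ W = Module.finrank ℝ (F.H x) → p (0, 0) = S.pt x →
      (∀ s, (p (0, s)).2 = S.ep x) →
      (∀ s, ∃ x' Q, S.Rep p (0, s) x' Q ∧ ∀ᶠ z in 𝓝 ((0 : A), s), ∀ e k,
        S.om (fderiv ℝ Q z (0, e)) (fderiv ℝ Q z (k, 0)) = M z.1 e k) →
      (∀ e, M 0 e = 0 → e = 0) →
      (∀ s x' Q Pr, S.pt x' = p (0, s) → S.Rep p (0, s) x' Q → F.SExt 2 x' Pr →
        ∀ e, Flat 1 (fun z => cmp Pr (Q z) (fderiv ℝ Q z (0, e))) (0, s)) →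
      ∀ N ∈ 𝓝 (S.ep x), ∃ s, (p (0, s)).1 ∈ N ∩ T := by
  obtain ⟨f, hf, hb⟩ := h.box_id P
  have f0 : 0 < f := by
    obtain ⟨x, a, b⟩ := Sys.ae_exists (hf.and h.F_ne)
    exact Nat.pos_of_ne_zero fun e => b (Submodule.finrank_eq_zero.1 (a.trans e))
  haveI : Nonempty (Fin f) := ⟨⟨0, f0⟩⟩
  set e₀ : Fin f → ℝ := fun _ => 1 with he₀
  have e1 : ‖e₀‖ = 1 := by rw [he₀, pi_norm_const, norm_one]
  obtain ⟨k₀, typ⟩ := F.typ (G := Fin f → ℝ) P hL hT
  obtain ⟨DX, cX, dX⟩ := TopologicalSpace.exists_countable_dense X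
  obtain ⟨DP, cP, dP⟩ := TopologicalSpace.exists_countable_dense (V →L[ℝ] Fin f → ℝ)
  have hu : ∀ n : ℕ, n * ‖e₀‖ * (rad n / (4 * (n + 1))) ≤ rad n / 4 := fun n => by
    have := rad_pos n
    rw [e1, mul_one, ← mul_div_assoc, div_le_div_iff₀ (by positivity) (by norm_num)]
    nlinarith
  set k := max k₀ 2 with hk
  have k2 : 2 ≤ k := le_max_right _ _
  obtain ⟨c, c0, hc⟩ := exists_tr V (Fin f → ℝ)
  filter_upwards [ae_all_iff.2 fun n => (ae_ball_iff cX).2 fun x₀ _ => (ae_ball_iff cP).2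
    fun π _ => typ k (le_max_left _ _) n x₀ π e₀ _ (hu n), hf, S.ae_of_ep hb,
    S.ae_of_ep F.sExt_mono, P.window (F.tight_BS k) (F.port_BS k)]
    with x ty rk bi sm wi A W _ _ _ _ _ _ p M hd p0 pl pr hM tn N hN
  obtain ⟨N', s', o', m'⟩ := mem_nhds_iff.1 hN
  obtain ⟨n, hn⟩ := wi 1 one_pos
  obtain ⟨n₁, δ₁, δ1, h1⟩ := F.box_of_BS k n
  obtain ⟨n₂, n12, h2⟩ := hc n₁
  have r0 := rad_pos n₂
  have r1 := rad_le_one n₂
  set u₀ : ℝ := rad n₂ / (4 * (n₂ + 1)) with hu₀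
  have u0 : 0 < u₀ := by positivity
  set a' := min (rad n₂ / 4) (u₀ / (4 * c)) with ha'
  obtain ⟨a, a0, δ₂, δ2, h3⟩ := S.near_ball (a' := a') (by positivity)
  obtain ⟨T₀, h4⟩ := S.engS x o'.isClosed_compl.isCompact (not_not.2 m') a0
  obtain ⟨t, t1, ⟨j, j1, -, j2⟩, -⟩ := ((eventually_ge_atTop T₀).and hn).exists
  obtain ⟨x₀, d0, m0⟩ := dX.exists_mem_open isOpen_ball
    ⟨S.φ j x, mem_ball_self (lt_min δ1 δ2)⟩
  rw [mem_ball'] at m0
  obtain ⟨Q, b1⟩ := h1 _ x₀ (m0.trans_le (min_le_left _ _)) j2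
  rw [S.ep_φ] at b1
  have b2 := b1.mono n12
  have h5 := h3 _ x₀ (m0.trans_le (min_le_right _ _))
  obtain ⟨z₀, z1, z2⟩ := h5 ⟨0, mem_ball_self a0, (S.c_zero' _).trans (S.pt_φ j x)⟩
  rw [mem_ball_zero_iff] at z1
  have z3 : ‖z₀‖ ≤ rad n₂ / 4 := z1.le.trans (min_le_left _ _)
  have z4 : z₀ ∈ ball (0 : V) (rad n₂) := mem_ball_zero_iff.2 (by linarith)
  have sub : ball (0 : V) (rad n₂) ⊆ ball 0 1 := ball_subset_ball r1
  obtain ⟨π, π1, π2, π3⟩ := h2 Q (b1.1.mono (by omega) le_rfl) (by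
    rw [← b2.1.rank z4, (bi k k2 n₂ x₀ Q b2 z₀ z4 (by rw [z2]; rfl)).1, Module.finrank_fin_fun])
    DP dP
  have pc : Continuous fun s : W => p (0, s) := continuous_iff_continuousAt.2 fun s => by
    obtain ⟨x', Q', a, -⟩ := pr s
    exact ContinuousAt.comp (f := fun s => ((0 : A), s)) a.cont (by fun_prop)
  set U : Set W := (fun s => p (0, s)) ⁻¹' (S.c x₀ '' ball 0 (rad n₂)) with hU
  set R : A × W → V := fun z => S.ci x₀ (p z) with hR
  have key : ∀ s ∈ U, S.Rep p (0, s) x₀ R ∧ R (0, s) ∈ ball (0 : V) (rad n₂) ∧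
      (∀ e, fderiv ℝ R (0, s) (0, e) = 0 → e = 0) ∧
      (∀ e, Q (R (0, s)) (fderiv ℝ R (0, s) (0, e)) = fderiv ℝ R (0, s) (0, e)) ∧
      ∀ e e', ‖fderiv ℝ (fderiv ℝ R) (0, s) (0, e) (0, e')‖ ≤ ‖S.omInv‖ * ‖S.om‖ * n₂ *
        ‖fderiv ℝ R (0, s) (0, e)‖ * ‖fderiv ℝ R (0, s) (0, e')‖ := by
    intro s hs
    obtain ⟨x', Q', a, b⟩ := pr s
    have q1 : S.Rep p (0, s) x₀ R := a.ci (image_mono sub hs)
    have q2 : R (0, s) ∈ ball (0 : V) (rad n₂) := by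
      obtain ⟨z, hz, e⟩ := hs
      simp only [hR, ← e]
      rwa [S.ci_c x₀ (sub hz)]
    have q3 : (S.c x₀ (R (0, s))).2 = S.ep x := by rw [← q1.eq0, pl]
    obtain ⟨q4, q5, q6⟩ := bi k k2 n₂ x₀ Q b2 _ q2 q3
    obtain ⟨y, hy⟩ := S.exists_pt_c x₀ (sub q2)
    have hy' := hy.trans q1.eq0.symm
    obtain ⟨q7, q8, q9⟩ := aff_pt (S := S) (M := M) ((b2.1.idm q2).of_le (by exact_mod_cast by omega))
      q1.sm (hd.trans (rk.trans q4.symm)) q5 q6 (fun e => tan_move q1 hy' (tn s y _ _ hy'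
        (q1.centre hy').1 (sm y ((congrArg Prod.snd hy).trans q3) k 2 _ k2 (b2.sExt q2 q3 hy)) e))
      (by
        filter_upwards [b, a.eventually, q1.eventually] with z c1 c2 c3 e k'
        rw [c2.om_eq c3, c1]) hM
    refine ⟨q1, q2, q7, q8, fun e e' => (q9 e e').trans ?_⟩
    gcongr
    exact norm_iteratedFDeriv_one (𝕜 := ℝ) Q ▸ b2.1.ckb.bd 1 (by omega) _ q2
  have R0 : R (0, 0) = z₀ := by simp only [hR]; rw [p0, ← z2, S.ci_c x₀ (sub z4)]
  have sm2 : ∀ s ∈ U, ContDiffAt ℝ 2 (fun s => R (0, s)) s := fun s hs =>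
    ContDiffAt.comp (f := fun s => ((0 : A), s)) s (key s hs).1.sm (by fun_prop)
  obtain ⟨σ, σ0, hσ⟩ := cont_lift (Q := fun s => R (0, s)) (U := U) (N := n₂) (u₀ := u₀)
    (C := ‖S.omInv‖ * ‖S.om‖ * n₂) (hd.trans (rk.trans (Module.finrank_fin_fun ℝ).symm))
    ((S.isOpen_image x₀ isOpen_ball sub).preimage pc) sm2 r0 (Nat.cast_nonneg _) (by positivity)
    (by
      have s1 : closedBall (0 : V) (3 * rad n₂ / 4) ⊆ ball 0 (rad n₂) :=
        closedBall_subset_ball (by linarith)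
      convert (((isCompact_closedBall (0 : V) (3 * rad n₂ / 4)).image_of_continuousOn
        ((S.continuousOn_c x₀).mono (s1.trans sub))).isClosed.preimage pc) using 1
      ext s
      refine ⟨fun a => ⟨_, mem_closedBall_zero_iff.2 a.2, (key s a.1).1.eq0.symm⟩, ?_⟩
      rintro ⟨z, hz, e⟩
      refine ⟨⟨z, s1 hz, e⟩, ?_⟩
      simp only [hR, ← e]
      rw [S.ci_c x₀ (sub (s1 hz))]
      exact mem_closedBall_zero_iff.1 hz)
    ⟨z₀, z4, z2.trans p0.symm⟩ (R0 ▸ z3) π e₀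
    (fun s hs w => by rw [(slice_two (key s hs).1.sm w w).1]; exact (key s hs).2.2.1 w)
    (fun s hs w => by
      rw [(slice_two (key s hs).1.sm w w).1]
      exact (π3 e₀ _ (key s hs).2.1).1 _ ((key s hs).2.2.2.1 w))
    (fun s hs w w' => by
      rw [(slice_two (key s hs).1.sm w w').1, (slice_two (key s hs).1.sm w w').2,
        (slice_two (key s hs).1.sm w' w').1]
      exact (key s hs).2.2.2.2 w w') (hu n₂)
  have cr : Crv n₂ π e₀ Q u₀ fun u => R (0, σ u) := ⟨fun u hu' => (hσ u hu').2.1, fun u hu' => by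
    obtain ⟨a, -, w, b, d⟩ := hσ u hu'
    refine ⟨_, ?_, b, ((sm2 _ a).differentiableAt (by simp)).hasFDerivAt.comp_hasDerivWithinAt u d⟩
    rw [(slice_two (key _ a).1.sm w w).1]
    exact (key _ a).2.2.2.1 w⟩
  have ce : ∀ u ∈ Icc 0 u₀, S.c x₀ (R (0, σ u)) = p (0, σ u) := fun u hu' =>
    (key _ (hσ u hu').1).1.eq0.symm
  have h6 := ty n₂ x₀ d0 π π1 Q _ b2 (π3 e₀) cr (fun u hu' => by rw [ce u hu', pl])
    (by rw [σ0, R0]; exact z3) (by rw [σ0, R0, z2])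
  obtain ⟨u, g1, g2⟩ := (Measure.dense_of_ae h6).exists_mem_open isOpen_Ioo
    (nonempty_Ioo.2 (half_lt_self u0))
  have g3 : u ∈ Icc 0 u₀ := ⟨by linarith [g2.1], g2.2.le⟩
  refine ⟨σ u, s' (not_not.1 fun g4 => ?_), ce u g3 ▸ g1 g3⟩
  obtain ⟨w, w1, w2⟩ := h4 j (t1.trans j1) _ g4
  obtain ⟨z, y1, y2⟩ := h5 ⟨_, S.iS_mem.2 (mem_ball_zero_iff.2 w1), w2⟩
  rw [mem_ball_zero_iff] at y1
  have y3 : z = R (0, σ u) := S.c_inj x₀ (mem_ball_zero_iff.2 (by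
    linarith [min_le_left (rad n₂ / 4) (u₀ / (4 * c))])) (sub (key _ (hσ u g3).1).2.1)
    (by rw [y2, ce u g3, ← pl (σ u)])
  choose! v hv using cr.der
  have g5 := norm_image_sub_le_of_norm_deriv_le_segment' (C := 0)
    (f := fun u => π (R (0, σ u)) - u • e₀) (f' := fun _ => 0) (fun u hu' => by
      simpa [(hv u hu').2.1, Function.comp_def] using
        (π.hasFDerivAt.comp_hasDerivWithinAt u (hv u hu').2.2).fun_sub
        ((hasDerivAt_id u).smul_const e₀).hasDerivWithinAt) (fun _ _ => norm_zero.le) u g3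
  rw [zero_mul, norm_le_zero_iff, σ0, R0, ← y3, zero_smul, sub_zero, sub_right_comm, ← map_sub,
    sub_eq_zero] at g5
  have g6 := π.le_of_opNorm_le π2 (z - z₀)
  rw [g5, norm_smul, e1, mul_one, Real.norm_of_nonneg g3.1] at g6
  have g7 : ‖z - z₀‖ ≤ 2 * (u₀ / (4 * c)) := by
    linarith [norm_sub_le z z₀, min_le_right (rad n₂ / 4) (u₀ / (4 * c))]
  have g8 : c * (2 * (u₀ / (4 * c))) = u₀ / 2 := by field_simp; ring
  nlinarith [g2.1]

end Vale.Agent.P207Z
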