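import Vale.Agent.P207Z.Real.Defs2
import Vale.Agent.P207Z.JetM
import Vale.Agent.P207Z.An.Frob

/-!
# P207 REAL: the formal leaves of `F` through the unstable axis
-/

set_option linter.all false

open Set Filter Topology Metric VectorField Asymptotics Module
open scoped ContDiff

noncomputable section

namespace Vale.Agent.P207Z

namespace Leaf

variable {T H K G : Type} [NormedAddCommGroup T] [NormedSpace ℝ T] [FiniteDimensional ℝ T]
  [NormedAddCommGroup H] [NormedSpace ℝ H] [FiniteDimensional ℝ H]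
  [NormedAddCommGroup K] [NormedSpace ℝ K] [FiniteDimensional ℝ K]
  [NormedAddCommGroup G] [NormedSpace ℝ G]

/-- injectivity is uniform near a point -/
theorem unif_inj {Z : Type} [TopologicalSpace Z] {Bm : Z → H →L[ℝ] G} {z0 : Z}
    (hc : ContinuousAt Bm z0) (hi : ∀ w, Bm z0 w = 0 → w = 0) :
    ∃ c : ℝ, 0 < c ∧ ∀ᶠ z in 𝓝 z0, ∀ w, ‖w‖ ≤ c * ‖Bm z w‖ := by
  obtain ⟨c, hc0, hB⟩ := (Bm z0 : H →ₗ[ℝ] G).exists_antilipschitzWith (LinearMap.ker_eq_bot'.2 hi)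
  have hc1 : (0 : ℝ) < c := hc0
  refine ⟨2 * c, by positivity, ?_⟩
  filter_upwards [hc.eventually (ball_mem_nhds _ (show 0 < 1 / (2 * (c : ℝ)) by positivity))]
    with z hz w
  have k1 := hB.le_mul_dist w 0
  simp only [dist_zero_right, map_zero, ContinuousLinearMap.coe_coe] at k1
  have k3 : ‖Bm z w - Bm z0 w‖ ≤ 1 / (2 * (c : ℝ)) * ‖w‖ :=
    (Bm z - Bm z0).le_of_opNorm_le (mem_ball_iff_norm.1 hz).le w
  have k4 : ‖Bm z0 w‖ ≤ ‖Bm z w‖ + ‖Bm z w - Bm z0 w‖ := by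
    simpa using norm_sub_le (Bm z w) (Bm z w - Bm z0 w)
  have k5 : (c : ℝ) * (1 / (2 * (c : ℝ)) * ‖w‖) = ‖w‖ / 2 := by field_simp
  nlinarith [mul_le_mul_of_nonneg_left (k4.trans (add_le_add le_rfl k3)) hc1.le]

omit [FiniteDimensional ℝ T] in
/-- a smooth section of a kernel of constant rank -/
theorem ker_field [FiniteDimensional ℝ G] {M : T → H →L[ℝ] G} {a0 : T}
    (hM : ∀ᶠ a in 𝓝 a0, ContDiffAt ℝ ∞ M a) {r : ℕ}
    (hr : ∀ᶠ a in 𝓝 a0, finrank ℝ (M a).ker = r) {n : H} (hn : M a0 n = 0) :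
    ∃ ζ : T → H, ζ a0 = n ∧ ∀ᶠ a in 𝓝 a0, ContDiffAt ℝ ∞ ζ a ∧ M a (ζ a) = 0 := by
  have : CompleteSpace H := FiniteDimensional.complete ℝ H
  obtain ⟨s, hs⟩ := (M a0 : H →ₗ[ℝ] G).rangeRestrict.exists_rightInverse_of_surjective
    (LinearMap.range_rangeRestrict _)
  obtain ⟨l, hl⟩ := (LinearMap.range (M a0 : H →ₗ[ℝ] G)).subtype.exists_leftInverse_of_injective
    (Submodule.ker_subtype _)
  let g : G →L[ℝ] H := LinearMap.toContinuousLinearMap (s ∘ₗ l)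
  have hg : ∀ v, M a0 (g (M a0 v)) = M a0 v := fun v => by
    have k1 := DFunLike.congr_fun hl ⟨M a0 v, v, rfl⟩
    have k2 := congrArg Subtype.val (DFunLike.congr_fun hs ⟨M a0 v, v, rfl⟩)
    change M a0 (s (l (M a0 v))) = _
    rw [show l (M a0 v) = ⟨M a0 v, v, rfl⟩ from k1]
    exact k2
  let Tm : T → H →L[ℝ] H := fun a => 1 + g ∘L (M a - M a0)
  have hT0 : Tm a0 = 1 := by simp [Tm]
  have hTs : ∀ a, ContDiffAt ℝ ∞ M a → ContDiffAt ℝ ∞ Tm a := fun a ha =>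
    contDiffAt_const.add (contDiffAt_const.clm_comp (ha.sub contDiffAt_const))
  have hU : ∀ᶠ a in 𝓝 a0, IsUnit (Tm a) :=
    (hTs _ hM.self_of_nhds).continuousAt.eventually (Units.isOpen.mem_nhds (by simp [hT0]))
  refine ⟨fun a => Ring.inverse (Tm a) n, by simp [hT0], ?_⟩
  filter_upwards [hM, hU, hr] with a h1 h2 h3
  have hl : ∀ v, Ring.inverse (Tm a) (Tm a v) = v := fun v =>
    DFunLike.congr_fun (Ring.inverse_mul_cancel _ h2) v
  refine ⟨ContDiffAt.clm_apply (ContDiffAt.comp (g := Ring.inverse) a ?_ (hTs a h1))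
    contDiffAt_const, ?_⟩
  · obtain ⟨u, hu⟩ := h2
    rw [← hu]
    exact contDiffAt_ringInverse ℝ u
  let φ : (M a).ker →ₗ[ℝ] (M a0).ker :=
    (Tm a : H →ₗ[ℝ] H).restrict fun v hv => by
      have k : M a v = 0 := hv
      change M a0 (Tm a v) = 0
      simp [Tm, k, hg]
  have hi : Function.Injective φ := fun v w h => Subtype.ext (by
    have k : Tm a v = Tm a w := congrArg Subtype.val h
    rw [← hl v, k, hl])
  obtain ⟨v, hv⟩ := (LinearMap.injective_iff_surjective_of_finrank_eq_finrank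
    (h3.trans hr.self_of_nhds.symm)).1 hi ⟨n, hn⟩
  rw [← show Tm a v = n from congrArg Subtype.val hv, hl]
  exact v.2

omit [FiniteDimensional ℝ T] [FiniteDimensional ℝ H] in
theorem fd_inv (Ph : OpenPartialHomeomorph T H) (h1 : ContDiffOn ℝ ∞ Ph Ph.source)
    (h2 : ContDiffOn ℝ ∞ Ph.symm Ph.target) {z : T} (hz : z ∈ Ph.source) (v : T) :
    fderiv ℝ Ph.symm (Ph z) (fderiv ℝ Ph z v) = v := by
  have k1 := ((h1.contDiffAt (Ph.open_source.mem_nhds hz)).differentiableAt (by simp)).hasFDerivAt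
  have k2 := ((h2.contDiffAt (Ph.open_target.mem_nhds (Ph.map_source hz))).differentiableAt
    (by simp)).hasFDerivAt
  exact DFunLike.congr_fun (((k2.comp z k1).congr_of_eventuallyEq
    (Ph.eventually_left_inverse hz |>.mono fun _ h => h.symm)).unique (hasFDerivAt_id z)) v

/-- coordinates adapted to two disjoint subspaces -/
theorem exists_J (R U : Submodule ℝ T) (h : R ⊓ U = ⊥) : ∃ (C : Submodule ℝ T)
    (J : (EuclideanSpace ℝ (Fin (finrank ℝ R)) × C) ≃L[ℝ] T),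
    (∀ p, J p ∈ R ↔ p.2 = 0) ∧ ∀ p, J p ∈ U → p.1 = 0 := by
  obtain ⟨C, h1, h2⟩ := (disjoint_iff.2 h).symm.exists_isCompl
  let e : EuclideanSpace ℝ (Fin (finrank ℝ R)) ≃ₗ[ℝ] R := LinearEquiv.ofFinrankEq _ _ (by simp)
  let J := ((e.prodCongr (LinearEquiv.refl ℝ C)).trans
    (Submodule.prodEquivOfIsCompl R C h2.symm)).toContinuousLinearEquiv
  have hJ : ∀ p, J p = e p.1 + p.2 := fun _ => rfl
  have hd := Submodule.disjoint_def.1 h2.disjoint
  refine ⟨C, J, fun p => ?_, fun p hp => ?_⟩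
  · rw [hJ, R.add_mem_iff_right (e p.1).2]
    exact ⟨fun k => Subtype.ext (hd _ p.2.2 k), fun k => by simp [k]⟩
  · have k := (C.add_mem_iff_left p.2.2).1 (h1 hp)
    simpa using hd _ k (e p.1).2

/-- coordinates whose first axis is a given vector -/
theorem exists_axis {n : T} (hn : n ≠ 0) : ∃ (m : ℕ) (J : (ℝ × EuclideanSpace ℝ (Fin m)) ≃L[ℝ] T),
    n = J (1, 0) := by
  obtain ⟨C, hC⟩ := (ℝ ∙ n).exists_isCompl
  let e : EuclideanSpace ℝ (Fin (finrank ℝ C)) ≃ₗ[ℝ] C := LinearEquiv.ofFinrankEq _ _ (by simp)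
  refine ⟨_, (((LinearEquiv.toSpanNonzeroSingleton ℝ T n hn).prodCongr e).trans
    (Submodule.prodEquivOfIsCompl _ C hC)).toContinuousLinearEquiv, ?_⟩
  simp

/-- approximate leaves through the points of a family in the kernel of `τ` -/
theorem core (L : ℕ) (τ : T →L[ℝ] T) (hτ : ∀ z, τ (τ z) = τ z) {P : T → T →L[ℝ] T}
    (hs : Idm ∞ P 0) (hF : (P 0).range ⊓ τ.ker = ⊥)
    (hint : ∀ v w, (fun z => (1 - P z) (lieBracket ℝ (fun y => P y v) (fun y => P y w) z))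
      =O[𝓝 0] fun z => ‖τ z‖ ^ (L + 1))
    {γ : G → T} (hγ : ∀ᶠ y in 𝓝 0, ContDiffAt ℝ ∞ γ y) (hγ0 : γ 0 = 0) (hτγ : ∀ y, τ (γ y) = 0) :
    ∃ Q : G × EuclideanSpace ℝ (Fin (finrank ℝ (P 0).range)) → T,
      (∀ᶠ p in 𝓝 0, ContDiffAt ℝ ∞ Q p) ∧ (∀ e, fderiv ℝ Q 0 (0, e) = 0 → e = 0) ∧
      ∀ᶠ y in 𝓝 0, Q (y, 0) = γ y ∧ ∀ e, TanTo L P Q (y, 0) (0, e) := by
  obtain ⟨C, J, hR, hU⟩ := exists_J _ _ hF
  have hP0 := hs.self_of_nhds
  have hJ : ∀ p, P 0 (J p) = J p ↔ p.2 = 0 := fun p => by rw [← hR, An.mem_range_idem hP0.2]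
  obtain ⟨c, -, hest⟩ := An.frame_est hP0.1.continuousAt J hJ
  obtain ⟨Ph, p1, p2, p3, p4, p5, p6, p7⟩ := An.frobJ (L + 1) τ hτ (map_zero τ) hs J hJ
    (fun p hp => by rw [hU p hp, Prod.mk_zero_zero, map_zero, map_zero])
    (hest.mono fun z hz _ u hu hu' => by
      have k := hz u (hU ((J.symm u).1, 0) hu')
      rw [hu, sub_self, norm_zero, mul_zero, norm_le_zero_iff] at k
      rw [k, map_zero]) hint
  have q1 : (0 : _ × C) ∈ Ph.target := p2 ▸ Ph.map_source p1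
  have q2 : Ph.symm 0 = 0 := by rw [← p2]; exact Ph.left_inv p1
  have s1 : ∀ z ∈ Ph.source, ContDiffAt ℝ ∞ Ph z := fun z hz =>
    p3.contDiffAt (Ph.open_source.mem_nhds hz)
  have s2 : ∀ z ∈ Ph.target, ContDiffAt ℝ ∞ Ph.symm z := fun z hz =>
    p4.contDiffAt (Ph.open_target.mem_nhds hz)
  let D : T → T →L[ℝ] C := fun z => fderiv ℝ (fun y => (Ph y).2) z
  have hD : ∀ z ∈ Ph.source, ∀ w, D z w = (fderiv ℝ Ph z w).2 := fun z hz w =>
    DFunLike.congr_fun ((s1 z hz).differentiableAt (by simp)).hasFDerivAt.snd.fderiv w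
  have hDi : ∀ p ∈ Ph.target, ∀ q, D (Ph.symm p) (fderiv ℝ Ph.symm p q) = q.2 := fun p hp q => by
    rw [hD _ (Ph.map_target hp)]
    exact congrArg Prod.snd (fd_inv Ph.symm p4 p3 hp q)
  obtain ⟨c', hc', hinj⟩ := unif_inj (Bm := fun z => (D z).prod (P z)) (z0 := 0)
    ((ContinuousLinearMap.prodL ℝ).continuous.continuousAt.comp
      (((s1 0 p1).snd.fderiv_right (m := 0) (by simp)).continuousAt.prodMk hP0.1.continuousAt))
    (fun w hw => by
      obtain ⟨q, rfl⟩ := J.surjective w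
      have k := hDi 0 q1 q
      rw [q2, p5] at k
      obtain ⟨k1, k2⟩ := Prod.mk_eq_zero.1 hw
      exact ((hJ q).2 (k.symm.trans k1)).symm.trans k2)
  obtain ⟨c'', hc'', hO⟩ := (An.isBigO_clm (B := fun z => (D z).comp (P z)) p7).exists_pos
  have g0 : ∀ᶠ y in 𝓝 (0 : G), γ y ∈ Ph.source :=
    hγ.self_of_nhds.continuousAt.eventually (Ph.open_source.mem_nhds (by rwa [hγ0]))
  let κ : G × EuclideanSpace ℝ (Fin (finrank ℝ (P 0).range)) → _ × C :=
    fun p => (p.2, (Ph (γ p.1)).2)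
  have hκ0 : κ 0 = 0 := by simp [κ, hγ0, p2]
  have g1 : ∀ᶠ y in 𝓝 (0 : G), ContDiffAt ℝ ∞ (fun y => (Ph (γ y)).2) y := by
    filter_upwards [hγ, g0] with y h1 h2 using ((s1 _ h2).comp y h1).snd
  have hκ : ∀ᶠ p in 𝓝 0, ContDiffAt ℝ ∞ κ p ∧ ∀ e, fderiv ℝ κ p (0, e) = (e, 0) := by
    filter_upwards [(continuous_fst.tendsto 0).eventually g1] with p hp
    refine ⟨contDiffAt_snd.prodMk (hp.comp p contDiffAt_fst), fun e => ?_⟩
    have k := (hasFDerivAt_snd (p := p)).prodMk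
      ((hp.differentiableAt (by simp)).hasFDerivAt.comp p hasFDerivAt_fst)
    rw [show fderiv ℝ κ p = _ from k.fderiv]
    simp
  have g2 : ∀ᶠ p in 𝓝 0, κ p ∈ Ph.target :=
    hκ.self_of_nhds.1.continuousAt.eventually (Ph.open_target.mem_nhds (hκ0 ▸ q1))
  have hQ : ∀ᶠ p in 𝓝 0, ContDiffAt ℝ ∞ (Ph.symm ∘ κ) p ∧
      ∀ e, fderiv ℝ (Ph.symm ∘ κ) p (0, e) = fderiv ℝ Ph.symm (κ p) (e, 0) := by
    filter_upwards [hκ, g2] with p h1 h2
    refine ⟨(s2 _ h2).comp p h1.1, fun e => ?_⟩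
    rw [fderiv_comp p ((s2 _ h2).differentiableAt (by simp)) (h1.1.differentiableAt (by simp)),
      ContinuousLinearMap.comp_apply, h1.2]
  have hQ0 : Tendsto (Ph.symm ∘ κ) (𝓝 0) (𝓝 0) := by
    simpa [hκ0, q2] using hQ.self_of_nhds.1.continuousAt.tendsto
  have hE : ∀ᶠ p in 𝓝 0, ∀ e, ‖cmp P ((Ph.symm ∘ κ) p) (fderiv ℝ (Ph.symm ∘ κ) p (0, e))‖ ≤
      c' * (c'' * ‖τ ((Ph.symm ∘ κ) p)‖ ^ (L + 1) * ‖fderiv ℝ (Ph.symm ∘ κ) p (0, e)‖) := by
    filter_upwards [hQ, g2, hQ0.eventually hinj, hQ0.eventually hO.bound, hQ0.eventually hs]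
      with p h1 h2 h3 h4 h5 e
    have k0 := hDi _ h2 (e, 0)
    rw [← h1.2] at k0
    generalize fderiv ℝ (Ph.symm ∘ κ) p (0, e) = w at k0 ⊢
    change D ((Ph.symm ∘ κ) p) w = 0 at k0
    generalize (Ph.symm ∘ κ) p = z at *
    have k1 : P z (P z w) = P z w := DFunLike.congr_fun h5.2 w
    have k2 := h3 (w - P z w)
    rw [ContinuousLinearMap.prod_apply, map_sub, map_sub, k0, k1, sub_self, zero_sub,
      Prod.norm_mk, norm_zero, norm_neg, max_eq_left (norm_nonneg _)] at k2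
    rw [norm_pow, norm_norm] at h4
    exact k2.trans (mul_le_mul_of_nonneg_left (((D z).comp (P z)).le_of_opNorm_le h4 w) hc'.le)
  have hι : Tendsto (fun y : G => (y, (0 : EuclideanSpace ℝ (Fin (finrank ℝ (P 0).range)))))
      (𝓝 0) (𝓝 0) := (continuous_id.prodMk continuous_const).tendsto' _ _ rfl
  refine ⟨Ph.symm ∘ κ, hQ.mono fun _ h => h.1, fun e he => ?_, ?_⟩
  · rw [hQ.self_of_nhds.2, hκ0, p5] at he
    simpa using he
  filter_upwards [g0, hι.eventually hQ, hι.eventually hE.eventually_nhds] with y h1 h2 h3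
  have k1 : (Ph.symm ∘ κ) (y, 0) = γ y := by
    have k : (Ph (γ y)).1 = 0 := hU _ ((p6 _ h1).1 (hτγ y))
    rw [← Ph.left_inv h1]
    exact congrArg Ph.symm (Prod.ext k.symm rfl)
  refine ⟨k1, fun e => ?_⟩
  have k2 : (fun p => τ ((Ph.symm ∘ κ) p)) =O[𝓝 (y, 0)] fun p => p - (y, 0) := by
    simpa only [k1, hτγ, sub_zero, Function.comp_apply (f := τ)] using
      (τ.differentiableAt.comp _ (h2.1.differentiableAt (by simp))).isBigO_sub
  have k3 : (fun p => fderiv ℝ (Ph.symm ∘ κ) p (0, e)) =O[𝓝 (y, 0)] fun _ => (1 : ℝ) :=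
    ((h2.1.fderiv_right (m := 0) (by simp)).continuousAt.clm_apply
      continuousAt_const).tendsto.isBigO_one ℝ
  obtain ⟨C', hC'⟩ := ((((k2.norm_norm.pow (L + 1)).const_mul_left c'').mul
    k3.norm_left).const_mul_left c').bound
  refine Flat.of_pow (C := C') ?_
  filter_upwards [h3, hC'] with p a1 a2
  rw [mul_one, norm_pow, norm_norm] at a2
  exact (a1 e).trans ((le_abs_self _).trans a2)

end Leaf

variable {Γ X B E V : Type} [Group Γ] [Countable Γ] [MetricSpace X] [ProperSpace X]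
  [MulAction Γ X] [IsIsometricSMul Γ X] [MeasurableSpace X] [BorelSpace X]
  [TopologicalSpace B] [CompactSpace B] [T2Space B] [SecondCountableTopology B] [MulAction Γ B]
  [ContinuousConstSMul Γ B] [MeasurableSpace B] [BorelSpace B]
  [NormedAddCommGroup E] [InnerProductSpace ℝ E] [FiniteDimensional ℝ E]
  [NormedAddCommGroup V] [NormedSpace ℝ V] [FiniteDimensional ℝ V]
  {A W G : Type} [NormedAddCommGroup A] [NormedSpace ℝ A] [FiniteDimensional ℝ A]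
  [NormedAddCommGroup W] [NormedSpace ℝ W] [FiniteDimensional ℝ W]
  [NormedAddCommGroup G] [NormedSpace ℝ G] {S : Sys Γ X B E V}

theorem Sys.exists_leaf (L : ℕ) {P Pz : V → V →L[ℝ] V} (hP : Idm ∞ P 0) (hZ : Idm ∞ Pz 0)
    (hbr : ∀ᶠ a in 𝓝 (0 : E), ∀ v w, Flat (L + 1) (fun q => cmp P q
      (lieBracket ℝ (fun p => P p v) (fun p => P p w) q)) (S.iU a))
    (hF : (P 0).range ⊓ S.Eu = ⊥) {r : ℕ} (hr : r ≠ 0)
    (hrk : ∀ᶠ a in 𝓝 (0 : E), Module.finrank ℝ ((Pz (S.iU a)).range ⊓ S.Eu : Submodule ℝ V) = r) :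
    ∃ (m f : ℕ) (Q : (ℝ × EuclideanSpace ℝ (Fin m)) × EuclideanSpace ℝ (Fin f) → V), S.Base Q ∧
      f = Module.finrank ℝ (P 0).range ∧ (∀ e, fderiv ℝ Q 0 (0, e) = 0 → e = 0) ∧
      ∀ᶠ y in 𝓝 (0 : ℝ × EuclideanSpace ℝ (Fin m)), (∀ e, TanTo L P Q (y, 0) (0, e)) ∧
        cmp Pz (Q (y, 0)) (fderiv ℝ Q (y, 0) ((1, 0), 0)) = 0 := by
  have hU : Tendsto S.iU (𝓝 0) (𝓝 0) := S.iU.continuous.tendsto' _ _ (map_zero _)
  have hpU : Tendsto S.pU (𝓝 0) (𝓝 0) := S.pU.continuous.tendsto' _ _ (map_zero _)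
  let M : E → E →L[ℝ] V := fun a => cmp Pz (S.iU a) ∘L S.iU
  have hM : ∀ᶠ a in 𝓝 (0 : E), ContDiffAt ℝ ∞ M a := (hU.eventually hZ).mono fun a ha =>
    (contDiffAt_const.sub (ha.1.comp a S.iU.contDiff.contDiffAt)).clm_comp contDiffAt_const
  have hk : ∀ᶠ a in 𝓝 (0 : E), finrank ℝ (M a).ker = r := by
    filter_upwards [hU.eventually hZ, hrk] with a h1 h2
    have hi : Function.Injective (S.iU : E →ₗ[ℝ] V) :=
      Function.LeftInverse.injective (g := S.pU) S.pU_iU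
    have e : (M a).ker = (Pz (S.iU a)).range.comap (S.iU : E →ₗ[ℝ] V) := Submodule.ext fun v => by
      rw [Submodule.mem_comap, An.mem_range_idem h1.2]
      exact sub_eq_zero.trans eq_comm
    rw [e, (Submodule.equivMapOfInjective _ hi _).finrank_eq, Submodule.map_comap_eq, inf_comm]
    exact h2
  obtain ⟨n, hn, hn0⟩ := (M 0).ker.exists_mem_ne_zero_of_ne_bot fun h => hr (by
    rw [← hk.self_of_nhds, h, finrank_bot])
  obtain ⟨ζ, z0, hζ⟩ := Leaf.ker_field hM hk (n := n) hn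
  obtain ⟨m, J, hJ⟩ := Leaf.exists_axis hn0
  obtain ⟨Ph, p1, p2, p3, p4, p5, p6⟩ := An.flowBox J (hζ.mono fun _ h => h.1) (z0.trans hJ)
  have q1 : ∀ᶠ y in 𝓝 0, y ∈ Ph.target := Ph.open_target.mem_nhds (p2 ▸ Ph.map_source p1)
  have q2 : Ph.symm 0 = 0 := by rw [← p2]; exact Ph.left_inv p1
  have q3 : ∀ᶠ y in 𝓝 0, ContDiffAt ℝ ∞ Ph.symm y := q1.mono fun y hy =>
    p4.contDiffAt (Ph.open_target.mem_nhds hy)
  have q4 : Tendsto Ph.symm (𝓝 0) (𝓝 0) := by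
    simpa only [q2] using q3.self_of_nhds.continuousAt.tendsto
  let τ : V →L[ℝ] V := S.iS ∘L S.pS
  have hτ : ∀ z, τ z = 0 → S.pS z = 0 := fun z hz => by
    rw [← S.pS_iS (S.pS z)]
    exact (congrArg S.pS hz).trans (map_zero _)
  have hττ : ∀ z, τ (τ z) = τ z := fun z => congrArg S.iS (S.pS_iS _)
  obtain ⟨Q, h1, h2, h3⟩ := Leaf.core L τ hττ hP
    (eq_bot_iff.2 fun v hv => hF.le ⟨hv.1, S.mem_Eu.2 (hτ v hv.2)⟩)
    (fun v w => An.VanOn.isBigO hττ (map_zero τ)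
      ((An.bracket_smooth hP.self_of_nhds.1 v w).of_le (by exact_mod_cast le_top)) (by
        filter_upwards [hP, hpU.eventually hbr] with z a1 a2 hz i hi
        have k := a2 v w
        rw [S.iU_pU (hτ z hz)] at k
        exact jet_eq_zero_iff.1 ((flat_iff_jet ((An.bracket_smooth a1.1 v w).of_le
          (by exact_mod_cast le_top))).1 k) i hi.le))
    (γ := fun y => S.iU (Ph.symm y)) (q3.mono fun y hy => S.iU.contDiff.contDiffAt.comp y hy)
    (by rw [q2, map_zero]) fun y => (congrArg S.iS (S.pS_iU _)).trans (map_zero _)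
  have hι : Tendsto (fun y : ℝ × EuclideanSpace ℝ (Fin m) =>
      (y, (0 : EuclideanSpace ℝ (Fin (finrank ℝ (P 0).range))))) (𝓝 0) (𝓝 0) :=
    (continuous_id.prodMk continuous_const).tendsto' _ _ rfl
  refine ⟨m, _, Q, ⟨h1, h3.self_of_nhds.1.trans (by rw [q2, map_zero]),
    h3.mono fun y hy => by rw [hy.1, S.pS_iU], J, ?_⟩, rfl, h2, ?_⟩
  · rw [← p5]
    exact (q3.self_of_nhds.differentiableAt (by simp)).hasFDerivAt.congr_of_eventuallyEq
      (h3.mono fun y hy => by simp only [hy.1, S.pU_iU])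
  filter_upwards [h3.eventually_nhds, hι.eventually h1, q1, q3, q4.eventually hζ]
    with y a1 a2 a3 a4 a5
  refine ⟨a1.self_of_nhds.2, ?_⟩
  have k1 := ((a2.differentiableAt (by simp)).hasFDerivAt.comp y
    (hasFDerivAt_prodMk_left y 0)).unique
    ((S.iU.hasFDerivAt.comp y (a4.differentiableAt (by simp)).hasFDerivAt).congr_of_eventuallyEq
      (a1.mono fun _ h => h.1))
  have k2 := Leaf.fd_inv Ph p3 p4 (Ph.map_target a3) (ζ (Ph.symm y))
  rw [p6 _ (Ph.map_target a3), Ph.right_inv a3] at k2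
  have k3 : fderiv ℝ Q (y, 0) ((1, 0), 0) = S.iU (fderiv ℝ Ph.symm y (1, 0)) :=
    DFunLike.congr_fun k1 (1, 0)
  rw [k3, k2, a1.self_of_nhds.1]
  exact a5.2

end Vale.Agent.P207Z
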