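import Vale.Agent.P207Z.Real.Smooth
import Vale.Agent.P207Z.Real.Ext
import Vale.Agent.P207Z.OpsA
import Vale.Agent.P207Z.End.Defs
import Vale.Agent.P207Z.Geo.Sec

/-!
# P207 REAL: the identities of the jets, read on extensions at typical points
-/

set_option linter.all false

open Set Filter Topology Metric MeasureTheory VectorField
open scoped ContDiff

noncomputable section

namespace Vale.Agent.P207Z

variable {Γ X B E V Y : Type} [Group Γ] [Countable Γ] [MetricSpace X] [ProperSpace X]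
  [MulAction Γ X] [IsIsometricSMul Γ X] [MeasurableSpace X] [BorelSpace X]
  [TopologicalSpace B] [CompactSpace B] [T2Space B] [SecondCountableTopology B] [MulAction Γ B]
  [ContinuousConstSMul Γ B] [MeasurableSpace B] [BorelSpace B]
  [NormedAddCommGroup E] [InnerProductSpace ℝ E] [FiniteDimensional ℝ E]
  [NormedAddCommGroup V] [NormedSpace ℝ V] [FiniteDimensional ℝ V]
  [MeasurableSpace Y] [MulAction Γ Y]
  {F G : Type} [NormedAddCommGroup F] [NormedSpace ℝ F] [FiniteDimensional ℝ F]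
  [NormedAddCommGroup G] [NormedSpace ℝ G]
  {S : Sys Γ X B E V} {𝔉 : Bun S F}

namespace Ident

variable {k : ℕ} {x y : X} {z : V}

theorem cont {m : WithTop ℕ∞} {P : V → F →L[ℝ] F} (h : Idm m P z) : ContinuousAt P z :=
  h.self_of_nhds.1.continuousAt

theorem idem {m : WithTop ℕ∞} {P : V → F →L[ℝ] F} (h : Idm m P z) :
    ∀ᶠ q in 𝓝 z, P q * P q = P q := h.mono fun _ h => h.2

theorem flat_of_τ {g : V → G} (h0 : (0 : V) ∈ S.dom y x) (h : Flat k (fun q => g (S.τ y x q)) 0) :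
    Flat k g (S.τ y x 0) := by
  have h2 : Flat k (fun q => g (S.τ y x q)) (S.τ x y (S.τ y x 0)) := by rwa [Sys.τ_τ h0]
  refine (h2.comp (Sys.differentiableAt_τ (Sys.τ_dom h0))).congr ?_
  filter_upwards [Sys.dom_nhds (Sys.τ_dom h0)] with q hq
  rw [Sys.τ_τ hq]

theorem flat_self {m : WithTop ℕ∞} {P : V → F →L[ℝ] F} (h : Idm m P z) (v : F) :
    Flat k (fun q => cmp P q (P q v)) z :=
  Flat.zero.congr ((idem h).mono fun q hq => sub_eq_zero.2 (congrArg (· v) hq).symm)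

theorem sm_apply {m : WithTop ℕ∞} {P : V → F →L[ℝ] F} (h : Idm m P z) (v : F) :
    ContDiffAt ℝ m (fun q => P q v) z := h.self_of_nhds.1.clm_apply contDiffAt_const

theorem flat_symm {m : WithTop ℕ∞} {P P' : V → F →L[ℝ] F} (hP : Idm m P z) (hP' : Idm m P' z)
    (h : Flat k (fun q => cmp P' q ∘L P q) z) (e : (P z).range = (P' z).range) :
    Flat k (fun q => cmp P q ∘L P' q) z := by
  have t : Tendsto (fun q : V => z + q) (𝓝 0) (𝓝 z) :=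
    (continuous_const.add continuous_id).tendsto' 0 z (add_zero z)
  have c : ∀ {P : V → F →L[ℝ] F}, Idm m P z → ContinuousAt (fun q => P (z + q)) 0 := fun h => by
    have := (cont h).tendsto.comp t
    rw [ContinuousAt, add_zero]
    exact this
  rw [flat_iff_translate] at h ⊢
  have h1 := (dom_cmp_iff (M := cmp fun q => P' (z + q)) (contAt_cmp (c hP')) (c hP)
    (t.eventually (idem hP))).2 h
  exact (h1.cmp_symm (c hP') (c hP) (t.eventually (idem hP')) (t.eventually (idem hP))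
    (by rw [add_zero, e])).flat_cmp (c hP') (t.eventually (idem hP'))

theorem pull_eq {q : V} (hq : q ∈ S.dom y x) (s : V → V) :
    pullback ℝ (S.τ y x) s q = S.TV.A x y (S.τ y x q) (s (S.τ y x q)) := by
  rw [pullback, ContinuousLinearMap.inverse_eq (Sys.fderiv_τ_inv' hq) (Sys.fderiv_τ_inv hq)]
  rfl

theorem om_inj' {u : V} (h : ∀ v, S.om v u = 0) : u = 0 :=
  S.om_inj fun w => by rw [S.om_anti, h, neg_zero]

theorem ae_lS {Q : X → Prop} (h : ∀ᵐ y ∂S.μ, Q y) :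
    ∀ᵐ η ∂S.ν, ∀ x, S.ep x = η → ∀ r, S.AlongS x r Q :=
  (Sys.ae_ep (Sys.ae_leafS h)).mono fun η ⟨x₀, e, h⟩ x hx r =>
    h.mono fun ξ hξ y hy _ => hξ y (by rw [hy, hx, e])

theorem ae_lU {Q : X → Prop} (h : ∀ᵐ y ∂S.μ, Q y) :
    ∀ᵐ ξ ∂S.ν, ∀ x, S.em x = ξ → ∀ r, S.AlongU x r Q :=
  (Sys.ae_em (Sys.ae_leafU h)).mono fun η ⟨x₀, e, h⟩ x hx r =>
    h.mono fun ξ hξ y hy _ => hξ y (by rw [hy, hx, e])

theorem τ_mem {r : ℝ} (hr : r ≤ 1) (h : S.pt y ∈ S.c x '' ball 0 r) :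
    S.τ y x 0 ∈ ball (0 : V) r := by
  obtain ⟨q, hq, e⟩ := h
  rwa [Sys.τ_zero' (ball_subset_ball hr hq) e.symm]

theorem exists_r {Q : V → Prop} (h : ∀ᶠ q in 𝓝 (0 : V), Q q) {ρ : ℝ} (hρ : 0 < ρ) :
    ∃ r > 0, r ≤ ρ ∧ r ≤ 1 / 2 ∧ ∀ q ∈ ball (0 : V) r, Q q := by
  obtain ⟨r, hr, h⟩ := Metric.eventually_nhds_iff_ball.1 h
  exact ⟨min r (min ρ (1 / 2)), by positivity, (min_le_right _ _).trans (min_le_left _ _),
    (min_le_right _ _).trans (min_le_right _ _),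
    fun q hq => h q (ball_subset_ball (min_le_left _ _) hq)⟩

theorem freqU {Q : X → Prop} {ρ : ℝ} (h : S.AlongU x ρ Q) {a : E} (ha : a ∈ ball (0 : E) ρ)
    (ha1 : a ∈ ball (0 : E) 1) : ∃ᶠ a' in 𝓝 a, a' ∈ ball (0 : E) 1 ∧
      (∃ y, S.pt y = S.c x (S.iU a')) ∧ ∀ y, S.pt y = S.c x (S.iU a') → Q y := by
  refine frequently_iff.2 fun {N} hN => ?_
  obtain ⟨O, h1, h2, h3⟩ := _root_.mem_nhds_iff.1 (inter_mem hN
    (inter_mem (isOpen_ball.mem_nhds ha) (isOpen_ball.mem_nhds ha1)))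
  obtain ⟨a', h4, h5⟩ := h.dense' h2 ⟨a, h3⟩ (fun b hb => (h1 hb).2.2) fun b hb => (h1 hb).2.1
  obtain ⟨y, e1, e2⟩ := S.exists_frame _ _ (S.c_ne x _ (S.iU_mem.2 (h1 h4).2.2))
  exact ⟨a', (h1 h4).1, (h1 h4).2.2, ⟨y, Prod.ext e1 e2⟩, h5⟩

theorem freqS {Q : X → Prop} {ρ : ℝ} (h : S.AlongS x ρ Q) {a : E} (ha : a ∈ ball (0 : E) ρ)
    (ha1 : a ∈ ball (0 : E) 1) : ∃ᶠ a' in 𝓝 a, a' ∈ ball (0 : E) 1 ∧
      (∃ y, S.pt y = S.c x (S.iS a')) ∧ ∀ y, S.pt y = S.c x (S.iS a') → Q y := by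
  refine frequently_iff.2 fun {N} hN => ?_
  obtain ⟨O, h1, h2, h3⟩ := _root_.mem_nhds_iff.1 (inter_mem hN
    (inter_mem (isOpen_ball.mem_nhds ha) (isOpen_ball.mem_nhds ha1)))
  obtain ⟨a', h4, h5⟩ := h.dense' h2 ⟨a, h3⟩ (fun b hb => (h1 hb).2.2) fun b hb => (h1 hb).2.1
  obtain ⟨y, e1, e2⟩ := S.exists_frame _ _ (S.c_ne x _ (S.iS_mem.2 (h1 h4).2.2))
  exact ⟨a', (h1 h4).1, (h1 h4).2.2, ⟨y, Prod.ext e1 e2⟩, h5⟩

theorem axisU {ρ : ℝ} {g : V → G}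
    (h : S.AlongU x ρ fun y => (0 : V) ∈ S.dom y x → Flat k g (S.τ y x 0)) {a : E}
    (ha : a ∈ ball (0 : E) ρ) (ha1 : a ∈ ball (0 : E) 1) (hg : ContDiffAt ℝ k g (S.iU a)) :
    Flat k g (S.iU a) :=
  flat_closed hg (S.iU.continuous.continuousAt.tendsto.frequently ((freqU h ha ha1).mono
    fun a' ⟨h1, ⟨y, hy⟩, h2⟩ => Sys.τ_zero' (S.iU_mem.2 h1) hy ▸
      h2 y hy (Sys.zero_dom' (S.iU_mem.2 h1) hy)))

theorem axisS {ρ : ℝ} {g : V → G}
    (h : S.AlongS x ρ fun y => (0 : V) ∈ S.dom y x → Flat k g (S.τ y x 0)) {a : E}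
    (ha : a ∈ ball (0 : E) ρ) (ha1 : a ∈ ball (0 : E) 1) (hg : ContDiffAt ℝ k g (S.iS a)) :
    Flat k g (S.iS a) :=
  flat_closed hg (S.iS.continuous.continuousAt.tendsto.frequently ((freqS h ha ha1).mono
    fun a' ⟨h1, ⟨y, hy⟩, h2⟩ => Sys.τ_zero' (S.iS_mem.2 h1) hy ▸
      h2 y hy (Sys.zero_dom' (S.iS_mem.2 h1) hy)))

theorem rn (R : Submodule ℝ V) : Module.finrank ℝ (R ⊓ S.Eu : Submodule ℝ V) +
    Module.finrank ℝ (R.map (S.pS : V →ₗ[ℝ] E)) = Module.finrank ℝ R := by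
  have h := ((S.pS : V →ₗ[ℝ] E).domRestrict R).finrank_range_add_finrank_ker
  rw [LinearMap.range_domRestrict, LinearMap.ker_domRestrict,
    ← Submodule.finrank_map_subtype_eq R (Submodule.comap _ _), Submodule.map_comap_subtype] at h
  rw [← h, add_comm, show S.Eu = LinearMap.ker (S.pS : V →ₗ[ℝ] E) from
    Submodule.ext fun v => S.mem_Eu]

/-- the stable directions are uniformly transverse to the unstable axis -/
theorem slope (S : Sys Γ X B E V) : ∃ C : ℝ, ∀ x, ∀ a ∈ ball (0 : E) (1 / 2), ∃ y,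
    S.pt y = S.c x (S.iU a) ∧ ∀ v ∈ S.Es, ‖S.TV.A y x 0 v‖ ≤ C * ‖S.pS (S.TV.A y x 0 v)‖ := by
  obtain ⟨D, hD⟩ := S.fr_near (a := 1 / 2) (by norm_num)
  obtain ⟨C, h0, hC⟩ := S.unif_bd S.TV.jc S.TV.smul D (a := 1 / 2) (by norm_num) 0
  refine ⟨C * C, fun x a ha => ?_⟩
  have n1 : ‖S.iU a‖ ≤ 1 / 2 := by rw [S.norm_iU]; exact (mem_ball_zero_iff.1 ha).le
  have a1 : a ∈ ball (0 : E) 1 := ball_subset_ball (by norm_num) ha
  obtain ⟨y, hy, d⟩ := hD x _ n1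
  have h1 := Sys.zero_dom' (S.iU_mem.2 a1) hy
  have e := Sys.τ_zero' (S.iU_mem.2 a1) hy
  have b1 := hC y x (by rwa [dist_comm]) 0 h1 (by simp) (e.symm ▸ n1) 0 le_rfl
  have b2 := hC x y d _ (Sys.τ_dom h1) (e.symm ▸ n1) (by rw [Sys.τ_τ h1]; simp) 0 le_rfl
  rw [norm_iteratedFDeriv_zero] at b1 b2
  refine ⟨y, hy, fun v hv => ?_⟩
  have h2 : S.pS v = S.pS (S.TV.A x y (S.τ y x 0) (S.iS (S.pS (S.TV.A y x 0 v)))) := by
    conv_lhs => rw [← S.TV.inv_apply h1 v, ← S.iS_add (S.TV.A y x 0 v), map_add, map_add]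
    rw [add_eq_left]
    exact Sys.pS_fderiv_τ ((congrArg Prod.fst hy).trans (S.c_iU x a1)).symm (Sys.τ_dom h1)
      (by rw [e, S.pS_iU]) _
  have h3 : ‖v‖ ≤ C * ‖S.pS (S.TV.A y x 0 v)‖ := by
    rw [← S.iS_pS (S.mem_Es.1 hv), S.norm_iS, S.iS_pS (S.mem_Es.1 hv), h2]
    refine (S.norm_pS_le _).trans ((ContinuousLinearMap.le_of_opNorm_le _ b2 _).trans_eq ?_)
    rw [S.norm_iS]
  exact (ContinuousLinearMap.le_of_opNorm_le _ b1 v).trans
    ((mul_le_mul_of_nonneg_left h3 h0).trans_eq (mul_assoc _ _ _).symm)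

end Ident

open Ident

section Ident

variable {H₁ H₂ H₃ : SSub S.TV}

theorem at_le (P : Prob S Y) {W W' : SSub 𝔉} (h : ∀ᵐ x ∂S.μ, W.H x ≤ W'.H x) :
    ∀ᵐ y ∂S.μ, ∀ (k : ℕ) x Q Q', (0 : V) ∈ S.dom y x → Idm k Q (S.τ y x 0) →
      Idm k Q' (S.τ y x 0) → W.At k x Q y → W'.At k x Q' y →
      Flat k (fun q => cmp Q' q ∘L Q q) (S.τ y x 0) := by
  filter_upwards [ae_all_iff.2 fun k : ℕ => W.incl W' h (le_refl k) le_rfl]
    with y hy k x Q Q' h0 hQ hQ' a a'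
  exact 𝔉.flat_move h0 (cont hQ) (idem hQ) (a'.1.trans ((hy k).trans a.2))
theorem at_br (P : Prob S Y) (h : Br H₁ H₂ H₃) :
    ∀ᵐ y ∂S.μ, ∀ (k : ℕ) x Q₁ Q₂ Q₃, (0 : V) ∈ S.dom y x → Idm (k + 1 : ℕ) Q₁ (S.τ y x 0) →
      Idm (k + 1 : ℕ) Q₂ (S.τ y x 0) → Idm (k + 1 : ℕ) Q₃ (S.τ y x 0) → H₁.At (k + 1) x Q₁ y →
      H₂.At (k + 1) x Q₂ y → H₃.At (k + 1) x Q₃ y → ∀ v w, Flat k (fun q => cmp Q₃ q
        (lieBracket ℝ (fun p => Q₁ p v) (fun p => Q₂ p w) q)) (S.τ y x 0) := by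
  filter_upwards [h, H₁.at_sec, H₂.at_sec, H₃.at_sec, H₃.at_mono]
    with y hy s1 s2 s3 m3 k x Q₁ Q₂ Q₃ h0 i1 i2 i3 a1 a2 a3 v w
  have h1 := hy k _ _ ((s1 _ x Q₁ _ h0 i1 a1 (sm_apply i1 v)).2 (flat_self i1 v))
    ((s2 _ x Q₂ _ h0 i2 a2 (sm_apply i2 w)).2 (flat_self i2 w))
  refine (s3 k x Q₃ _ h0 (i3.of_le (by exact_mod_cast k.le_succ)) (m3 _ _ x Q₃ k.le_succ a3)
    ((sm_apply i1 v).lieBracket_vectorField (sm_apply i2 w) (by exact_mod_cast le_rfl))).1 ?_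
  have t := (Sys.differentiableAt_τ h0).continuousAt
  have e : (fun q => S.TV.A x y (S.τ y x q) (lieBracket ℝ (fun p => Q₁ p v) (fun p => Q₂ p w)
      (S.τ y x q))) =ᶠ[𝓝 0] lieBracket ℝ (fun q => S.TV.A x y (S.τ y x q) (Q₁ (S.τ y x q) v))
        fun q => S.TV.A x y (S.τ y x q) (Q₂ (S.τ y x q) w) := by
    filter_upwards [Sys.dom_nhds h0, t.eventually i1.ev, t.eventually i2.ev] with q hq j1 j2
    rw [← pull_eq hq, pullback_lieBracket (n := ∞) (by simp; exact WithTop.coe_le_coe.2 le_top)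
      (Sys.contDiffAt_τ hq) ((sm_apply j1 v).differentiableAt (by simp))
      ((sm_apply j2 w).differentiableAt (by simp))]
    exact EventuallyEq.lieBracket_vectorField_eq
      (mem_of_superset (Sys.dom_nhds hq) fun p hp => pull_eq hp _)
      (mem_of_superset (Sys.dom_nhds hq) fun p hp => pull_eq hp _)
  exact ⟨h1.1.congr_of_eventuallyEq e, h1.2.congr (e.mono fun q hq => congrArg _ hq)⟩
theorem at_om (P : Prob S Y) (h : ∀ᵐ x ∂S.μ, ∀ v ∈ H₁.H x, ∀ w ∈ H₂.H x, S.om v w = 0) :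
    ∀ᵐ y ∂S.μ, ∀ (k : ℕ) x Q₁ Q₂, (0 : V) ∈ S.dom y x → Idm k Q₁ (S.τ y x 0) →
      Idm k Q₂ (S.τ y x 0) → H₁.At k x Q₁ y → H₂.At k x Q₂ y →
      ∀ v w, Flat k (fun q => S.om (Q₁ q v) (Q₂ q w)) (S.τ y x 0) := by
  have h' := sec_form P (𝔉 := S.TV) (𝔉₂ := S.TV) S.om (fun x y q hq u v => Sys.om_τ hq u v)
    (W₁ := H₁) (W₂ := H₂) h
  filter_upwards [h', H₁.at_sec, H₂.at_sec] with y hy s1 s2 k x Q₁ Q₂ h0 i1 i2 a1 a2 v w
  refine flat_of_τ h0 ((hy k _ _ ((s1 _ x Q₁ _ h0 i1 a1 (sm_apply i1 v)).2 (flat_self i1 v))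
    ((s2 _ x Q₂ _ h0 i2 a2 (sm_apply i2 w)).2 (flat_self i2 w))).congr ?_)
  filter_upwards [Sys.dom_nhds h0] with q hq
  exact (Sys.om_τ (Sys.τ_dom hq) _ _).symm
theorem Idm.prp {k : WithTop ℕ∞} {Q : V → V →L[ℝ] V} {z : V} (h : Idm k Q z) :
    Idm k (S.prp Q) z := by
  refine h.mono fun q hq => ⟨contDiffAt_const.sub (S.adj.contDiff.contDiffAt.comp q hq.1), ?_⟩
  have e : S.adj (Q q) * S.adj (Q q) = S.adj (Q q) := ContinuousLinearMap.ext fun w =>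
    sub_eq_zero.1 (om_inj' (S := S) fun v => by
      rw [map_sub, ContinuousLinearMap.mul_apply, S.om_adj, S.om_adj, S.om_adj,
        ← ContinuousLinearMap.mul_apply, hq.2, sub_self])
  simp only [Sys.prp, mul_sub, sub_mul, one_mul, mul_one, e, sub_self, sub_zero]
theorem range_prp {Q : V → V →L[ℝ] V} {z : V} (h : Q z * Q z = Q z) :
    (S.prp Q z).range = S.perp (Q z).range := by
  ext v
  constructor
  · rintro ⟨u, rfl⟩ _ ⟨a, rfl⟩
    show S.om (Q z a) (u - S.adj (Q z) u) = 0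
    rw [map_sub, S.om_adj, ← ContinuousLinearMap.mul_apply, h, sub_self]
  · intro hv
    refine ⟨v, ?_⟩
    show v - S.adj (Q z) v = v
    rw [om_inj' (S := S) (u := S.adj (Q z) v) fun u => by rw [S.om_adj]; exact hv _ ⟨u, rfl⟩,
      sub_zero]
theorem at_prp (P : Prob S Y) (h : ∀ᵐ x ∂S.μ, H₂.H x = S.perp (H₁.H x)) :
    ∀ᵐ y ∂S.μ, ∀ (k : ℕ) x Q, (0 : V) ∈ S.dom y x → Idm k Q (S.τ y x 0) → H₁.At k x Q y →
      H₂.At k x (S.prp Q) y := by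
  filter_upwards [h, at_om P (H₁ := H₁) (H₂ := H₂) (h.mono fun x e v hv w hw => (e.le hw) v hv),
    ae_all_iff.2 H₂.at_self, ae_all_iff.2 H₂.idm_J, H₁.at_val, H₂.at_val]
    with y e o s j v1 v2 k x Q h0 i a
  have a2 := (H₂.at_conj (Sys.zero_dom rfl) h0).2 (s k y rfl)
  have i2 : Idm k (S.TV.conj x y (H₂.J k y)) (S.τ y x 0) :=
    Idm.conj (by exact_mod_cast le_top) (Sys.τ_dom h0) ((Sys.τ_τ h0).symm ▸ j k)
  have r : (S.TV.conj x y (H₂.J k y) (S.τ y x 0)).range = (S.prp Q (S.τ y x 0)).range := by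
    rw [range_prp i.self_of_nhds.2, v1 k x Q h0 i a, v2 k x _ h0 i2 a2, e]
    ext u
    constructor
    · rintro ⟨w, hw, rfl⟩ _ ⟨w', hw', rfl⟩
      exact (Sys.om_τ h0 w' w).trans (hw w' hw')
    · intro hu
      refine ⟨S.TV.A x y (S.τ y x 0) u, fun w hw => ?_, S.TV.inv_apply' h0 u⟩
      rw [← Sys.om_τ h0]
      exact (congrArg _ (S.TV.inv_apply' h0 u)).trans (hu _ ⟨w, hw, rfl⟩)
  refine H₂.at_of_flat h0 i2 i.prp a2 (flat_symm i2 i.prp (flat_clm_iff.2 fun w => ?_) r) (by rw [r])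
  refine (Flat.clm S.omInv (f := fun q => S.om (S.adj (Q q) (S.TV.conj x y (H₂.J k y) q w)))
    (flat_clm_iff.2 fun v => (o k x Q _ h0 i i2 a a2 v w).neg.congr
      (Eventually.of_forall fun q => ?_))).congr (Eventually.of_forall fun q => ?_)
  · exact (S.om_anti _ _).trans (congrArg _ (S.om_adj _ _ _))
  · simp [S.omInv_om, cmp, Sys.prp]
/-- a subbundle of `E^s` is tangent to the stable leaves -/
theorem sExt_tan (h : ∀ᵐ x ∂S.μ, H₁.H x ≤ S.Es) : ∀ᵐ η ∂S.ν, ∀ x, S.ep x = η → ∀ k Q,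
    H₁.SExt k x Q → ∀ᶠ w in 𝓝 (0 : E), ∀ v, S.pU (Q (S.iS w) v) = 0 := by
  filter_upwards [ae_lS (h.and H₁.at_val)] with η hη x hx k Q ⟨i, ρ, hρ, a⟩
  obtain ⟨r, r0, r1, r2, hr⟩ := exists_r i.ev hρ
  have r3 : r ≤ 1 := by linarith
  filter_upwards [ball_mem_nhds (0 : E) r0] with w hw v
  refine (axisS (k := 0) (g := fun q => S.pU (Q q v)) ((a.and (hη x hx ρ)).mono r1
    fun y e hy b h0 => ?_) hw (ball_subset_ball r3 hw) (S.pU.contDiff.contDiffAt.comp _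
      ((sm_apply (hr _ (S.iS_mem.2 hw)) v).of_le (by exact_mod_cast k.zero_le)))).eq_zero
  have j := hr _ (τ_mem r3 hy)
  refine flat_zero_of_cont (S.pU.continuous.continuousAt.comp (sm_apply j v).continuousAt) ?_
  obtain ⟨u, hu, e'⟩ := (b.2.2 k x Q h0 j b.1).le ⟨v, rfl⟩
  refine (congrArg S.pU e'.symm).trans ?_
  rw [← S.iS_pS (S.mem_Es.1 (b.2.1 hu))]
  exact Sys.pU_fderiv_τ e h0 (map_zero _) _
theorem at_tan (h : ∀ᵐ x ∂S.μ, H₁.H x ≤ S.Es) : ∀ᵐ y ∂S.μ, ∀ (k : ℕ) Q, Idm k Q 0 →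
    H₁.At k y Q y → Flat k (fun w => S.pU ∘L Q (S.iS w)) 0 := by
  filter_upwards [Sys.ae_of_ep (sExt_tan h), ae_all_iff.2 fun k => (H₁.extS k).ae]
    with y t e k Q i a
  obtain ⟨n, P, hP, e1, e2⟩ := e k
  have j := hP.idm (rad_mem n)
  have z0 : S.τ y y 0 = 0 := Sys.τ_zero rfl
  have h1 := H₁.at_flat (Sys.zero_dom rfl) (z0.symm ▸ j) (z0.symm ▸ i) (e1 y rfl) a
  rw [z0, ← map_zero S.iS] at h1
  refine ((h1.comp S.iS.differentiableAt).comp_right (M := fun _ => S.pU)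
    continuousAt_const).congr ?_
  filter_upwards [t y rfl k P ⟨j, rad n, rad_pos n, e2⟩] with w hw
  ext v
  simp [cmp, hw]
/-- from typical points to all the points of the axis -/
theorem flat_axisU {k : ℕ} {x : X} {ρ : ℝ} (hρ : 0 < ρ) {g : V → G} (hg : ContDiffAt ℝ k g 0)
    (h : S.AlongU x ρ fun y => (0 : V) ∈ S.dom y x → Flat k g (S.τ y x 0)) :
    ∀ᶠ a in 𝓝 (0 : E), Flat k g (S.iU a) := by
  filter_upwards [ball_mem_nhds (0 : E) hρ, ball_mem_nhds (0 : E) one_pos,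
    (S.iU.continuous.tendsto' 0 0 (map_zero _)).eventually (hg.eventually (by simp))] with a a1 a2 a3
  exact axisU h a1 a2 a3
theorem flat_axisS {k : ℕ} {x : X} {ρ : ℝ} (hρ : 0 < ρ) {g : V → G} (hg : ContDiffAt ℝ k g 0)
    (h : S.AlongS x ρ fun y => (0 : V) ∈ S.dom y x → Flat k g (S.τ y x 0)) :
    ∀ᶠ w in 𝓝 (0 : E), Flat k g (S.iS w) := by
  filter_upwards [ball_mem_nhds (0 : E) hρ, ball_mem_nhds (0 : E) one_pos,
    (S.iS.continuous.tendsto' 0 0 (map_zero _)).eventually (hg.eventually (by simp))] with a a1 a2 a3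
  exact axisS h a1 a2 a3

theorem Data.iso {F' C Z : SSub S.TV} (h : Data F' C Z) :
    ∀ᵐ x ∂S.μ, ∀ v ∈ Z.H x, ∀ w ∈ Z.H x, S.om v w = 0 := by
  filter_upwards [h.F_le, h.C_eq, h.Z_le, h.Z_C] with x h1 h2 h3 h4 v hv w hw
  obtain ⟨f, hf, u, hu, rfl⟩ := Submodule.mem_sup.1 (h3 hv)
  have a1 : S.om f w = 0 := h2.le (h4 hw) f hf
  obtain ⟨f', hf', u', hu', rfl⟩ := Submodule.mem_sup.1 (h3 hw)
  have a2 : S.om f' (f + u) = 0 := h2.le (h4 hv) f' hf'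
  have a3 : S.om f' f = 0 := by simp [S.om_apply, S.mem_Es.1 (h1 hf), S.mem_Es.1 (h1 hf')]
  have a4 : S.om u u' = 0 := by simp [S.om_apply, S.mem_Eu.1 hu, S.mem_Eu.1 hu']
  rw [map_add, a3, zero_add] at a2
  rw [map_add S.om, ContinuousLinearMap.add_apply, a1, zero_add, map_add, a4, S.om_anti, a2]
  simp

/-- the field `ZU` of the end game -/
theorem Data.zu (P : Prob S Y) {F' C Z : SSub S.TV} (h : Data F' C Z) : ∀ᵐ ξ ∂S.ν, ∀ x,
    S.em x = ξ → ∀ (L : ℕ) Q, Idm ∞ Q 0 → Z.UExt (L + 1) x Q → S.ZU L Q := by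
  obtain ⟨d, d1, d2⟩ := F'.uExt_rank P
  obtain ⟨K, hK⟩ := slope S
  filter_upwards [d2, F'.smoothU P, ae_lU (at_br P h.brZZ), ae_lU (at_om P h.iso),
    ae_lU (at_le P (h.F_Z.mono fun _ h => h.le)),
    ae_lU (d1.and (h.F_le.and (h.Z_le.and (F'.at_val.and Z.at_val))))]
    with ξ d2 sm b o l t x hx L Q i ⟨_, ρ, hρ, a⟩
  obtain ⟨Q', i', u'⟩ := sm x hx (L + 1)
  have d3 := d2 x hx _ Q' u'
  obtain ⟨-, ρ', hρ', a'⟩ := u'
  obtain ⟨r, r0, r1, r2, hr⟩ := exists_r ((i.ev.and i'.ev).and (i.rank.and i'.rank)) (lt_min hρ hρ')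
  have r3 : r ≤ 1 := by linarith
  have le : ∀ m : ℕ, (m : WithTop ℕ∞) ≤ ∞ := fun m => by exact_mod_cast le_top
  have A := (a.mono (r1.trans (min_le_left _ _)) fun _ _ _ h => h).and
    (a'.mono (r1.trans (min_le_right _ _)) fun _ _ _ h => h)
  have sc : ∀ q ∈ ball (0 : V) r, ContDiffAt ℝ ∞ (cmp Q) q := fun q hq =>
    contDiffAt_const.sub (hr q hq).1.1.self_of_nhds.1
  refine ⟨i, ⟨Module.finrank ℝ (Q 0).range - d, ?_⟩, ?_, ?_⟩
  · filter_upwards [ball_mem_nhds (0 : E) r0] with u hu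
    have hu1 := ball_subset_ball r3 hu
    have j := hr _ (S.iU_mem.2 hu)
    have f := (freqU ((A.and (t x hx r)).mono le_rfl fun y e hy b => And.intro e
      (And.intro (hr _ (τ_mem r3 hy)).1 b)) hu hu1).and_eventually (isOpen_ball.mem_nhds hu)
    have c : ∀ {Q : V → V →L[ℝ] V}, Idm ∞ Q (S.iU u) → ContinuousAt (fun b => Q (S.iU b)) u :=
      fun h => ContinuousAt.comp (cont h) S.iU.continuous.continuousAt
    have e1 : (Q' (S.iU u)).range ≤ (Q (S.iU u)).range := by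
      have := (axisU (k := L + 1) (g := fun q => cmp Q q ∘L Q' q) ((A.and (l x hx r)).mono le_rfl
        fun y _ hy b h0 => b.2 _ x Q' Q h0 ((hr _ (τ_mem r3 hy)).1.2.of_le (le _))
          ((hr _ (τ_mem r3 hy)).1.1.of_le (le _)) b.1.2 b.1.1) hu hu1
        (((sc _ (S.iU_mem.2 hu)).clm_comp j.1.2.self_of_nhds.1).of_le (le _))).eq_zero
      rintro _ ⟨v, rfl⟩
      exact ⟨_, (sub_eq_zero.1 (congrArg (· v) this)).symm⟩
    have e2 : (Q' (S.iU u)).range ⊓ S.Eu = ⊥ := by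
      refine eq_bot_iff.2 ?_
      rintro _ ⟨⟨v, rfl⟩, hv⟩
      have c1 := (c j.1.2).clm_apply (continuousAt_const (y := v))
      have : ‖Q' (S.iU u) v‖ ≤ K * ‖S.pS (Q' (S.iU u) v)‖ := by
        refine le_of_tendsto_of_tendsto_of_frequently c1.norm.tendsto
          (continuousAt_const.mul (S.pS.continuous.continuousAt.comp c1).norm).tendsto
          (f.mono fun b ⟨⟨b1, _, b2⟩, b3⟩ => ?_)
        obtain ⟨y, hy, k⟩ := hK x b (ball_subset_ball r2 b3)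
        obtain ⟨-, p1, p2, -, p3, -, p4, -⟩ := b2 y hy
        have p5 := p4 _ x Q' (Sys.zero_dom' (S.iU_mem.2 b1) hy) (p1.2.of_le (le _)) p2.2
        rw [Sys.τ_zero' (S.iU_mem.2 b1) hy] at p5
        obtain ⟨w, hw, e⟩ := p5.le ⟨v, rfl⟩
        have := k w (p3 hw)
        rwa [show S.TV.A y x 0 w = Q' (S.iU b) v from e] at this
      rw [show S.pS (Q' (S.iU u) v) = 0 from S.mem_Eu.1 hv, norm_zero, mul_zero] at this
      exact norm_le_zero_iff.1 this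
    have e3 : Module.finrank ℝ ((Q (S.iU u)).range.map (S.pS : V →ₗ[ℝ] E)) ≤ d := by
      by_contra hn
      have m : ∀ T : V →L[ℝ] V, S.pS ∘L T ∈ {f : V →L[ℝ] E | ((d + 1 : ℕ) : Cardinal) ≤
          (f : V →ₗ[ℝ] E).rank} ↔ d < Module.finrank ℝ (T.range.map (S.pS : V →ₗ[ℝ] E)) := by
        intro T
        rw [mem_setOf_eq, LinearMap.rank, ← Module.finrank_eq_rank, Nat.cast_le,
          ← LinearMap.range_comp]
        rfl
      obtain ⟨b, ⟨⟨b1, ⟨y, hy⟩, b2⟩, -⟩, b3⟩ := (f.and_eventually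
        ((continuousAt_const.clm_comp (c j.1.1)).eventually
          ((isOpen_setOfPred_nat_le_rank (d + 1)).mem_nhds ((m _).2 (not_le.1 hn))))).exists
      obtain ⟨e, p1, p2, p3, -, p4, -, p5⟩ := b2 y hy
      have h0 := Sys.zero_dom' (S.iU_mem.2 b1) hy
      have p6 := p5 _ x Q h0 (p1.1.of_le (le _)) p2.1
      rw [Sys.τ_zero' (S.iU_mem.2 b1) hy] at p6
      refine ((m _).1 b3).not_ge ?_
      rw [p6, ← p3, ← Submodule.map_comp]
      refine (Submodule.finrank_mono ?_).trans (Submodule.finrank_map_le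
        ((S.pS : V →ₗ[ℝ] E) ∘ₗ (S.TV.A y x 0 : V →ₗ[ℝ] V)) (F'.H y))
      rintro _ ⟨v, hv, rfl⟩
      obtain ⟨f, hf, g, hg, rfl⟩ := Submodule.mem_sup.1 (p4 hv)
      refine ⟨f, hf, ?_⟩
      rw [map_add, left_eq_add, ← S.iU_pU (S.mem_Eu.1 hg)]
      exact Sys.pS_fderiv_τ e h0 (map_zero _) _
    have e4 := rn (S := S) (Q' (S.iU u)).range
    have e5 := rn (S := S) (Q (S.iU u)).range
    have e6 := Submodule.finrank_mono (Submodule.map_mono (f := (S.pS : V →ₗ[ℝ] E)) e1)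
    rw [e2, finrank_bot, j.2.2, d3] at e4
    rw [j.2.1] at e5
    omega
  · filter_upwards [ball_mem_nhds (0 : E) r0] with u hu v w
    have j := (hr _ (S.iU_mem.2 hu)).1.1
    refine axisU ((A.and (b x hx r)).mono le_rfl fun y _ hy b h0 => ?_) hu (ball_subset_ball r3 hu)
      (((sc _ (S.iU_mem.2 hu)).of_le (le _)).clm_apply
        ((sm_apply j v).lieBracket_vectorField (sm_apply j w) (by exact_mod_cast le_top)))
    have j' := (hr _ (τ_mem r3 hy)).1.1.of_le (le (L + 1))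
    exact b.2 L x Q Q Q h0 j' j' j' b.1.1 b.1.1 b.1.1 v w
  · filter_upwards [ball_mem_nhds (0 : E) r0] with u hu v w
    have j := (hr _ (S.iU_mem.2 hu)).1.1.of_le (le 1)
    refine axisU ((A.and (o x hx r)).mono le_rfl fun y _ hy b h0 => ?_) hu (ball_subset_ball r3 hu)
      ((S.om.contDiff.contDiffAt.comp _ (sm_apply j v)).clm_apply (sm_apply j w))
    have j' := (hr _ (τ_mem r3 hy)).1.1.of_le (le (L + 1))
    exact (b.2 _ x Q Q h0 j' j' b.1.1 b.1.1 v w).mono (by omega)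

end Ident

end Vale.Agent.P207Z
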