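import Vale.Agent.P207Z.Real.Slc

/-!
# P207 REAL: a parallel subbundle, along the leaves
-/

set_option linter.all false

open Set Filter Topology Metric VectorField
open scoped ContDiff

noncomputable section

namespace Vale.Agent.P207Z

variable {Γ X B E V : Type} [Group Γ] [Countable Γ] [MetricSpace X] [ProperSpace X]
  [MulAction Γ X] [IsIsometricSMul Γ X] [MeasurableSpace X] [BorelSpace X]
  [TopologicalSpace B] [CompactSpace B] [T2Space B] [SecondCountableTopology B] [MulAction Γ B]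
  [ContinuousConstSMul Γ B] [MeasurableSpace B] [BorelSpace B]
  [NormedAddCommGroup E] [InnerProductSpace ℝ E] [FiniteDimensional ℝ E]
  [NormedAddCommGroup V] [NormedSpace ℝ V] [FiniteDimensional ℝ V]
  {A W G : Type} [NormedAddCommGroup A] [NormedSpace ℝ A] [FiniteDimensional ℝ A]
  [NormedAddCommGroup W] [NormedSpace ℝ W] [FiniteDimensional ℝ W]
  [NormedAddCommGroup G] [NormedSpace ℝ G] {S : Sys Γ X B E V}

namespace PropAux

variable {k : ℕ} {P P' : V → V →L[ℝ] V} {Q : G → V} {u : G} {z : V}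

theorem fd_app {F : Type} [NormedAddCommGroup F] [NormedSpace ℝ F] {M : G → F →L[ℝ] V}
    (hM : DifferentiableAt ℝ M u) (v : F) :
    HasFDerivAt (fun u => M u v) ((fderiv ℝ M u).flip v) u := by
  simpa using hM.hasFDerivAt.clm_apply (hasFDerivAt_const v u)

theorem d2 (hQ : ContDiffAt ℝ 2 Q u) : DifferentiableAt ℝ (fderiv ℝ Q) u :=
  (hQ.fderiv_right (m := 1) (by norm_num)).differentiableAt one_ne_zero

theorem sym (hQ : ContDiffAt ℝ 2 Q u) (v w : G) :
    fderiv ℝ (fderiv ℝ Q) u v w = fderiv ℝ (fderiv ℝ Q) u w v :=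
  (hQ.isSymmSndFDerivAt (by rw [minSmoothness_of_isRCLikeNormedField])).eq v w

theorem fd_cmp (hQ : ContDiffAt ℝ 2 Q u) (hP : DifferentiableAt ℝ P (Q u)) (v w : G) :
    fderiv ℝ (fun u => cmp P (Q u) (fderiv ℝ Q u v)) u w =
      cmp P (Q u) (fderiv ℝ (fderiv ℝ Q) u w v)
        - fderiv ℝ P (Q u) (fderiv ℝ Q u w) (fderiv ℝ Q u v) := by
  have h1 : HasFDerivAt (fun u => cmp P (Q u)) (-(fderiv ℝ P (Q u) ∘L fderiv ℝ Q u)) u :=
    (hP.hasFDerivAt.comp u (hQ.differentiableAt two_ne_zero).hasFDerivAt).const_sub 1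
  rw [(h1.clm_apply (fd_app (d2 hQ) v)).fderiv, sub_eq_add_neg]
  rfl

theorem fd_bil (β : V →L[ℝ] V →L[ℝ] ℝ) (hQ : ContDiffAt ℝ 2 Q u) (v v' w : G) :
    fderiv ℝ (fun u => β (fderiv ℝ Q u v) (fderiv ℝ Q u v')) u w =
      β (fderiv ℝ Q u v) (fderiv ℝ (fderiv ℝ Q) u w v')
        + β (fderiv ℝ (fderiv ℝ Q) u w v) (fderiv ℝ Q u v') := by
  have h1 : HasFDerivAt (fun u => β (fderiv ℝ Q u v)) _ u :=
    β.hasFDerivAt.comp u (fd_app (d2 hQ) v)
  rw [(h1.clm_apply (fd_app (d2 hQ) v')).fderiv]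
  rfl

theorem fd_idm (hP : DifferentiableAt ℝ P z) (hi : ∀ᶠ q in 𝓝 z, P q * P q = P q) (v y : V) :
    P z (fderiv ℝ P z v y) + fderiv ℝ P z v (P z y) = fderiv ℝ P z v y := by
  have h1 := (hP.hasFDerivAt.clm_apply (fd_app hP y)).congr_of_eventuallyEq
    (f₁ := fun q => P q y) (hi.mono fun q hq => (DFunLike.congr_fun hq y).symm)
  exact DFunLike.congr_fun (h1.unique (fd_app hP y)) v

theorem cd_cmp (hQ : ContDiffAt ℝ (k + 2 : ℕ) Q u) (hP : ContDiffAt ℝ (k + 1 : ℕ) P (Q u))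
    (v : G) : ContDiffAt ℝ (k + 1 : ℕ) (fun u => cmp P (Q u) (fderiv ℝ Q u v)) u :=
  (contDiffAt_const.sub (hP.comp u (hQ.of_le (by norm_cast; omega)))).clm_apply
    ((hQ.fderiv_right (by norm_cast)).clm_apply contDiffAt_const)

theorem ev2 (hQ : ContDiffAt ℝ (k + 2 : ℕ) Q u) : ∀ᶠ u' in 𝓝 u, ContDiffAt ℝ 2 Q u' :=
  (hQ.of_le (by norm_cast; omega)).eventually (by simp)

/-- the bracket of two fields of projections -/
def brk (P P' : V → V →L[ℝ] V) (q : V) : V →L[ℝ] V →L[ℝ] V :=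
  ContinuousLinearMap.compL ℝ V V V (cmp P' q) ∘L
    (fderiv ℝ P' q ∘L P q - (fderiv ℝ P q ∘L P' q).flip)

theorem brk_eq (hP : DifferentiableAt ℝ P z) (hP' : DifferentiableAt ℝ P' z) (v w : V) :
    brk P P' z v w = cmp P' z (lieBracket ℝ (fun z => P z v) (fun z => P' z w) z) := by
  rw [lieBracket, (fd_app hP v).fderiv, (fd_app hP' w).fderiv]
  rfl

/-- the linear part of the equation -/
def lin (P P' : V → V →L[ℝ] V) (q : V) (D : W →L[ℝ] V) : V →L[ℝ] W →L[ℝ] V :=
  (ContinuousLinearMap.compL ℝ W V V).flip D ∘L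
    (ContinuousLinearMap.compL ℝ V V V (cmp P' q) ∘L fderiv ℝ P q - (fderiv ℝ P' q).flip)

theorem lin_apply (q : V) (D : W →L[ℝ] V) (d : V) (e : W) :
    lin P P' q D d e = cmp P' q (fderiv ℝ P q d (D e)) - fderiv ℝ P' q (D e) d := rfl

end PropAux

open PropAux

theorem tan_prop {k : ℕ} {P P' : V → V →L[ℝ] V} {Q : A × W → V} {p : A × W}
    (hQ : ContDiffAt ℝ (k + 2 : ℕ) Q p) (hP : Idm (k + 1 : ℕ) P (Q p))
    (hP' : Idm (k + 1 : ℕ) P' (Q p)) (ht : ∀ e, TanTo (k + 1) P Q p (0, e))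
    (hle : Flat (k + 1) (fun q => cmp P' q ∘L P q) (Q p))
    (hbr : ∀ v w, Flat k (fun q => cmp P' q
      (lieBracket ℝ (fun z => P z v) (fun z => P' z w) q)) (Q p))
    {a : A} (h0 : cmp P' (Q p) (fderiv ℝ Q p (a, 0)) = 0) :
    Flat (k + 1) (fun s => cmp P' (Q (p.1, s)) (fderiv ℝ Q (p.1, s) (a, 0))) p.2 := by
  have hk : ((k + 1 : ℕ) : WithTop ℕ∞) ≠ 0 := by norm_cast
  have hd := (ev2 hQ).self_of_nhds.differentiableAt two_ne_zero
  have hc := hd.continuousAt
  have cP := hP.self_of_nhds.1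
  have cP' := hP'.self_of_nhds.1
  have c1 : ContinuousAt (fun u => cmp P' (Q u)) p := continuousAt_const.sub (cP'.continuousAt.comp hc)
  have c2 : ContinuousAt (fun u => fderiv ℝ P (Q u)) p :=
    (cP.fderiv_right (m := 0) (by norm_cast; omega)).continuousAt.comp hc
  have c3 : ContinuousAt (fun u => fderiv ℝ P' (Q u)) p :=
    (cP'.fderiv_right (m := 0) (by norm_cast; omega)).continuousAt.comp hc
  have c4 : ∀ v, ContinuousAt (fun u => fderiv ℝ Q u v) p := fun v =>
    (d2 (ev2 hQ).self_of_nhds).continuousAt.clm_apply continuousAt_const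
  have c5 : ∀ v w, ContinuousAt (fun u => fderiv ℝ (fderiv ℝ Q) u v w) p := fun v w =>
    ((((ev2 hQ).self_of_nhds.fderiv_right (m := 1) (by norm_num)).fderiv_right (m := 0)
      (by norm_num)).continuousAt.clm_apply continuousAt_const).clm_apply continuousAt_const
  set δ : A × W → V := fun u => cmp P' (Q u) (fderiv ℝ Q u (a, 0)) with hδ
  set M : A × W → V →L[ℝ] W →L[ℝ] V := fun u =>
    lin P P' (Q u) (fderiv ℝ Q u ∘L ContinuousLinearMap.inr ℝ A W) with hM
  have cM : ContinuousAt M p := continuousAt_clm_apply.2 fun d => continuousAt_clm_apply.2 fun e =>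
    (c1.clm_apply ((c2.clm_apply continuousAt_const).clm_apply (c4 (0, e)))).sub
      ((c3.clm_apply (c4 (0, e))).clm_apply continuousAt_const)
  have hR : Flat k (fun u => fderiv ℝ δ u ∘L ContinuousLinearMap.inr ℝ A W - M u (δ u)) p := by
    refine flat_clm_iff.2 fun e => ?_
    have F1 := ((hle.mono k.le_succ).comp hd).apply (c5 (a, 0) (0, e))
    have F2 := ((Flat.fderiv (ht e) (cd_cmp hQ cP _)).apply
      (continuousAt_const (y := ((a, 0) : A × W)))).bilin_right (ContinuousLinearMap.id ℝ _) c1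
    have F3 := flat_bilin_along (β := brk P P') (fun v w => (hbr v w).congr
      ((hP.and hP').mono fun q hq => brk_eq (hq.1.1.differentiableAt hk)
        (hq.2.1.differentiableAt hk) v w)) hd (c4 (0, e)) (c4 (a, 0))
    have F4 := ((((ht e).mono k.le_succ).bilin_right (ContinuousLinearMap.id ℝ _) c3).apply
      (c4 (a, 0))).bilin_right (ContinuousLinearMap.id ℝ _) c1
    refine (((F1.add F2).sub F3).sub F4).congr ?_
    filter_upwards [ev2 hQ, hc.eventually hP, hc.eventually hP'.eventually_nhds] with u h2 h3 h4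
    have h5 := h4.self_of_nhds.1.differentiableAt hk
    have h6 := fd_idm h5 (h4.mono fun _ h => h.2) (fderiv ℝ Q u (0, e)) (fderiv ℝ Q u (a, 0))
    change fderiv ℝ δ u (0, e) - lin P P' _ _ _ e = _
    rw [lin_apply, fd_cmp h2 h5, fd_cmp h2 (h3.1.differentiableAt hk), sym h2 (0, e)]
    simp only [hδ, cmp, brk, ContinuousLinearMap.comp_apply, ContinuousLinearMap.sub_apply,
      ContinuousLinearMap.id_apply, ContinuousLinearMap.one_apply, ContinuousLinearMap.inr_apply,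
      ContinuousLinearMap.compL_apply, ContinuousLinearMap.flip_apply, map_sub]
    linear_combination (norm := abel1) -h6
  have hι : ContinuousAt (fun s : W => (p.1, s)) p.2 := by fun_prop
  have hδd : ∀ᶠ u in 𝓝 p, DifferentiableAt ℝ δ u :=
    ((cd_cmp hQ cP' (a, 0)).eventually (by simp)).mono fun u hu => hu.differentiableAt hk
  refine flat_of_ode (g := fun s => δ (p.1, s)) (C := ‖M p‖ + 1)
    ((hι.eventually hδd).mono fun s hs => hs.comp s (by fun_prop)) h0 hR.slice.norm ?_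
  have hb := CalcAux.ev_bd (W := V →L[ℝ] W →L[ℝ] V) cM
  filter_upwards [hι.eventually hδd, hι.eventually hb] with s h1 h2
  have h3 : fderiv ℝ (fun s => δ (p.1, s)) s
      = fderiv ℝ δ (p.1, s) ∘L ContinuousLinearMap.inr ℝ A W :=
    ContinuousLinearMap.ext fun e => fderiv_slice (p := (p.1, s)) h1 e
  rw [h3]
  have h4 := (M (p.1, s)).le_of_opNorm_le h2 (δ (p.1, s))
  have h5 := norm_sub_norm_le (fderiv ℝ δ (p.1, s) ∘L ContinuousLinearMap.inr ℝ A W)
    (M (p.1, s) (δ (p.1, s)))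
  linarith

/-- the forms `om (∂s Q, ∂a Q)` are closed along the leaves -/
theorem om_closed {k : ℕ} {P : V → V →L[ℝ] V} {Q : A × W → V} {p : A × W}
    (hQ : ContDiffAt ℝ (k + 2 : ℕ) Q p) (hP : ContDiffAt ℝ (k + 1 : ℕ) P (Q p))
    (ht : ∀ e, TanTo (k + 1) P Q p (0, e))
    (hiso : ∀ v w, Flat (k + 1) (fun q => S.om (P q v) (P q w)) (Q p)) (a : A) (e e' : W) :
    Flat k (fun p' =>
      fderiv ℝ (fun u => S.om (fderiv ℝ Q u (0, e)) (fderiv ℝ Q u (a, 0))) p' (0, e')
        - fderiv ℝ (fun u => S.om (fderiv ℝ Q u (0, e')) (fderiv ℝ Q u (a, 0))) p' (0, e)) p := by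
  have hd := (ev2 hQ).self_of_nhds.differentiableAt two_ne_zero
  have c : ∀ v, ContDiffAt ℝ (k + 1 : ℕ) (fun u => fderiv ℝ Q u v) p := fun v =>
    (hQ.fderiv_right (by norm_cast)).clm_apply contDiffAt_const
  have F1 := flat_bilin_along (β := fun q => S.om.bilinearComp (P q) (P q)) hiso hd
    (c (0, e)).continuousAt (c (0, e')).continuousAt
  have F2 := Flat.bilin_left S.om (ht e) (c (0, e')).continuousAt
  have F3 := Flat.bilin_right S.om (ht e')
    ((hP.continuousAt.comp hd.continuousAt).clm_apply (c (0, e)).continuousAt)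
  have h : Flat (k + 1) (fun u => S.om (fderiv ℝ Q u (0, e)) (fderiv ℝ Q u (0, e'))) p := by
    refine ((F1.add F2).add F3).congr (Eventually.of_forall fun u => ?_)
    simp only [cmp, ContinuousLinearMap.bilinearComp_apply, ContinuousLinearMap.sub_apply,
      ContinuousLinearMap.one_apply, map_sub, Function.comp_apply]
    ring
  refine ((h.fderiv ((S.om.contDiff.contDiffAt.comp p (c (0, e))).clm_apply (c (0, e')))).apply
    (continuousAt_const (y := ((a, 0) : A × W)))).congr ((ev2 hQ).mono fun u hu => ?_)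
  beta_reduce
  rw [fd_bil _ hu, fd_bil _ hu, fd_bil _ hu, sym hu (0, e') (0, e), sym hu (0, e') (a, 0),
    sym hu (0, e) (a, 0), S.om_anti (fderiv ℝ Q u (0, e'))]
  ring

theorem Sys.FF.le_prp {k : ℕ} {P : V → V →L[ℝ] V} {z : V} (h : S.FF k P z) :
    Flat (k + 1) (fun q => cmp (S.prp P) q ∘L P q) z := by
  refine flat_clm_iff.2 fun v => ((flat_clm_iff (M := fun q => S.om (P q v) ∘L P q).2
    (h.iso v)).clm S.omInv).congr (Eventually.of_forall fun q => ?_)
  change (1 - (1 - S.adj (P q))) (P q v) = _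
  rw [sub_sub_cancel]
  rfl

end Vale.Agent.P207Z
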