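import Vale.Agent.P207Z.Real.Pot
import Vale.Agent.P207Z.Real.Prop
import Vale.Agent.P207Z.Real.Ident
import Vale.Agent.P207Z.An.FrobA

/-!
# P207 REAL: the affine parameter
-/

set_option linter.all false

open Set Filter Topology Metric VectorField
open scoped ContDiff

noncomputable section

namespace Vale.Agent.P207Z

variable {Γ X B E V : Type} [Group Γ] [Countable Γ] [MetricSpace X] [ProperSpace X]
  [MulAction Γ X] [IsIsometricSMul Γ X] [MeasurableSpace X] [BorelSpace X]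
  [TopologicalSpace B] [CompactSpace B] [T2Space B] [SecondCountableTopology B] [MulAction Γ B]
  [ContinuousConstSMul Γ B] [MeasurableSpace B] [BorelSpace B]
  [NormedAddCommGroup E] [InnerProductSpace ℝ E] [FiniteDimensional ℝ E]
  [NormedAddCommGroup V] [NormedSpace ℝ V] [FiniteDimensional ℝ V]
  {A W G : Type} [NormedAddCommGroup A] [NormedSpace ℝ A] [FiniteDimensional ℝ A]
  [NormedAddCommGroup W] [NormedSpace ℝ W] [FiniteDimensional ℝ W]
  [NormedAddCommGroup G] [NormedSpace ℝ G] {S : Sys Γ X B E V}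

namespace ParA

theorem le_infty (n : ℕ) : (n : WithTop ℕ∞) ≤ ∞ := WithTop.coe_le_coe.2 le_top

theorem inv_of_inj {m : W →L[ℝ] W →L[ℝ] ℝ} (h : ∀ e, m e = 0 → e = 0) : m.IsInvertible := by
  have h1 : Module.finrank ℝ W = Module.finrank ℝ (W →L[ℝ] ℝ) := by
    rw [← (LinearMap.toContinuousLinearMap (𝕜 := ℝ) (E := W) (F' := ℝ)).finrank_eq,
      Module.finrank_linearMap_self]
  exact ⟨((m : W →ₗ[ℝ] W →L[ℝ] ℝ).linearEquivOfInjective
    ((injective_iff_map_eq_zero _).2 h) h1).toContinuousLinearEquiv, by ext; rfl⟩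

theorem flip_surj {m : W →L[ℝ] W →L[ℝ] ℝ} (h : m.IsInvertible) (l : W →L[ℝ] ℝ) :
    ∃ a, ∀ e, m e a = l e := by
  obtain ⟨J, hJ⟩ := inv_of_inj (m := m.flip) fun a ha =>
    NormedSpace.eq_zero_of_forall_dual_eq_zero ℝ fun f => by
      obtain ⟨K, rfl⟩ := h
      obtain ⟨e, rfl⟩ := K.surjective f
      exact congrArg (fun L : W →L[ℝ] ℝ => L e) ha
  obtain ⟨a, rfl⟩ := J.surjective l
  exact ⟨a, fun e => (congrArg (fun L : W →L[ℝ] W →L[ℝ] ℝ => L a e) hJ).symm⟩

/-- the form `om (∂s Q, ∂a Q)` -/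
def alf (S : Sys Γ X B E V) (Q : A × W → V) (p : A × W) : W →L[ℝ] A →L[ℝ] ℝ :=
  (ContinuousLinearMap.compL ℝ A V ℝ).flip (fderiv ℝ Q p ∘L ContinuousLinearMap.inl ℝ A W) ∘L
    (S.om ∘L (fderiv ℝ Q p ∘L ContinuousLinearMap.inr ℝ A W))

variable {P : V → V →L[ℝ] V} {Q : A × W → V} {p : A × W} {k : ℕ}

theorem al_apply (e : W) (a : A) :
    alf S Q p e a = S.om (fderiv ℝ Q p (0, e)) (fderiv ℝ Q p (a, 0)) := rfl

theorem cd_D (h : ContDiffAt ℝ ∞ Q p) : ContDiffAt ℝ ∞ (fderiv ℝ Q) p :=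
  h.fderiv_right (by simp)

theorem cd_al (h : ContDiffAt ℝ ∞ Q p) : ContDiffAt ℝ ∞ (alf S Q) p := by
  have h1 : ContDiffAt ℝ ∞ (fun p' => fderiv ℝ Q p' ∘L ContinuousLinearMap.inl ℝ A W) p :=
    (cd_D h).clm_comp contDiffAt_const
  have h2 : ContDiffAt ℝ ∞ (fun p' => fderiv ℝ Q p' ∘L ContinuousLinearMap.inr ℝ A W) p :=
    (cd_D h).clm_comp contDiffAt_const
  exact (contDiffAt_const.clm_apply h1).clm_comp (contDiffAt_const.clm_comp h2)

theorem cont_D (h : ContDiffAt ℝ ∞ Q p) (w : A × W) : ContinuousAt (fun p' => fderiv ℝ Q p' w) p :=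
  (cd_D h).continuousAt.clm_apply continuousAt_const

/-- the directions in the kernel stay in the kernel along the leaf -/
theorem flat_ker (hQ : ContDiffAt ℝ ∞ Q p) (hF : S.FF k P (Q p))
    (ht : ∀ e, TanTo (k + 1) P Q p (0, e)) (hr : ∀ v, ∃ e, fderiv ℝ Q p (0, e) = P (Q p) v) {n : A}
    (hn : ∀ e, alf S Q p e n = 0) (e : W) :
    Flat (k + 1) (fun x => alf S Q (p.1, x) e n) p.2 := by
  have e1 : ∀ q, cmp (S.prp P) q = S.adj (P q) := fun q => sub_sub_cancel _ _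
  have h1 := tan_prop (hQ.of_le (le_infty _)) hF.sm hF.sm.prp ht hF.le_prp hF.brC (a := n) (by
    rw [e1]
    refine S.om_inj fun w => ?_
    obtain ⟨e, he⟩ := hr w
    rw [S.om_anti, S.om_adj, ← he, ← al_apply, hn, neg_zero])
  have hc : ∀ w, ContinuousAt (fun x => fderiv ℝ Q (p.1, x) w) p.2 := fun w =>
    ContinuousAt.comp (f := fun x : W => ((p.1, x) : A × W)) (cont_D hQ w) (by fun_prop)
  refine (((ht e).slice.bilin_left S.om (hc (n, 0))).add
    (h1.bilin_right S.om (hc (0, e)))).congr (Eventually.of_forall fun x => ?_)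
  simp only [e1, S.om_adj, al_apply]
  simp only [cmp, ContinuousLinearMap.sub_apply, ContinuousLinearMap.one_apply, map_sub]
  ring

/-- the leaves are isotropic -/
theorem flat_iso (hQ : ContDiffAt ℝ ∞ Q p) (hF : S.FF k P (Q p))
    (ht : ∀ e, TanTo (k + 1) P Q p (0, e)) :
    Flat (k + 1) (fun p' => S.om.bilinearComp (fderiv ℝ Q p' ∘L ContinuousLinearMap.inr ℝ A W)
      (fderiv ℝ Q p' ∘L ContinuousLinearMap.inr ℝ A W)) p := by
  refine flat_clm_iff.2 fun e => flat_clm_iff.2 fun e' => ?_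
  have h1 := flat_bilin_along (β := fun q => S.om.bilinearComp (P q) (P q)) hF.iso
    (hQ.differentiableAt (by simp)) (cont_D hQ (0, e)) (cont_D hQ (0, e'))
  have h2 : ContinuousAt (fun p' => P (Q p') (fderiv ℝ Q p' (0, e))) p :=
    (hF.sm.self_of_nhds.1.continuousAt.comp hQ.continuousAt).clm_apply (cont_D hQ _)
  refine (((Flat.bilin_left S.om (ht e) (cont_D hQ (0, e'))).add
    (Flat.bilin_right S.om (ht e') h2)).add h1).congr (Eventually.of_forall fun x => ?_)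
  simp only [cmp, ContinuousLinearMap.sub_apply, ContinuousLinearMap.one_apply, map_sub,
    ContinuousLinearMap.bilinearComp_apply, ContinuousLinearMap.comp_apply,
    ContinuousLinearMap.inr_apply]
  ring

/-- the form is closed along the leaves -/
theorem flat_cl (hQ : ContDiffAt ℝ ∞ Q p) (hQ' : ∀ᶠ p' in 𝓝 p, ContDiffAt ℝ ∞ Q p')
    (hF : S.FF k P (Q p)) (ht : ∀ e, TanTo (k + 1) P Q p (0, e)) (e e' : W) :
    Flat k (fun p' => fderiv ℝ (alf S Q) p' (0, e') e - fderiv ℝ (alf S Q) p' (0, e) e') p := by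
  refine flat_clm_iff.2 fun a => (om_closed (hQ.of_le (le_infty _)) hF.sm.self_of_nhds.1 ht hF.iso
    a e e').congr ?_
  filter_upwards [hQ'] with p' hp
  have h1 : ∀ u w, fderiv ℝ (fun u' => S.om (fderiv ℝ Q u' (0, u)) (fderiv ℝ Q u' (a, 0))) p' w
      = fderiv ℝ (alf S Q) p' w u a := fun u w => by
    have h2 := (((cd_al (S := S) hp).differentiableAt (by simp)).hasFDerivAt.clm_apply
      (hasFDerivAt_const u p')).clm_apply (hasFDerivAt_const a p')
    have h3 := h2.fderiv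
    simp only [al_apply] at h3
    rw [h3]
    simp
  rw [h1, h1]
  rfl

/-- the pairing with the transversal directions is perfect -/
theorem exists_j (hb : S.Base Q) (hF : (P 0).range ≤ S.Es)
    (hi : ∀ e, fderiv ℝ Q 0 (0, e) = 0 → e = 0) (ht : ∀ e, TanTo k P Q 0 (0, e)) :
    ∃ j : W →L[ℝ] A, ((ContinuousLinearMap.compL ℝ W A ℝ).flip j ∘L alf S Q 0).IsInvertible := by
  obtain ⟨J, hJ⟩ := hb.crd
  have hd := (hb.sm.self_of_nhds.differentiableAt (by simp)).hasFDerivAt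
  have h1 : ∀ a, S.pU (fderiv ℝ Q 0 (a, 0)) = J a := fun a => by
    have h2 := (S.pU.hasFDerivAt.comp (0 : A) (HasFDerivAt.comp (0 : A) (g := Q) hd
      (hasFDerivAt_prodMk_left (0 : A) (0 : W)))).unique hJ
    exact congrArg (fun L : A →L[ℝ] E => L a) h2
  refine ⟨(J.symm : E →L[ℝ] A) ∘L S.pS ∘L fderiv ℝ Q 0 ∘L ContinuousLinearMap.inr ℝ A W,
    inv_of_inj fun e he => hi e ?_⟩
  have h2 := (ht e).mem
  rw [hb.zero] at h2
  obtain ⟨w, hw⟩ := hF ⟨_, h2⟩
  have hw' : fderiv ℝ Q 0 (0, e) = S.iS w := hw.symm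
  have h3 : S.om (fderiv ℝ Q 0 (0, e))
      (fderiv ℝ Q 0 (J.symm (S.pS (fderiv ℝ Q 0 (0, e))), 0)) = 0 :=
    congrArg (fun L : W →L[ℝ] ℝ => L e) he
  rw [S.om_apply, h1, hw', S.pS_iS, S.pU_iS, inner_zero_left, sub_zero, J.apply_symm_apply,
    inner_self_eq_zero] at h3
  rw [hw', h3, map_zero]

/-- the potential, read in the coordinate `j` -/
theorem flat_sig {y : A} {j : W →L[ℝ] A} {Pt : W → A →L[ℝ] ℝ} (hQ : ContDiffAt ℝ ∞ Q (y, 0))
    (hF : S.FF k P (Q (y, 0))) (ht : ∀ e, TanTo (k + 1) P Q (y, 0) (0, e))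
    (hr : ∀ v, ∃ e, fderiv ℝ Q (y, 0) (0, e) = P (Q (y, 0)) v)
    (hm : ((ContinuousLinearMap.compL ℝ W A ℝ).flip j ∘L alf S Q (y, 0)).IsInvertible)
    (hp : Flat (k + 1) (fun x => fderiv ℝ Pt x - alf S Q (y, x)) 0) :
    Flat (k + 1) (fun x => alf S Q (y, x) - alf S Q (y, 0) ∘L
      ((((ContinuousLinearMap.compL ℝ W A ℝ).flip j ∘L alf S Q (y, 0)).inverse ∘L
        (ContinuousLinearMap.compL ℝ W A ℝ).flip j) ∘L fderiv ℝ Pt x)) 0 := by
  set c := (ContinuousLinearMap.compL ℝ W A ℝ).flip j with hc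
  set R := (c ∘L alf S Q (y, 0)).inverse ∘L c with hR
  refine flat_clm_iff.2 fun e => flat_clm_iff.2 fun a => ?_
  obtain ⟨a', ha⟩ := flip_surj hm ((alf S Q (y, 0)).flip a)
  have ha' : ∀ e, alf S Q (y, 0) e (j a') = alf S Q (y, 0) e a := ha
  have h1 := flat_ker (p := (y, 0)) hQ hF ht hr (n := a - j a')
    (fun e => by rw [map_sub, ha', sub_self]) e
  have h2 := ((hp.apply (s := fun _ => e) continuousAt_const).clm
    (alf S Q (y, 0) ∘L R)).apply (s := fun _ => a) continuousAt_const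
  refine (h1.sub h2).congr (Eventually.of_forall fun x => ?_)
  have h3 : alf S Q (y, 0) (R (alf S Q (y, x) e)) (j a') = alf S Q (y, x) e (j a') :=
    congrArg (fun L : W →L[ℝ] ℝ => L a') (hm.self_apply_inverse (c (alf S Q (y, x) e)))
  simp only [ContinuousLinearMap.sub_apply, ContinuousLinearMap.comp_apply, map_sub]
  rw [← h3, ha']
  ring

/-- the change of the parameter -/
theorem fml {σ θ : A × W → W} {y : A} (hQ : ContDiffAt ℝ ∞ Q (y, 0))
    (hF : S.FF k P (Q (y, 0))) (ht : ∀ e, TanTo (k + 1) P Q (y, 0) (0, e))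
    (h0 : S.Fml 0 P Q (fun y => alf S Q (y, 0)) (y, 0)) (hσ : ContDiffAt ℝ ∞ σ (y, 0))
    (hθ : ContDiffAt ℝ ∞ θ (y, 0)) (hθ0 : θ (y, 0) = 0)
    (hi : ∀ᶠ p in 𝓝 ((y, 0) : A × W), σ (p.1, θ p) = p.2)
    (hg : Flat (k + 1) (fun p => alf S Q p - alf S Q (p.1, 0) ∘L
      (fderiv ℝ σ p ∘L ContinuousLinearMap.inr ℝ A W)) (y, 0)) :
    S.Fml (k + 1) P (fun p => Q (p.1, θ p)) (fun y => alf S Q (y, 0)) (y, 0) := by
  set Θ : A × W → A × W := fun p => (p.1, θ p) with hΘ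
  have e0 : Θ (y, 0) = (y, 0) := by simp only [hΘ, hθ0]
  have cΘ : ContDiffAt ℝ ∞ Θ (y, 0) := contDiffAt_fst.prodMk hθ
  have dΘ := cΘ.differentiableAt (by simp)
  have ev : ∀ {G : Type} [NormedAddCommGroup G] [NormedSpace ℝ G] {f : A × W → G},
      ContDiffAt ℝ ∞ f (y, 0) → ∀ᶠ p in 𝓝 ((y, 0) : A × W), ∀ w,
        fderiv ℝ (fun p => f (Θ p)) p w = fderiv ℝ f (Θ p) (w.1, fderiv ℝ θ p w) := by
    intro G _ _ f hf
    have k1 := (hf.of_le (le_infty 1)).eventually (by simp)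
    rw [← e0] at k1
    filter_upwards [cΘ.continuousAt.eventually k1,
      (hθ.of_le (le_infty 1)).eventually (by simp)] with p k2 k3 w
    have k4 := (k2.differentiableAt (by simp)).hasFDerivAt.comp p
      (hasFDerivAt_fst.prodMk (k3.differentiableAt (by simp)).hasFDerivAt)
    exact congrArg (fun L : A × W →L[ℝ] G => L w) k4.fderiv
  have cu : ∀ w, ContinuousAt (fun p => fderiv ℝ θ p w) (y, 0) := fun w =>
    (hθ.fderiv_right (m := 0) (by simp)).continuousAt.clm_apply continuousAt_const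
  have fc : ∀ {G : Type} [NormedAddCommGroup G] [NormedSpace ℝ G] {f : A × W → G},
      Flat (k + 1) f (y, 0) → Flat (k + 1) (fun p => f (Θ p)) (y, 0) :=
    fun h => Flat.comp (by rwa [e0]) dΘ
  refine ⟨(ContDiffAt.comp (g := Q) (y, 0) (by rwa [e0]) cΘ).of_le (le_infty _), fun e => ?_,
    fun e a => ?_, h0.inj, by
      show _ = Module.finrank ℝ (P (Q (y, θ (y, 0)))).range
      rw [hθ0]
      exact h0.rk⟩
  · have h1 : Flat (k + 1) (fun p => cmp P (Q p) ∘L
        (fderiv ℝ Q p ∘L ContinuousLinearMap.inr ℝ A W)) (y, 0) := flat_clm_iff.2 ht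
    refine ((fc h1).apply (cu (0, e))).congr ?_
    filter_upwards [ev hQ] with p hp
    rw [hp]
    rfl
  · have h1 := (((fc hg).apply (cu (0, e))).apply (s := fun _ => a) continuousAt_const).add
      (((fc (flat_iso hQ hF ht)).apply (cu (0, e))).apply (cu (a, 0)))
    refine h1.congr ?_
    filter_upwards [ev hQ, ev hσ, hi.eventually_nhds] with p hp hs h2
    have h3 : fderiv ℝ σ (Θ p) (0, fderiv ℝ θ p (0, e)) = e := by
      have h4 : (fun p => σ (Θ p)) =ᶠ[𝓝 p] Prod.snd := h2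
      have h5 := hs (0, e)
      rw [h4.fderiv_eq, fderiv_snd] at h5
      exact h5.symm
    have h4 : ((a, fderiv ℝ θ p (a, 0)) : A × W) = (a, 0) + (0, fderiv ℝ θ p (a, 0)) := by simp
    rw [hp, hp]
    simp only [ContinuousLinearMap.sub_apply, ContinuousLinearMap.comp_apply,
      ContinuousLinearMap.inr_apply, ContinuousLinearMap.bilinearComp_apply, h3]
    rw [h4, map_add, map_add, al_apply (p := Θ p)]
    ring

end ParA

open ParA in
theorem Sys.exists_par (L : ℕ) {P : V → V →L[ℝ] V} {Q : A × W → V} (hP : Idm ∞ P 0)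
    (hb : S.Base Q) (hF : (P 0).range ≤ S.Es)
    (hrk : Module.finrank ℝ W = Module.finrank ℝ (P 0).range)
    (hi : ∀ e, fderiv ℝ Q 0 (0, e) = 0 → e = 0)
    (hFF : ∀ᶠ a in 𝓝 (0 : E), S.FF (L + 1) P (S.iU a))
    (ht : ∀ᶠ y in 𝓝 (0 : A), ∀ e, TanTo (L + 2) P Q (y, 0) (0, e)) :
    ∃ (θ : A × W → W) (M : A → W →L[ℝ] A →L[ℝ] ℝ), (∀ᶠ p in 𝓝 (0 : A × W), ContDiffAt ℝ ∞ θ p) ∧
      ∀ᶠ y in 𝓝 (0 : A), θ (y, 0) = 0 ∧ S.Fml L P (fun p => Q (p.1, θ p)) M (y, 0) := by
  haveI := FiniteDimensional.complete ℝ W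
  haveI := FiniteDimensional.complete ℝ A
  obtain ⟨j, hj⟩ := exists_j hb hF hi ht.self_of_nhds
  set c := (ContinuousLinearMap.compL ℝ W A ℝ).flip j with hc
  have tl : Tendsto (fun y : A => ((y, 0) : A × W)) (𝓝 0) (𝓝 0) :=
    (Continuous.prodMk_left (0 : W)).tendsto 0
  have tQ : Tendsto (fun y : A => Q (y, 0)) (𝓝 0) (𝓝 0) :=
    (hb.zero ▸ hb.sm.self_of_nhds.continuousAt : Tendsto Q (𝓝 0) (𝓝 0)).comp tl
  have hFF' : ∀ᶠ y in 𝓝 (0 : A), S.FF (L + 1) P (Q (y, 0)) := by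
    have h1 : Tendsto (fun y : A => S.pU (Q (y, 0))) (𝓝 0) (𝓝 0) :=
      (map_zero S.pU ▸ S.pU.continuous.tendsto 0 : Tendsto S.pU (𝓝 0) (𝓝 0)).comp tQ
    filter_upwards [h1.eventually hFF, hb.base] with y h2 h3
    rwa [S.iU_pU h3] at h2
  have hal : ∀ᶠ p in 𝓝 (0 : A × W), ContDiffAt ℝ ∞ (alf S Q) p := hb.sm.mono fun _ => cd_al
  have hm : ∀ᶠ y in 𝓝 (0 : A), ContDiffAt ℝ ∞ (fun y : A => c ∘L alf S Q (y, 0)) y ∧
      (c ∘L alf S Q (y, 0)).IsInvertible := by
    have h1 : ∀ᶠ y in 𝓝 (0 : A), ContDiffAt ℝ ∞ (fun y : A => c ∘L alf S Q (y, 0)) y :=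
      (tl.eventually hal).mono fun y hy => contDiffAt_const.clm_comp
        (hy.comp y (f := fun y : A => ((y, 0) : A × W)) (by fun_prop))
    obtain ⟨J, hJ⟩ := hj
    have h2 := J.nhds
    rw [hJ] at h2
    exact h1.and (h1.self_of_nhds.continuousAt h2)
  obtain ⟨Pt, p1, p2, p3⟩ := exists_pot hal
  set σ : A × W → W := fun p => ((c ∘L alf S Q (p.1, 0)).inverse ∘L c) (Pt p) with hσd
  have hσ : ∀ᶠ p in 𝓝 (0 : A × W), ContDiffAt ℝ ∞ σ p := by
    filter_upwards [p1, (continuous_fst.tendsto (0 : A × W)).eventually hm] with p h1 h2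
    exact (((h2.2.contDiffAt_map_inverse.comp p.1 h2.1).comp p contDiffAt_fst).clm_comp
      contDiffAt_const).clm_apply h1
  have σ0 : ∀ y, σ (y, 0) = 0 := fun y => by simp only [hσd, p2, map_zero]
  have h0 : ∀ᶠ y in 𝓝 (0 : A), S.Fml 0 P Q (fun y => alf S Q (y, 0)) (y, 0) := by
    filter_upwards [tl.eventually hb.sm, ht, hm, tQ.eventually hP.rank] with y h1 h2 h3 h4
    refine ⟨h1.of_le (le_infty _), fun e => (h2 e).mono (Nat.zero_le _), fun e a => ?_,
      fun e he => ?_, hrk.trans h4.symm⟩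
    · have h5 := (cd_al (S := S) h1).continuousAt
      have h6 : ContinuousAt (fun p : A × W => alf S Q p e a - alf S Q (p.1, 0) e a) (y, 0) :=
        ((h5.clm_apply continuousAt_const).clm_apply continuousAt_const).sub
          (((ContinuousAt.comp (g := alf S Q) (f := fun p : A × W => ((p.1, 0) : A × W))
            (x := (y, 0)) h5 (by fun_prop)).clm_apply continuousAt_const).clm_apply
              continuousAt_const)
      have h7 := h6.tendsto
      rw [sub_self] at h7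
      exact flat_zero_iff.2 h7
    · refine h3.2.injective ?_
      rw [map_zero, ContinuousLinearMap.comp_apply, he, map_zero]
  set g : A × W → W →L[ℝ] A →L[ℝ] ℝ := fun p => alf S Q p - alf S Q (p.1, 0) ∘L
    (fderiv ℝ σ p ∘L ContinuousLinearMap.inr ℝ A W) with hgd
  have hsl : ∀ᶠ y in 𝓝 (0 : A), Flat (L + 2) (fun x => g (y, x)) 0 := by
    filter_upwards [tl.eventually hb.sm.eventually_nhds, ht, hm, hFF', h0, p3,
      tl.eventually p1.eventually_nhds, tl.eventually hσ.eventually_nhds]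
      with y h1 h2 h3 h4 h5 h6 h7 h8
    refine (flat_sig h1.self_of_nhds h4 h2 h5.range h3.2
      (h6 _ (flat_cl h1.self_of_nhds h1 h4 h2))).congr ?_
    have tr : Tendsto (fun x : W => ((y, x) : A × W)) (𝓝 0) (𝓝 (y, 0)) :=
      (Continuous.prodMk_right y).tendsto 0
    filter_upwards [tr.eventually h7, tr.eventually h8] with x k1 k2
    have k3 := ((c ∘L alf S Q (y, 0)).inverse ∘L c).hasFDerivAt.comp x
      ((k1.differentiableAt (by simp)).comp x (f := fun x : W => ((y, x) : A × W))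
        (by fun_prop)).hasFDerivAt
    have k4 : fderiv ℝ σ (y, x) ∘L ContinuousLinearMap.inr ℝ A W = _ :=
      (ContinuousLinearMap.ext fun e =>
        (fderiv_slice (p := (y, x)) (k2.differentiableAt (by simp)) e).symm).trans k3.fderiv
    simp only [hgd]
    rw [k4]
    rfl
  have hg : ∀ᶠ y in 𝓝 (0 : A), Flat (L + 2) g (y, 0) := by
    filter_upwards [tl.eventually hal, tl.eventually hσ, hsl.eventually_nhds] with y h1 h2 h3
    exact flat_of_slices ((h1.sub ((ContDiffAt.comp (g := alf S Q)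
      (f := fun p : A × W => ((p.1, 0) : A × W)) (y, 0) h1 (by fun_prop)).clm_comp
        ((h2.fderiv_right (by simp)).clm_comp contDiffAt_const))).of_le (le_infty _)) h3
  have hD : fderiv ℝ (fun p : A × W => (p.1, σ p)) 0 = ContinuousLinearEquiv.refl ℝ (A × W) := by
    have h1 := (hσ.self_of_nhds.differentiableAt (by simp)).hasFDerivAt
    have h2 : fderiv ℝ σ 0 ∘L ContinuousLinearMap.inl ℝ A W = 0 :=
      (HasFDerivAt.comp (0 : A) (g := σ) h1 (hasFDerivAt_prodMk_left (0 : A) (0 : W))).unique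
        ((hasFDerivAt_const (0 : W) (0 : A)).congr_of_eventuallyEq (Eventually.of_forall σ0))
    rw [(hasFDerivAt_fst.prodMk h1).fderiv]
    refine ContinuousLinearMap.ext fun w => Prod.ext rfl ?_
    have h3 : fderiv ℝ σ 0 (w.1, 0) = 0 := congrArg (fun L : A →L[ℝ] W => L w.1) h2
    have h4 : fderiv ℝ σ 0 (0, w.2) = w.2 := by
      refine sub_eq_zero.1 (h0.self_of_nhds.inj _ ?_)
      have h5 : alf S Q (0, 0) w.2 - alf S Q (0, 0) (fderiv ℝ σ 0 (0, w.2)) = 0 :=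
        congrArg (fun L : W →L[ℝ] A →L[ℝ] ℝ => L w.2) hg.self_of_nhds.eq_zero
      rw [map_sub, ← neg_sub, h5, neg_zero]
    have h5 : w = (w.1, 0) + (0, w.2) := by simp
    show fderiv ℝ σ 0 w = w.2
    rw [h5, map_add, h3, h4]
    simp
  obtain ⟨e, he, e0, -, -, e2⟩ := An.exists_diffeo (f := fun p : A × W => (p.1, σ p))
    (hσ.mono fun p hp => contDiffAt_fst.prodMk hp) _ hD univ_mem
  have e3 : ∀ y, e (y, 0) = (y, 0) := fun y => by rw [he]; simp only [σ0]
  have e4 : e.target ∈ 𝓝 (0 : A × W) := e.open_target.mem_nhds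
    ((show e 0 = 0 from e3 0) ▸ e.map_source e0)
  have hθ : ∀ᶠ p in 𝓝 (0 : A × W), ContDiffAt ℝ ∞ (fun p => (e.symm p).2) p :=
    Filter.mem_of_superset e4 fun p hp => (e2.contDiffAt (e.open_target.mem_nhds hp)).snd
  have hin : ∀ᶠ p in 𝓝 (0 : A × W), σ (p.1, (e.symm p).2) = p.2 := by
    filter_upwards [e4] with p hp
    have h1 := e.right_inv hp
    rw [he] at h1
    rw [← (Prod.ext_iff.1 h1).1]
    exact (Prod.ext_iff.1 h1).2
  refine ⟨fun p => (e.symm p).2, fun y => alf S Q (y, 0), hθ, ?_⟩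
  filter_upwards [tl.eventually hb.sm, ht, hFF', h0, tl.eventually hσ, tl.eventually hθ,
    tl.eventually hin.eventually_nhds, hg, tl.eventually (e.open_source.mem_nhds e0)]
    with y h1 h2 h3 h4 h5 h6 h7 h8 h9
  have h10 : (e.symm (y, 0)).2 = 0 := by rw [← e3 y, e.left_inv h9]
  exact ⟨h10, (fml h1 h3 h2 h4 h5 h6 h10 h7 h8).mono (by omega)⟩

end Vale.Agent.P207Z
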