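import Vale.Agent.P207Z.Real.Defs2
import Vale.Agent.P207Z.JetM

/-!
# P207 REAL: flatness, derivatives, slices
-/

set_option linter.all false

open Set Filter Topology Metric VectorField
open scoped ContDiff

noncomputable section

namespace Vale.Agent.P207Z

variable {Γ X B E V : Type} [Group Γ] [Countable Γ] [MetricSpace X] [ProperSpace X]
  [MulAction Γ X] [IsIsometricSMul Γ X] [MeasurableSpace X] [BorelSpace X]
  [TopologicalSpace B] [CompactSpace B] [T2Space B] [SecondCountableTopology B] [MulAction Γ B]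
  [ContinuousConstSMul Γ B] [MeasurableSpace B] [BorelSpace B]
  [NormedAddCommGroup E] [InnerProductSpace ℝ E] [FiniteDimensional ℝ E]
  [NormedAddCommGroup V] [NormedSpace ℝ V] [FiniteDimensional ℝ V]
  {A W G : Type} [NormedAddCommGroup A] [NormedSpace ℝ A] [FiniteDimensional ℝ A]
  [NormedAddCommGroup W] [NormedSpace ℝ W] [FiniteDimensional ℝ W]
  [NormedAddCommGroup G] [NormedSpace ℝ G] {S : Sys Γ X B E V}

namespace SlcA

theorem mvt {g : W → G} {z s : W} {C : ℝ} (h0 : g z = 0)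
    (h : ∀ y, ‖y - z‖ ≤ ‖s - z‖ → DifferentiableAt ℝ g y ∧ ‖fderiv ℝ g y‖ ≤ C) :
    ‖g s‖ ≤ C * ‖s - z‖ := by
  have h2 := (convex_closedBall z ‖s - z‖).norm_image_sub_le_of_norm_fderiv_le (𝕜 := ℝ) (f := g)
    (fun y hy => (h y (mem_closedBall_iff_norm.1 hy)).1)
    (fun y hy => (h y (mem_closedBall_iff_norm.1 hy)).2)
    (mem_closedBall_self (norm_nonneg _)) (mem_closedBall_iff_norm.2 le_rfl : s ∈ _)
  rwa [h0, sub_zero] at h2

theorem fd_slice {g : A × W → G} {p : A × W} (hg : DifferentiableAt ℝ g p) :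
    HasFDerivAt (fun s => g (p.1, s)) (fderiv ℝ g p ∘L ContinuousLinearMap.inr ℝ A W) p.2 :=
  HasFDerivAt.comp (f := fun s => (p.1, s)) p.2 hg.hasFDerivAt (hasFDerivAt_prodMk_right p.1 p.2)

theorem succ_slice {k : ℕ} {g : A × W → G} {p : A × W}
    (hg : ∀ᶠ q in 𝓝 p, DifferentiableAt ℝ g q) (h0 : ∀ᶠ y in 𝓝 p.1, g (y, p.2) = 0)
    (h : Flat k (fun q => fderiv ℝ g q ∘L ContinuousLinearMap.inr ℝ A W) p) :
    Flat (k + 1) g p := by
  refine Asymptotics.isLittleO_iff.2 fun c hc => ?_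
  obtain ⟨δ, hδ, h1⟩ := nhds_basis_closedBall.mem_iff.1 (hg.and (h.def hc))
  filter_upwards [closedBall_mem_nhds p hδ, continuous_fst.continuousAt.eventually h0] with q hq h2
  have h3 : ∀ y, ‖y - p.2‖ ≤ ‖q.2 - p.2‖ → ‖(q.1, y) - p‖ ≤ ‖q - p‖ := fun y hy =>
    max_le (norm_fst_le (q - p)) (hy.trans (norm_snd_le (q - p)))
  refine (mvt (g := fun s => g (q.1, s)) (s := q.2) (C := c * ‖q - p‖ ^ k) h2 fun y hy => ?_).trans ?_
  · obtain ⟨h4, h5⟩ := h1 (mem_closedBall_iff_norm.2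
      ((h3 y hy).trans (mem_closedBall_iff_norm.1 hq)))
    refine ⟨(fd_slice h4).differentiableAt, ?_⟩
    rw [(fd_slice h4).fderiv]
    refine h5.trans (mul_le_mul_of_nonneg_left ?_ hc.le)
    rw [norm_pow, norm_norm]
    exact pow_le_pow_left₀ (norm_nonneg _) (h3 y hy) k
  · rw [norm_pow, norm_norm, pow_succ, ← mul_assoc]
    exact mul_le_mul_of_nonneg_left (norm_snd_le (q - p)) (by positivity)

theorem slices : ∀ (k : ℕ) {G : Type} [NormedAddCommGroup G] [NormedSpace ℝ G] {g : A × W → G}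
    {p : A × W}, ContDiffAt ℝ k g p → (∀ᶠ y in 𝓝 p.1, Flat k (fun s => g (y, s)) p.2) →
    Flat k g p := by
  intro k
  induction k with
  | zero =>
    intro G _ _ g p hg h
    rw [flat_zero_iff, ← show g p = 0 from h.self_of_nhds.eq_zero]
    exact hg.continuousAt
  | succ k ih =>
    intro G _ _ g p hg h
    have h1 := hg.eventually (by simp)
    refine succ_slice (h1.mono fun q hq => hq.differentiableAt (by simp))
      (h.mono fun y hy => hy.eq_zero) (ih ((hg.fderiv_right (m := k) (by simp)).clm_comp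
        contDiffAt_const) ?_)
    have h2 : ContinuousAt (fun y : A => (y, p.2)) p.1 := by fun_prop
    filter_upwards [h, h2.eventually h1.eventually_nhds] with y hy h3
    have h4 : ContinuousAt (fun s : W => (y, s)) p.2 := by fun_prop
    refine (hy.fderiv (h3.self_of_nhds.comp p.2 (contDiffAt_const.prodMk contDiffAt_id))).congr ?_
    filter_upwards [h4.eventually h3] with s hs
    exact (fd_slice (hs.differentiableAt (by simp))).fderiv.symm

theorem conj_ev (P : V → V →L[ℝ] V) {Q : A → V} {p : A} {x y : X} (hQ : ContDiffAt ℝ 1 Q p)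
    (hd : Q p ∈ S.dom x y) : ∀ᶠ p' in 𝓝 p, Q p' ∈ S.dom x y ∧
      (∀ w, fderiv ℝ (fun p' => S.τ x y (Q p')) p' w = S.TV.A x y (Q p') (fderiv ℝ Q p' w)) ∧
      ∀ v, cmp (S.TV.conj y x P) (S.τ x y (Q p')) (S.TV.A x y (Q p') v)
        = S.TV.A x y (Q p') (cmp P (Q p') v) := by
  filter_upwards [hQ.eventually (by simp), hQ.continuousAt.eventually (Sys.dom_nhds hd)]
    with p' h1 h2
  refine ⟨h2, fun w => ?_, fun v => ?_⟩
  · rw [fderiv_fun_comp p' (Sys.differentiableAt_τ h2) (h1.differentiableAt one_ne_zero)]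
    rfl
  · have h3 : S.TV.A y x (S.τ x y (Q p')) (S.TV.A x y (Q p') v) = v :=
      DFunLike.congr_fun (S.TV.inv h2) v
    simp only [cmp, Bun.conj, Sys.τ_τ h2, ContinuousLinearMap.sub_apply,
      ContinuousLinearMap.one_apply, ContinuousLinearMap.mul_apply, h3, map_sub]

theorem finrank_conj {L L' : V →L[ℝ] V} (P : V →L[ℝ] V) (h : L' * L = 1) (h' : L * L' = 1) :
    Module.finrank ℝ (L * P * L').range = Module.finrank ℝ P.range := by
  have h1 : ∀ v, L' (L v) = v := DFunLike.congr_fun h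
  have h2 : (L * P * L').range = P.range.map (L : V →ₗ[ℝ] V) := by
    ext v
    constructor
    · rintro ⟨u, rfl⟩
      exact ⟨_, ⟨L' u, rfl⟩, rfl⟩
    · rintro ⟨_, ⟨u, rfl⟩, rfl⟩
      exact ⟨L u, congrArg (fun t => L (P t)) (h1 u)⟩
  rw [h2]
  exact (Submodule.equivMapOfInjective _ (Function.LeftInverse.injective h1) _).finrank_eq.symm

theorem idm_mono {k k' : ℕ} {P : V → V →L[ℝ] V} {z : V} (h : Idm k P z) (hk : k' ≤ k) :
    Idm k' P z := Eventually.mono h fun _ hq => ⟨hq.1.of_le (by exact_mod_cast hk), hq.2⟩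

theorem cont_fd {Q : A → G} {p : A} (hQ : ContDiffAt ℝ 1 Q p) : ContinuousAt (fderiv ℝ Q) p :=
  (hQ.fderiv_right (m := 0) (by simp)).continuousAt

end SlcA

open SlcA

/-- a map with a flat derivative is flat -/
theorem flat_succ {k : ℕ} {g : W → G} {z : W} (hg : ∀ᶠ s in 𝓝 z, DifferentiableAt ℝ g s)
    (h0 : g z = 0) (h : Flat k (fderiv ℝ g) z) : Flat (k + 1) g z := by
  refine Asymptotics.isLittleO_iff.2 fun c hc => ?_
  obtain ⟨δ, hδ, h1⟩ := nhds_basis_closedBall.mem_iff.1 (hg.and (h.def hc))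
  filter_upwards [closedBall_mem_nhds z hδ] with s hs
  rw [norm_pow, norm_norm, pow_succ, ← mul_assoc]
  refine mvt h0 fun y hy => ?_
  obtain ⟨h4, h5⟩ := h1 (mem_closedBall_iff_norm.2 (hy.trans (mem_closedBall_iff_norm.1 hs)))
  refine ⟨h4, h5.trans (mul_le_mul_of_nonneg_left ?_ hc.le)⟩
  rw [norm_pow, norm_norm]
  exact pow_le_pow_left₀ (norm_nonneg _) hy k
/-- **linear differential inequality** -/
theorem flat_of_ode {k : ℕ} {g : W → G} {z : W} {ε : W → ℝ} {C : ℝ}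
    (hg : ∀ᶠ s in 𝓝 z, DifferentiableAt ℝ g s) (h0 : g z = 0) (hε : Flat k ε z)
    (h : ∀ᶠ s in 𝓝 z, ‖fderiv ℝ g s‖ ≤ C * ‖g s‖ + ε s) : Flat (k + 1) g z := by
  have key : ∀ j ≤ k + 1, Flat j g z := fun j => by
    induction j with
    | zero =>
      intro _
      rw [flat_zero_iff, ← h0]
      exact hg.self_of_nhds.continuousAt
    | succ j ih =>
      intro hj
      exact flat_succ hg h0
        ((((ih (by omega)).norm.const_mul C).add (hε.mono (by omega))).of_le' h)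
  exact key _ le_rfl
theorem Flat.slice {k : ℕ} {g : A × W → G} {p : A × W} (h : Flat k g p) :
    Flat k (fun s => g (p.1, s)) p.2 :=
  Flat.comp (τ := fun s => (p.1, s)) (z' := p.2) h (by fun_prop)
/-- flat on all the slices near `p` -/
theorem flat_of_slices {k : ℕ} {g : A × W → G} {p : A × W} (hg : ContDiffAt ℝ k g p)
    (h : ∀ᶠ y in 𝓝 p.1, Flat k (fun s => g (y, s)) p.2) : Flat k g p := slices k hg h
theorem fderiv_slice {g : A × W → G} {p : A × W} (hg : DifferentiableAt ℝ g p) (e : W) :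
    fderiv ℝ (fun s => g (p.1, s)) p.2 e = fderiv ℝ g p (0, e) := by
  rw [(fd_slice hg).fderiv]
  rfl
theorem fderiv_slice₂ {g : A × W → G} {p : A × W} (hg : ContDiffAt ℝ 2 g p) (e e' : W) :
    fderiv ℝ (fderiv ℝ fun s => g (p.1, s)) p.2 e e' = fderiv ℝ (fderiv ℝ g) p (0, e) (0, e') := by
  have h1 : ContinuousAt (fun s : W => (p.1, s)) p.2 := by fun_prop
  have h2 : (fderiv ℝ fun s => g (p.1, s)) =ᶠ[𝓝 p.2]
      fun s => fderiv ℝ g (p.1, s) ∘L ContinuousLinearMap.inr ℝ A W := by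
    filter_upwards [h1.eventually (hg.eventually (by simp))] with s hs
    exact (fd_slice (hs.differentiableAt (by simp))).fderiv
  have h3 := ((ContinuousLinearMap.compL ℝ W (A × W) G).flip
    (ContinuousLinearMap.inr ℝ A W)).hasFDerivAt.comp p.2
      (fd_slice ((hg.fderiv_right (m := 1) (by norm_num)).differentiableAt one_ne_zero))
  rw [h2.fderiv_eq]
  exact congrArg (fun L : W →L[ℝ] W →L[ℝ] G => L e e') h3.fderiv
theorem TanTo.mono {k k' : ℕ} {P : V → V →L[ℝ] V} {Q : A → V} {p w : A} (h : TanTo k P Q p w)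
    (hk : k' ≤ k) : TanTo k' P Q p w := Flat.mono h hk
theorem TanTo.add {k : ℕ} {P : V → V →L[ℝ] V} {Q : A → V} {p w w' : A} (h : TanTo k P Q p w)
    (h' : TanTo k P Q p w') : TanTo k P Q p (w + w') := by
  simp only [TanTo, map_add]
  exact Flat.add h h'
theorem TanTo.smul {k : ℕ} {P : V → V →L[ℝ] V} {Q : A → V} {p w : A} (h : TanTo k P Q p w)
    (c : ℝ) : TanTo k P Q p (c • w) := by
  simp only [TanTo, map_smul]
  exact Asymptotics.IsLittleO.const_smul_left h c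
theorem TanTo.congr {k : ℕ} {P : V → V →L[ℝ] V} {Q Q' : A → V} {p w : A} (h : TanTo k P Q p w)
    (e : Q' =ᶠ[𝓝 p] Q) : TanTo k P Q' p w := by
  refine Flat.congr h ?_
  filter_upwards [e, e.fderiv (𝕜 := ℝ)] with q h1 h2
  rw [h1, h2]
theorem TanTo.mem {k : ℕ} {P : V → V →L[ℝ] V} {Q : A → V} {p w : A} (h : TanTo k P Q p w) :
    P (Q p) (fderiv ℝ Q p w) = fderiv ℝ Q p w := by
  have h1 := Flat.eq_zero (f := fun p' => cmp P (Q p') (fderiv ℝ Q p' w)) h
  exact (sub_eq_zero.1 (show fderiv ℝ Q p w - P (Q p) (fderiv ℝ Q p w) = 0 from h1)).symm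
/-- a larger field of projections -/
theorem TanTo.le {k : ℕ} {P P' : V → V →L[ℝ] V} {Q : A → V} {p w : A} (h : TanTo k P Q p w)
    (hQ : ContDiffAt ℝ 1 Q p) (hP' : ContinuousAt P' (Q p))
    (hle : Flat k (fun q => cmp P' q ∘L P q) (Q p)) : TanTo k P' Q p w := by
  have h1 : ContinuousAt (fun p' => cmp P' (Q p')) p :=
    continuousAt_const.sub (hP'.comp hQ.continuousAt)
  refine ((Flat.bilin_right (ContinuousLinearMap.id ℝ (V →L[ℝ] V)) h h1).add
    ((hle.comp (hQ.differentiableAt one_ne_zero)).apply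
      ((cont_fd hQ).clm_apply (continuousAt_const (y := w))))).congr
    (Eventually.of_forall fun q => ?_)
  show _ = cmp P' (Q q) (fderiv ℝ Q q w - P (Q q) (fderiv ℝ Q q w))
    + cmp P' (Q q) (P (Q q) (fderiv ℝ Q q w))
  rw [← map_add, sub_add_cancel]
/-- change of the chart -/
theorem TanTo.conj {k : ℕ} {P : V → V →L[ℝ] V} {Q : A → V} {p w : A} {x y : X}
    (h : TanTo k P Q p w) (hQ : ContDiffAt ℝ 1 Q p) (hd : Q p ∈ S.dom x y) :
    TanTo k (S.TV.conj y x P) (fun p' => S.τ x y (Q p')) p w := by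
  refine (Flat.bilin_right (ContinuousLinearMap.id ℝ (V →L[ℝ] V)) h
    ((S.TV.continuousAt hd).comp hQ.continuousAt)).congr ?_
  filter_upwards [conj_ev P hQ hd] with q hq
  rw [hq.2.1, hq.2.2]
  rfl
theorem TanTo.of_conj {k : ℕ} {P : V → V →L[ℝ] V} {Q : A → V} {p w : A} {x y : X}
    (h : TanTo k (S.TV.conj y x P) (fun p' => S.τ x y (Q p')) p w) (hQ : ContDiffAt ℝ 1 Q p)
    (hd : Q p ∈ S.dom x y) : TanTo k P Q p w := by
  have h1 : ContinuousAt (fun p' => S.TV.A y x (S.τ x y (Q p'))) p :=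
    ((S.TV.continuousAt (Sys.τ_dom hd)).comp (Sys.continuousAt_τ hd)).comp hQ.continuousAt
  refine (Flat.bilin_right (ContinuousLinearMap.id ℝ (V →L[ℝ] V)) h h1).congr ?_
  filter_upwards [conj_ev P hQ hd] with q hq
  rw [hq.2.1, hq.2.2]
  exact (DFunLike.congr_fun (S.TV.inv hq.1) _).symm
theorem Sys.FF.mono {k k' : ℕ} {P : V → V →L[ℝ] V} {z : V} (h : S.FF k P z) (hk : k' ≤ k) :
    S.FF k' P z :=
  ⟨idm_mono h.sm (by omega), fun v w => (h.iso v w).mono (by omega), fun v w => (h.br v w).mono hk,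
    fun v w => (h.brC v w).mono hk⟩
theorem Sys.FZ.mono {k k' : ℕ} {P Pz : V → V →L[ℝ] V} {z : V} (h : S.FZ k P Pz z) (hk : k' ≤ k) :
    S.FZ k' P Pz z :=
  ⟨h.toFF.mono hk, idm_mono h.smZ (by omega), h.le.mono (by omega),
    fun v w => (h.omZ v w).mono (by omega), fun v w => (h.brZ v w).mono hk⟩
/-- a flat family of bilinear maps, evaluated on continuous arguments along a differentiable map -/
theorem flat_bilin_along {k : ℕ} {β : V → V →L[ℝ] V →L[ℝ] G} {Q u v : A → V} {p : A}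
    (h : ∀ a b, Flat k (fun q => β q a b) (Q p)) (hQ : DifferentiableAt ℝ Q p)
    (hu : ContinuousAt u p) (hv : ContinuousAt v p) :
    Flat k (fun p' => β (Q p') (u p') (v p')) p :=
  (((flat_clm_iff.2 fun a => flat_clm_iff.2 (h a)).comp hQ).apply hu).apply hv
theorem Sys.Fml.mono {k k' : ℕ} {P : V → V →L[ℝ] V} {Q : A × W → V}
    {M : A → W →L[ℝ] A →L[ℝ] ℝ} {p : A × W} (h : S.Fml k P Q M p) (hk : k' ≤ k) :
    S.Fml k' P Q M p :=
  ⟨h.sm.of_le (by exact_mod_cast Nat.succ_le_succ hk), fun e => (h.tan e).mono hk,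
    fun e a => (h.om e a).mono hk, h.inj, h.rk⟩
theorem Sys.Fml.conj {k : ℕ} {P : V → V →L[ℝ] V} {Q : A × W → V} {M : A → W →L[ℝ] A →L[ℝ] ℝ}
    {p : A × W} {x y : X} (h : S.Fml k P Q M p) (hd : Q p ∈ S.dom x y) :
    S.Fml k (S.TV.conj y x P) (fun p' => S.τ x y (Q p')) M p := by
  have hQ : ContDiffAt ℝ 1 Q p := h.sm.of_le (by exact_mod_cast Nat.le_add_left 1 k)
  refine ⟨((Sys.contDiffAt_τ hd).of_le (by exact_mod_cast le_top)).comp p h.sm,
    fun e => (h.tan e).conj hQ hd, fun e a => (h.om e a).congr ?_, h.inj, ?_⟩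
  · filter_upwards [conj_ev P hQ hd] with q hq
    rw [hq.2.1, hq.2.1]
    exact congrArg (· - M q.1 e a) (Sys.om_τ hq.1 _ _)
  · rw [h.rk, Bun.conj, Sys.τ_τ hd, finrank_conj _ (S.TV.inv hd) (S.TV.inv' hd)]
theorem Sys.Fml.of_flat {k : ℕ} {P P' : V → V →L[ℝ] V} {Q : A × W → V}
    {M : A → W →L[ℝ] A →L[ℝ] ℝ} {p : A × W} (h : S.Fml k P Q M p) (hP' : ContinuousAt P' (Q p))
    (hle : Flat k (fun q => cmp P' q ∘L P q) (Q p))
    (hr : Module.finrank ℝ (P' (Q p)).range = Module.finrank ℝ (P (Q p)).range) :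
    S.Fml k P' Q M p :=
  ⟨h.sm, fun e => (h.tan e).le (h.sm.of_le (by exact_mod_cast Nat.le_add_left 1 k)) hP' hle, h.om,
    h.inj, h.rk.trans hr.symm⟩
/-- the derivative along the leaf is onto the range of the projection -/
theorem Sys.Fml.range {k : ℕ} {P : V → V →L[ℝ] V} {Q : A × W → V} {M : A → W →L[ℝ] A →L[ℝ] ℝ}
    {p : A × W} (h : S.Fml k P Q M p) (v : V) : ∃ e, fderiv ℝ Q p (0, e) = P (Q p) v := by
  let L : W →ₗ[ℝ] V := (fderiv ℝ Q p : A × W →ₗ[ℝ] V) ∘ₗ LinearMap.inr ℝ A W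
  have h1 : Function.Injective L := (injective_iff_map_eq_zero L).2 fun e he =>
    h.inj e (ContinuousLinearMap.ext fun a => by
      have h2 := (h.om e a).eq_zero
      rw [show fderiv ℝ Q p (0, e) = 0 from he, map_zero, ContinuousLinearMap.zero_apply, zero_sub,
        neg_eq_zero] at h2
      exact h2)
  have h2 : L.range = (P (Q p)).range := Submodule.eq_of_le_of_finrank_eq
    (by
      rintro _ ⟨e, rfl⟩
      exact ⟨_, (h.tan e).mem⟩) ((LinearMap.finrank_range_of_inj h1).trans h.rk)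
  exact (h2.ge ⟨v, rfl⟩ : _ ∈ L.range)
/-- a germ tangent to a field which is tangent to the stable axis is tangent to the axis -/
theorem flat_pU {k : ℕ} {P : V → V →L[ℝ] V} {g : W → V} (hg : ContDiffAt ℝ 1 g 0) (h0 : g 0 = 0)
    (hP : ContDiffAt ℝ 1 P 0) (ht : ∀ e, TanTo k P g 0 e)
    (hS : Flat k (fun w => S.pU ∘L P (S.iS w)) 0) : Flat (k + 1) (fun s => S.pU (g s)) 0 := by
  have h1 := (hg.eventually (by simp)).mono fun s hs => hs.differentiableAt one_ne_zero
  have h2 : Flat k (fun s => S.pU ∘L (cmp P (g s) ∘L fderiv ℝ g s)) 0 :=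
    (flat_clm_iff.2 ht).comp_right continuousAt_const
  have h3 : Flat k (fun s => (S.pU ∘L P (S.iS (S.pS (g s)))) ∘L fderiv ℝ g s) 0 :=
    (Flat.comp (τ := fun s => S.pS (g s)) (by rwa [h0, map_zero])
      (S.pS.differentiableAt.comp 0 h1.self_of_nhds)).comp_left (cont_fd hg)
  obtain ⟨K, t, ht, hK⟩ := hP.exists_lipschitzOnWith
  have h4 : Tendsto g (𝓝 0) (𝓝 0) := h0 ▸ hg.continuousAt
  have h5 : Tendsto (fun s => S.iS (S.pS (g s))) (𝓝 0) (𝓝 0) := by
    have := ((S.iS ∘L S.pS).continuous.tendsto 0).comp h4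
    rwa [map_zero] at this
  refine flat_of_ode (C := ‖S.pU‖ * K * (‖fderiv ℝ g 0‖ + 1))
    (h1.mono fun s hs => S.pU.differentiableAt.comp s hs) (by rw [h0, map_zero])
    (h2.add h3).norm ?_
  filter_upwards [h1, h4 ht, h5 ht, CalcAux.ev_bd (cont_fd hg)] with s h1 h4 h5 h6
  have h7 := hK.dist_le_mul _ h4 _ h5
  rw [dist_eq_norm, dist_eq_norm, sub_eq_iff_eq_add'.2 (S.iS_add (g s)).symm, S.norm_iU] at h7
  have e : fderiv ℝ (fun s => S.pU (g s)) s
      = (S.pU ∘L (P (g s) - P (S.iS (S.pS (g s))))) ∘L fderiv ℝ g s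
        + (S.pU ∘L (cmp P (g s) ∘L fderiv ℝ g s)
          + (S.pU ∘L P (S.iS (S.pS (g s)))) ∘L fderiv ℝ g s) := by
    refine (S.pU.hasFDerivAt.comp s h1.hasFDerivAt).fderiv.trans ?_
    ext v
    simp [cmp]
  rw [e]
  refine (norm_add_le _ _).trans (add_le_add_left ?_ _)
  calc _ ≤ ‖S.pU‖ * (K * ‖S.pU (g s)‖) * (‖fderiv ℝ g 0‖ + 1) :=
        (ContinuousLinearMap.opNorm_comp_le _ _).trans (mul_le_mul
          ((ContinuousLinearMap.opNorm_comp_le _ _).trans
            (mul_le_mul_of_nonneg_left h7 (norm_nonneg _))) h6 (norm_nonneg _) (by positivity))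
    _ = _ := by ring

end Vale.Agent.P207Z
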