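import Vale.Agent.P207Z.Real.Defs2
import Vale.Agent.P207Z.JetM
import Vale.Agent.P207Z.Real.Slc
import Vale.Agent.P207Z.Real.Prop
import Vale.Agent.P207Z.Real.Leaf
import Vale.Agent.P207Z.Real.Par

/-!
# P207 REAL: the formal family
-/

set_option linter.all false

open Set Filter Topology Metric VectorField
open scoped ContDiff

noncomputable section

namespace Vale.Agent.P207Z

variable {Γ X B E V : Type} [Group Γ] [Countable Γ] [MetricSpace X] [ProperSpace X]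
  [MulAction Γ X] [IsIsometricSMul Γ X] [MeasurableSpace X] [BorelSpace X]
  [TopologicalSpace B] [CompactSpace B] [T2Space B] [SecondCountableTopology B] [MulAction Γ B]
  [ContinuousConstSMul Γ B] [MeasurableSpace B] [BorelSpace B]
  [NormedAddCommGroup E] [InnerProductSpace ℝ E] [FiniteDimensional ℝ E]
  [NormedAddCommGroup V] [NormedSpace ℝ V] [FiniteDimensional ℝ V]
  {A W G : Type} [NormedAddCommGroup A] [NormedSpace ℝ A] [FiniteDimensional ℝ A]
  [NormedAddCommGroup W] [NormedSpace ℝ W] [FiniteDimensional ℝ W]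
  [NormedAddCommGroup G] [NormedSpace ℝ G] {S : Sys Γ X B E V}

/-- a change of the parameter along the leaves -/
theorem TanTo.repar {k : ℕ} {P : V → V →L[ℝ] V} {Q : A × W → V} {θ : A × W → W} {p w : A × W}
    (hQ : ContDiffAt ℝ 1 Q p) (hθ : ContDiffAt ℝ 1 θ p) (h0 : θ p = p.2)
    (h1 : TanTo k P Q p (w.1, 0)) (h2 : ∀ e, TanTo k P Q p (0, e)) :
    TanTo k P (fun p' => Q (p'.1, θ p')) p w := by
  have hφ : ContDiffAt ℝ 1 (fun p' : A × W => (p'.1, θ p')) p := contDiffAt_fst.prodMk hθ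
  have e0 : (p.1, θ p) = p := by rw [h0]
  have hd := hφ.differentiableAt one_ne_zero
  have h3 : Flat k (fun u => cmp P (Q u) ∘L fderiv ℝ Q u ∘L ContinuousLinearMap.inr ℝ A W) p :=
    flat_clm_iff.2 h2
  have h4 := Flat.comp (τ := fun p' : A × W => (p'.1, θ p')) (e0.symm ▸ h1 :) hd
  have h5 := (Flat.comp (τ := fun p' : A × W => (p'.1, θ p')) (e0.symm ▸ h3 :) hd).apply
    (s := fun p' => fderiv ℝ θ p' w)
    ((hθ.continuousAt_fderiv one_ne_zero).clm_apply continuousAt_const)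
  refine (h4.add h5).congr ?_
  have h6 : ∀ᶠ u in 𝓝 (p.1, θ p), ContDiffAt ℝ 1 Q u := e0.symm ▸ hQ.eventually (by simp)
  filter_upwards [hφ.continuousAt.eventually h6, hθ.eventually (by simp)] with u u1 u2
  have h7 := (u1.differentiableAt one_ne_zero).hasFDerivAt.comp u
    (hasFDerivAt_fst.prodMk (u2.differentiableAt one_ne_zero).hasFDerivAt)
  rw [show fderiv ℝ (fun p' : A × W => Q (p'.1, θ p')) u = _ from h7.fderiv]
  simp only [ContinuousLinearMap.comp_apply, ContinuousLinearMap.prod_apply,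
    ContinuousLinearMap.coe_fst', ContinuousLinearMap.inr_apply, ← map_add, Prod.mk_add_mk,
    add_zero, zero_add]

theorem Sys.exists_form (L : ℕ) {P Pz : V → V →L[ℝ] V} (hP : Idm ∞ P 0) (hZ : Idm ∞ Pz 0)
    (h : ∀ᶠ a in 𝓝 (0 : E), S.FZ (L + 3) P Pz (S.iU a)) (hF : (P 0).range ≤ S.Es) {r : ℕ}
    (hr : r ≠ 0)
    (hrk : ∀ᶠ a in 𝓝 (0 : E), Module.finrank ℝ ((Pz (S.iU a)).range ⊓ S.Eu : Submodule ℝ V) = r) :
    ∃ (m f : ℕ) (Q : (ℝ × EuclideanSpace ℝ (Fin m)) × EuclideanSpace ℝ (Fin f) → V)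
      (M : ℝ × EuclideanSpace ℝ (Fin m) →
        EuclideanSpace ℝ (Fin f) →L[ℝ] (ℝ × EuclideanSpace ℝ (Fin m)) →L[ℝ] ℝ),
      S.Form L P Pz Q M := by
  have hF' : (P 0).range ⊓ S.Eu = ⊥ := by
    refine eq_bot_iff.2 fun v hv => ?_
    rw [Submodule.mem_bot, ← S.iS_add v, S.mem_Es.1 (hF hv.1), S.mem_Eu.1 hv.2, map_zero, map_zero,
      add_zero]
  obtain ⟨m, f, Q, hb, hf, hi, hq⟩ := Sys.exists_leaf (L + 2) hP hZ (h.mono fun a ha => ha.br) hF'
    hr hrk
  obtain ⟨θ, M, hθ, hy⟩ := Sys.exists_par L hP hb hF (by rw [finrank_euclideanSpace_fin, hf]) hi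
    (h.mono fun a ha => ha.toFF.mono (by omega)) (hq.mono fun y hy => hy.1)
  have hin : Tendsto (fun y : ℝ × EuclideanSpace ℝ (Fin m) => (y, (0 : EuclideanSpace ℝ (Fin f))))
      (𝓝 0) (𝓝 0) := Continuous.tendsto' (by fun_prop) _ _ rfl
  have t0 : θ 0 = 0 := hy.self_of_nhds.1
  have e1 : ∀ᶠ y in 𝓝 (0 : ℝ × EuclideanSpace ℝ (Fin m)), Q (y, θ (y, 0)) = Q (y, 0) :=
    hy.mono fun y hy => by rw [hy.1]
  have hz : ∀ᶠ y in 𝓝 (0 : ℝ × EuclideanSpace ℝ (Fin m)), S.FZ (L + 1) P Pz (Q (y, 0)) := by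
    obtain ⟨J, hJ⟩ := hb.crd
    have h1 := hJ.continuousAt.tendsto
    rw [show Q (0, 0) = 0 from hb.zero, map_zero] at h1
    filter_upwards [h1.eventually h, hb.base] with y y1 y2
    rw [S.iU_pU y2] at y1
    exact y1.mono (by omega)
  have hs : ∀ᶠ y in 𝓝 (0 : ℝ × EuclideanSpace ℝ (Fin m)), Flat L (fun s => cmp Pz (Q (y, s))
      (fderiv ℝ Q (y, s) ((1, 0), 0))) 0 := by
    filter_upwards [hz, hq, hin.eventually hb.sm] with y y1 y2 y3
    exact (tan_prop (k := L + 1) (p := (y, 0)) (y3.of_le (WithTop.coe_le_coe.2 le_top)) y1.sm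
      y1.smZ y2.1 y1.le y1.brZ y2.2).mono (by omega)
  have ht : ∀ᶠ y in 𝓝 (0 : ℝ × EuclideanSpace ℝ (Fin m)), ∀ r e,
      TanTo L Pz (fun p => Q (p.1, θ p)) (y, 0) ((r, 0), e) := by
    filter_upwards [hz, hq, hin.eventually hb.sm, hin.eventually hθ, hy, hs.eventually_nhds]
      with y y1 y2 y3 y4 y5 y6 r e
    have c1 : ContDiffAt ℝ 1 Q (y, 0) := y3.of_le (by exact_mod_cast le_top)
    have c2 := y1.smZ.self_of_nhds.1
    refine TanTo.repar c1 (y4.of_le (by exact_mod_cast le_top)) y5.1 ?_ fun e =>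
      ((y2.1 e).le c1 c2.continuousAt y1.le).mono (by omega)
    have c3 : TanTo L Pz Q (y, 0) ((1, 0), 0) := by
      refine flat_of_slices (p := (y, 0)) (ContDiffAt.clm_apply (contDiffAt_const.sub
        (ContDiffAt.comp (g := Pz) _ (c2.of_le (by exact_mod_cast (by omega : L ≤ L + 1 + 1)))
          (y3.of_le (by exact_mod_cast le_top))))
        ((y3.fderiv_right (by exact_mod_cast le_top)).clm_apply contDiffAt_const)) y6
    simpa using c3.smul r
  refine ⟨m, f, fun p => Q (p.1, θ p), M, ⟨?_, ?_, ?_, ?_⟩, hy.mono fun y hy => hy.2, ht, ?_⟩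
  · have h1 : Tendsto (fun p => (p.1, θ p)) (𝓝 0) (𝓝 0) := by
      have h2 := (continuousAt_fst.prodMk hθ.self_of_nhds.continuousAt).tendsto
      rwa [t0] at h2
    filter_upwards [h1.eventually hb.sm, hθ] with p p1 p2
    exact ContDiffAt.comp (g := Q) p p1 (contDiffAt_fst.prodMk p2)
  · rw [t0]
    exact hb.zero
  · filter_upwards [e1, hb.base] with y y1 y2
    rwa [y1]
  · exact hb.crd.imp fun J hJ => hJ.congr_of_eventuallyEq (e1.mono fun y hy => congrArg _ hy)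
  · filter_upwards [hy, ht, hz, e1] with y y1 y2 y3 y4 e
    have h1 := (y1.2.om e (1, 0)).eq_zero
    rw [← (y1.2.tan e).mem, ← (y2 1 0).mem] at h1
    simp only [y4] at h1
    rwa [(y3.omZ _ _).eq_zero, zero_sub, neg_eq_zero] at h1

end Vale.Agent.P207Z
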