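import Mathlib

/-!
# P207: a typical line
-/

set_option linter.all false

open Set Filter Topology Metric MeasureTheory

noncomputable section

namespace Vale.Agent.P207Z

variable {E : Type} [NormedAddCommGroup E] [InnerProductSpace ℝ E] [FiniteDimensional ℝ E]

theorem pick [MeasurableSpace E] [BorelSpace E] {m : ℕ} {u : ℝ × EuclideanSpace ℝ (Fin m) → E}
    (hu : ContDiffAt ℝ 1 u 0) (J : (ℝ × EuclideanSpace ℝ (Fin m)) ≃L[ℝ] E)
    (hJ : HasFDerivAt u (J : ℝ × EuclideanSpace ℝ (Fin m) →L[ℝ] E) 0) :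
    ∃ ε₀ > 0, InjOn u (ball 0 ε₀) ∧ ∀ ε, 0 < ε → ε ≤ ε₀ → ∀ R : E → Prop, (∀ᵐ a, R a) →
      ∃ y ∈ ball (0 : ℝ × EuclideanSpace ℝ (Fin m)) (ε / 2), R (u y) ∧
        Icc 0 (ε / 4) ⊆ closure ({σ : ℝ | R (u (y + (σ, 0)))} ∩ Icc 0 (ε / 4)) := by
  let φ := hu.toOpenPartialHomeomorph u hJ one_ne_zero
  have h0 : (0 : ℝ × EuclideanSpace ℝ (Fin m)) ∈ φ.source :=
    hu.mem_toOpenPartialHomeomorph_source hJ one_ne_zero
  have h1 : ContDiffAt ℝ 1 φ.symm (u 0) := hu.to_localInverse hJ one_ne_zero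
  have h2 : ∀ᶠ a in 𝓝 (u 0), DifferentiableAt ℝ φ.symm a :=
    (h1.eventually (by simp)).mono fun a ha => ha.differentiableAt one_ne_zero
  obtain ⟨ε₀, hε₀, hb⟩ := Metric.eventually_nhds_iff_ball.1
    ((hu.continuousAt.eventually h2).and (φ.open_source.mem_nhds h0))
  refine ⟨ε₀, hε₀, φ.injOn.mono fun y hy => (hb y hy).2, fun ε hε hle R hR => ?_⟩
  haveI : (volume : Measure (ℝ × EuclideanSpace ℝ (Fin m))).IsAddHaarMeasure :=
    Measure.prod.instIsAddHaarMeasure _ _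
  have hJ' : ∀ᵐ y : ℝ × EuclideanSpace ℝ (Fin m), R (J y) :=
    ae_of_ae_map J.continuous.measurable.aemeasurable
      ((Measure.absolutelyContinuous_isAddHaarMeasure (Measure.map J volume) volume).ae_le hR)
  have h3 : ∀ᵐ y : ℝ × EuclideanSpace ℝ (Fin m), y ∈ ball 0 ε₀ → R (u y) := by
    have h4 := addHaar_image_eq_zero_of_differentiableOn_of_addHaar_eq_zero volume
      (f := φ.symm ∘ J) (s := {y | ¬ R (J y)} ∩ {y | DifferentiableAt ℝ φ.symm (J y)})
      (fun y hy => (hy.2.comp y J.differentiableAt).differentiableWithinAt)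
      (measure_mono_null inter_subset_left hJ')
    refine measure_mono_null (fun y hy => ?_) h4
    obtain ⟨hy1, hy2⟩ := Classical.not_imp.1 hy
    have e : J (J.symm (u y)) = u y := J.apply_symm_apply _
    refine ⟨J.symm (u y), ⟨?_, ?_⟩, ?_⟩
    · rw [mem_setOf_eq, e]
      exact hy2
    · rw [mem_setOf_eq, e]
      exact (hb y hy1).1
    · rw [Function.comp_apply, e]
      exact φ.left_inv (hb y hy1).2
  have h5 := Measure.ae_ae_of_ae_prod (Measure.measurePreserving_swap.quasiMeasurePreserving.ae h3)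
  have hh : 0 < ε / 2 := half_pos hε
  obtain ⟨κ, h6, h7⟩ := (Measure.dense_of_ae h5).exists_mem_open isOpen_ball ⟨0, mem_ball_self hh⟩
  obtain ⟨σ₀, h8, h9⟩ := (Measure.dense_of_ae h6).exists_mem_open isOpen_ball ⟨0, mem_ball_self hh⟩
  have hy : ((σ₀, κ) : ℝ × EuclideanSpace ℝ (Fin m)) ∈ ball 0 (ε / 2) := by
    rw [← ball_prod_same]
    exact ⟨h9, h7⟩
  refine ⟨(σ₀, κ), hy, h8 (ball_subset_ball (by linarith) hy), ?_⟩
  have hd := Measure.dense_of_ae ((measurePreserving_add_left volume σ₀).quasiMeasurePreserving.ae h6)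
  rw [← closure_Ioo (by linarith : (0 : ℝ) ≠ ε / 4)]
  refine closure_minimal ((hd.open_subset_closure_inter isOpen_Ioo).trans
    (closure_mono fun σ hσ => ⟨?_, subset_closure hσ.1⟩)) isClosed_closure
  have e : ((σ₀, κ) : ℝ × EuclideanSpace ℝ (Fin m)) + (σ, 0) = (σ₀ + σ, κ) :=
    Prod.ext rfl (add_zero κ)
  rw [mem_setOf_eq, e]
  refine hσ.2 ?_
  change ((σ₀ + σ, κ) : ℝ × EuclideanSpace ℝ (Fin m)) ∈ ball 0 ε₀
  rw [← ball_prod_same]
  refine ⟨?_, ball_subset_ball (by linarith) h7⟩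
  rw [mem_ball_zero_iff, Real.norm_eq_abs, abs_lt] at h9
  change σ₀ + σ ∈ ball (0 : ℝ) ε₀
  rw [mem_ball_zero_iff, Real.norm_eq_abs, abs_lt]
  constructor <;> linarith [hσ.1.1, hσ.1.2, h9.1, h9.2]

end Vale.Agent.P207Z
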