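import Vale.Agent.P207Z.Real.Defs2
import Vale.Agent.P207Z.JetM

/-!
# P207 REAL: the family solves the equation of the geodesics
-/

set_option linter.all false

open Set Filter Topology Metric VectorField
open scoped ContDiff

noncomputable section

namespace Vale.Agent.P207Z

variable {Γ X B E V : Type} [Group Γ] [Countable Γ] [MetricSpace X] [ProperSpace X]
  [MulAction Γ X] [IsIsometricSMul Γ X] [MeasurableSpace X] [BorelSpace X]
  [TopologicalSpace B] [CompactSpace B] [T2Space B] [SecondCountableTopology B] [MulAction Γ B]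
  [ContinuousConstSMul Γ B] [MeasurableSpace B] [BorelSpace B]
  [NormedAddCommGroup E] [InnerProductSpace ℝ E] [FiniteDimensional ℝ E]
  [NormedAddCommGroup V] [NormedSpace ℝ V] [FiniteDimensional ℝ V]
  {A W G : Type} [NormedAddCommGroup A] [NormedSpace ℝ A] [FiniteDimensional ℝ A]
  [NormedAddCommGroup W] [NormedSpace ℝ W] [FiniteDimensional ℝ W]
  [NormedAddCommGroup G] [NormedSpace ℝ G] {S : Sys Γ X B E V}

namespace AffX

section Gen

variable {U H G' : Type} [NormedAddCommGroup U] [NormedSpace ℝ U] [NormedAddCommGroup H]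
  [NormedSpace ℝ H] [NormedAddCommGroup G'] [NormedSpace ℝ G'] {k : ℕ} {z : U}

theorem fd_app {c : U → H →L[ℝ] G'} {x : U → H} (hc : DifferentiableAt ℝ c z)
    (hx : DifferentiableAt ℝ x z) (u : U) : fderiv ℝ (fun q => c q (x q)) z u =
      fderiv ℝ c z u (x z) + c z (fderiv ℝ x z u) := by
  rw [fderiv_clm_apply hc hx, add_comm]
  rfl

theorem fd_const {c : U → H →L[ℝ] G'} (hc : DifferentiableAt ℝ c z) (x : H) (u : U) :
    fderiv ℝ (fun q => c q x) z u = fderiv ℝ c z u x := by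
  rw [fd_app hc (differentiableAt_const x), fderiv_fun_const]
  simp

theorem fd_clm (L : H →L[ℝ] G') {x : U → H} (hx : DifferentiableAt ℝ x z) (u : U) :
    fderiv ℝ (fun q => L (x q)) z u = L (fderiv ℝ x z u) :=
  DFunLike.congr_fun (L.hasFDerivAt.comp z hx.hasFDerivAt).fderiv u

theorem fd_om {x y : U → V} (hx : DifferentiableAt ℝ x z) (hy : DifferentiableAt ℝ y z) (u : U) :
    fderiv ℝ (fun q => S.om (x q) (y q)) z u =
      S.om (fderiv ℝ x z u) (y z) + S.om (x z) (fderiv ℝ y z u) := by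
  rw [fd_app (c := fun q => S.om (x q)) (S.om.differentiableAt.comp z hx) hy, fd_clm S.om hx]

theorem flat_dir {f f' : U → G'} (h : Flat (k + 1) f z) (hf : ContDiffAt ℝ (k + 1 : ℕ) f z) (u : U)
    (e : ∀ᶠ q in 𝓝 z, f' q = fderiv ℝ f q u) : Flat k f' z :=
  ((h.fderiv hf).apply (continuousAt_const (y := u))).congr e

theorem flat_of_om [FiniteDimensional ℝ H] {N : U → H →L[ℝ] V} {d : U → V} (hN : ContinuousAt N z)
    (hi : ∀ v, (∀ w, S.om v (N z w) = 0) → v = 0)
    (h : ∀ w, Flat k (fun s => S.om (d s) (N s w)) z) : Flat k d z := by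
  obtain ⟨C, hC, hb⟩ := le_of_ker_le (A := ContinuousLinearMap.id ℝ V)
    (M := ((ContinuousLinearMap.compL ℝ H V ℝ).flip (N z) : (V →L[ℝ] ℝ) →L[ℝ] H →L[ℝ] ℝ) ∘L S.om)
    fun v hv => hi v fun w => DFunLike.congr_fun hv w
  have h1 : Flat k (fun s => S.om (d s) ∘L N s) z := flat_clm_iff.2 h
  have h2 : ContinuousAt (fun s => C * (‖S.om‖ * ‖N z - N s‖)) z := by fun_prop
  refine h1.of_le (2 * C) ?_
  filter_upwards [h2.eventually_lt (continuousAt_const (y := (1 / 2 : ℝ))) (by simp)] with s hs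
  have h3 : ‖d s‖ ≤ C * ‖S.om (d s) ∘L N z‖ := hb (d s)
  have h4 : ‖S.om (d s) ∘L N z‖ ≤ ‖S.om (d s) ∘L N s‖ + ‖S.om‖ * ‖N z - N s‖ * ‖d s‖ := by
    have e : S.om (d s) ∘L N z = S.om (d s) ∘L N s + S.om (d s) ∘L (N z - N s) := by
      rw [← ContinuousLinearMap.comp_add, add_sub_cancel]
    rw [e, mul_right_comm]
    exact (norm_add_le _ _).trans (add_le_add_right ((ContinuousLinearMap.opNorm_comp_le _ _).trans
      (mul_le_mul_of_nonneg_right (S.om.le_opNorm _) (norm_nonneg _))) _)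
  have h5 := mul_le_mul_of_nonneg_left h4 hC
  have h6 := mul_le_mul_of_nonneg_right hs.le (norm_nonneg (d s))
  nlinarith

end Gen

variable {k : ℕ} {P : V → V →L[ℝ] V} {Q : A × W → V} {M : A → W →L[ℝ] A →L[ℝ] ℝ} {p : A × W}

theorem slice {g : A × W → G} (h : Flat k g p) : Flat k (fun s => g (p.1, s)) p.2 :=
  Flat.comp (τ := fun s : W => (p.1, s)) h (by fun_prop)

theorem ev_slice {R : A × W → Prop} (h : ∀ᶠ q in 𝓝 p, R q) : ∀ᶠ s in 𝓝 p.2, R (p.1, s) :=
  (Continuous.prodMk_right p.1).continuousAt.eventually h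

theorem fd_slice {g : A × W → G} {a : A} {s : W} (hg : DifferentiableAt ℝ g (a, s)) :
    fderiv ℝ (fun s => g (a, s)) s = fderiv ℝ g (a, s) ∘L ContinuousLinearMap.inr ℝ A W :=
  (hg.hasFDerivAt.comp s (hasFDerivAt_prodMk_right a s)).fderiv

theorem fd_slice₂ {g : A × W → G} {a : A} {s : W} (hg : ∀ᶠ q in 𝓝 (a, s), DifferentiableAt ℝ g q)
    (hg' : DifferentiableAt ℝ (fderiv ℝ g) (a, s)) (e e' : W) :
    fderiv ℝ (fderiv ℝ fun s => g (a, s)) s e e' = fderiv ℝ (fderiv ℝ g) (a, s) (0, e) (0, e') := by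
  have h1 : (fderiv ℝ fun s => g (a, s)) =ᶠ[𝓝 s]
      fun s => fderiv ℝ g (a, s) ∘L ContinuousLinearMap.inr ℝ A W :=
    (ev_slice hg).mono fun _ h => fd_slice h
  have h2 := ((hg'.hasFDerivAt.comp s (hasFDerivAt_prodMk_right a s)).clm_comp
    (hasFDerivAt_const (ContinuousLinearMap.inr ℝ A W) s)).fderiv
  simp only [Function.comp_apply] at h2
  rw [h1.fderiv_eq, h2]
  simp

theorem om_prp (P : V → V →L[ℝ] V) (q v c : V) : S.om v (S.prp P q c) = S.om (v - P q v) c := by
  rw [map_sub, ContinuousLinearMap.sub_apply, ← S.om_adj, ← map_sub]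
  rfl

theorem inj (h : S.Fml k P Q M p) {e : W}
    (he : ∀ a, S.om (fderiv ℝ Q p (0, e)) (fderiv ℝ Q p (a, 0)) = 0) : e = 0 :=
  h.inj e (ContinuousLinearMap.ext fun a => by
    have := (h.om e a).eq_zero
    rwa [he, zero_sub, neg_eq_zero] at this)

theorem range_eq (h : S.Fml k P Q M p) {v : V} (hv : P (Q p) v = v) :
    ∃ e, fderiv ℝ Q p (0, e) = v := by
  have h1 : (fderiv ℝ Q p ∘L ContinuousLinearMap.inr ℝ A W).range = (P (Q p)).range := by
    refine Submodule.eq_of_le_of_finrank_eq ?_ ?_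
    · rintro _ ⟨e, rfl⟩
      exact ⟨_, (sub_eq_zero.1 (h.tan e).eq_zero).symm⟩
    · rw [← h.rk]
      refine LinearMap.finrank_range_of_inj ((injective_iff_map_eq_zero _).2 fun e he => ?_)
      exact inj h fun a => by
        rw [show fderiv ℝ Q p (0, e) = 0 from he, map_zero, ContinuousLinearMap.zero_apply]
  exact (h1.ge ⟨v, hv⟩ :)

/-- the pointwise facts near the base point -/
structure Nr (P : V → V →L[ℝ] V) (Q : A × W → V) (q : A × W) : Prop where
  d1 : DifferentiableAt ℝ Q q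
  d2 : DifferentiableAt ℝ (fderiv ℝ Q) q
  dP : DifferentiableAt ℝ P (Q q)
  idem : P (Q q) * P (Q q) = P (Q q)
  sy : ∀ u v, fderiv ℝ (fderiv ℝ Q) q u v = fderiv ℝ (fderiv ℝ Q) q v u

theorem near (h : S.Fml (k + 1) P Q M p) (hP : S.FF k P (Q p)) : ∀ᶠ q in 𝓝 p, Nr P Q q := by
  filter_upwards [h.sm.eventually (by simp), h.sm.continuousAt.eventually hP.sm] with q h1 h2
  exact ⟨h1.differentiableAt (by simp),
    (h1.fderiv_right (m := (k + 1 : ℕ)) (by norm_cast)).differentiableAt (by simp),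
    h2.1.differentiableAt (by simp), h2.2,
    (h1.isSymmSndFDerivAt (by simp; norm_cast; omega)).eq⟩

theorem Nr.dX {q : A × W} (n : Nr P Q q) (u : A × W) :
    DifferentiableAt ℝ (fun q => fderiv ℝ Q q u) q := n.d2.clm_apply (differentiableAt_const u)

theorem Nr.dprp {q : A × W} (n : Nr P Q q) : DifferentiableAt ℝ (S.prp P) (Q q) :=
  (differentiableAt_const _).sub (S.adj.differentiableAt.comp _ n.dP)

theorem fd_comp {H : Type} [NormedAddCommGroup H] [NormedSpace ℝ H] {R : V → H} {q : A × W}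
    (hR : DifferentiableAt ℝ R (Q q)) (hQ : DifferentiableAt ℝ Q q) (u : A × W) :
    fderiv ℝ (fun q => R (Q q)) q u = fderiv ℝ R (Q q) (fderiv ℝ Q q u) :=
  DFunLike.congr_fun (hR.hasFDerivAt.comp q hQ.hasFDerivAt).fderiv u

section Main

variable (h : S.Fml (k + 1) P Q M p) (hP : S.FF k P (Q p))
include h

theorem sD : ContDiffAt ℝ (k + 1 : ℕ) (fderiv ℝ Q) p := h.sm.fderiv_right (by norm_cast)

theorem sX (u : A × W) : ContDiffAt ℝ (k + 1 : ℕ) (fun q => fderiv ℝ Q q u) p :=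
  (sD h).clm_apply contDiffAt_const

theorem cD2 (u v : A × W) : ContinuousAt (fun q => fderiv ℝ (fderiv ℝ Q) q u v) p :=
  ((((sD h).fderiv_right (m := k) (by norm_cast)).continuousAt.clm_apply
    continuousAt_const).clm_apply continuousAt_const)

theorem sC {H : Type} [NormedAddCommGroup H] [NormedSpace ℝ H] {R : V → H}
    (hR : ContDiffAt ℝ (k + 1 : ℕ) R (Q p)) : ContDiffAt ℝ (k + 1 : ℕ) (fun q => R (Q q)) p :=
  hR.comp p (h.sm.of_le (by norm_cast; omega))

theorem cD {H : Type} [NormedAddCommGroup H] [NormedSpace ℝ H] {R : V → H}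
    (hR : ContDiffAt ℝ (k + 1 : ℕ) R (Q p)) : ContinuousAt (fun q => fderiv ℝ R (Q q)) p :=
  (hR.fderiv_right (m := k) (by norm_cast)).continuousAt.comp h.sm.continuousAt

theorem tan (e : W) :
    Flat (k + 1) (fun q => fderiv ℝ Q q (0, e) - P (Q q) (fderiv ℝ Q q (0, e))) p := h.tan e

include hP

theorem sP : ContDiffAt ℝ (k + 1 : ℕ) P (Q p) := hP.sm.self_of_nhds.1

theorem sR : ContDiffAt ℝ (k + 1 : ℕ) (S.prp P) (Q p) :=
  contDiffAt_const.sub (S.adj.contDiff.contDiffAt.comp _ (sP h hP))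

theorem omP (e : W) {v : A × W → V} (hv : ContinuousAt v p) :
    Flat (k + 1) (fun q => S.om (fderiv ℝ Q q (0, e)) (P (Q q) (v q))) p := by
  have h1 : Flat (k + 1) (fun q => S.om.bilinearComp (P q) (P q)) (Q p) :=
    flat_clm_iff.2 fun v => flat_clm_iff.2 fun w => hP.iso v w
  have h2 := ((h1.comp (near h hP).self_of_nhds.d1).apply (sX h (0, e)).continuousAt).apply hv
  refine (((tan h e).bilin_left S.om ((sC h (sP h hP)).continuousAt.clm_apply hv)).add h2).congr
    (Eventually.of_forall fun q => ?_)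
  simp

theorem one (e e' : W) (a : A) : Flat k (fun s =>
    S.om (fderiv ℝ (fderiv ℝ Q) (p.1, s) (0, e) (0, e') - S.gam P (Q (p.1, s))
      (fderiv ℝ Q (p.1, s) (0, e)) (fderiv ℝ Q (p.1, s) (0, e'))) (fderiv ℝ Q (p.1, s) (a, 0)))
      p.2 := by
  have hs : ContDiffAt ℝ (k + 1 : ℕ) (fun s : W => (p.1, s)) p.2 := by fun_prop
  have a1 : Flat k (fun s => S.om (fderiv ℝ (fderiv ℝ Q) (p.1, s) (0, e) (0, e'))
      (fderiv ℝ Q (p.1, s) (a, 0)) + S.om (fderiv ℝ Q (p.1, s) (0, e'))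
        (fderiv ℝ (fderiv ℝ Q) (p.1, s) (0, e) (a, 0))) p.2 := by
    refine flat_dir (f := fun s => S.om (fderiv ℝ Q (p.1, s) (0, e')) (fderiv ℝ Q (p.1, s) (a, 0))
      - M p.1 e' a) (slice (h.om e' a)) ((((S.om.contDiff.contDiffAt.comp p
      (sX h (0, e'))).clm_apply (sX h (a, 0))).comp p.2 hs).sub contDiffAt_const) e ?_
    filter_upwards [ev_slice (near h hP)] with s n
    rw [fderiv_sub_const, fd_slice (g := fun q => S.om (fderiv ℝ Q q (0, e')) (fderiv ℝ Q q (a, 0)))
      ((S.om.differentiableAt.comp _ (n.dX _)).clm_apply (n.dX _)), ContinuousLinearMap.comp_apply,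
      fd_om (n.dX _) (n.dX _), fd_const n.d2, fd_const n.d2]
    rfl
  have a2 : Flat k (fun q => fderiv ℝ (fderiv ℝ Q) q (a, 0) (0, e) -
      (fderiv ℝ P (Q q) (fderiv ℝ Q q (a, 0)) (fderiv ℝ Q q (0, e)) +
        P (Q q) (fderiv ℝ (fderiv ℝ Q) q (a, 0) (0, e)))) p := by
    refine flat_dir (tan h e) ((sX h _).sub ((sC h (sP h hP)).clm_apply (sX h _))) (a, 0) ?_
    filter_upwards [near h hP] with q n
    have d : DifferentiableAt ℝ (fun q => P (Q q)) q := n.dP.comp q n.d1
    rw [fderiv_fun_sub (n.dX _) (d.clm_apply (n.dX _)), ContinuousLinearMap.sub_apply,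
      fd_app d (n.dX _), fd_const n.d2, fd_comp n.dP n.d1]
  have a3 := (a2.bilin_right S.om (sX h (0, e')).continuousAt).add
    ((omP h hP e' (cD2 h (a, 0) (0, e))).mono (Nat.le_succ k))
  refine (a1.sub (slice a3)).congr ?_
  filter_upwards [ev_slice (near h hP)] with s n
  rw [map_sub, ContinuousLinearMap.sub_apply, S.om_gam, n.sy (0, e) (a, 0), map_sub, map_add]
  ring

theorem two (e e' : W) (c : V) : Flat k (fun q =>
    S.om (fderiv ℝ (fderiv ℝ Q) q (0, e) (0, e') - S.gam P (Q q)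
      (fderiv ℝ Q q (0, e)) (fderiv ℝ Q q (0, e'))) (S.prp P (Q q) c)) p := by
  have sZ : ContDiffAt ℝ (k + 1 : ℕ) (fun q => S.prp P (Q q) c) p :=
    (sC h (sR h hP)).clm_apply contDiffAt_const
  have b0 : Flat (k + 1) (fun q => S.om (fderiv ℝ Q q (0, e')) (S.prp P (Q q) c)) p :=
    ((tan h e').bilin_left S.om (continuousAt_const (y := c))).congr
      (Eventually.of_forall fun q => om_prp _ _ _ _)
  have b1 : Flat k (fun q => S.om (fderiv ℝ (fderiv ℝ Q) q (0, e) (0, e')) (S.prp P (Q q) c) +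
      S.om (fderiv ℝ Q q (0, e')) (fderiv ℝ (S.prp P) (Q q) (fderiv ℝ Q q (0, e)) c)) p := by
    refine flat_dir b0 ((S.om.contDiff.contDiffAt.comp p (sX h (0, e'))).clm_apply sZ) (0, e) ?_
    filter_upwards [near h hP] with q n
    have d : DifferentiableAt ℝ (fun q => S.prp P (Q q)) q := n.dprp.comp q n.d1
    rw [fd_om (n.dX _) (d.clm_apply (differentiableAt_const c)), fd_const n.d2, fd_const d,
      fd_comp n.dprp n.d1]
  have b2 : Flat k (fun z => S.adj (P z) ∘L ((fderiv ℝ (S.prp P) z).flip c ∘L P z -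
      fderiv ℝ P z (S.prp P z c))) (Q p) := by
    refine flat_clm_iff.2 fun v => (hP.brC v c).congr ?_
    filter_upwards [hP.sm] with z hz
    have d1 : DifferentiableAt ℝ P z := hz.1.differentiableAt (by simp)
    have d2 : DifferentiableAt ℝ (S.prp P) z :=
      (differentiableAt_const _).sub (S.adj.differentiableAt.comp _ d1)
    rw [lieBracket, fd_const d1, fd_const d2, cmp, Sys.prp, sub_sub_cancel]
    rfl
  have cX := fun u => (sX h u).continuousAt
  have cR := (cD h (sR h hP))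
  have b3 := ((b2.comp (near h hP).self_of_nhds.d1).apply (cX (0, e))).bilin_right S.om (cX (0, e'))
  have b4 := ((tan h e').mono (Nat.le_succ k)).bilin_left S.om
    (((cR.clm_apply ((sC h (sP h hP)).continuousAt.clm_apply (cX (0, e)))).clm_apply
      (continuousAt_const (y := c))).sub
      (((cD h (sP h hP)).clm_apply sZ.continuousAt).clm_apply (cX (0, e))))
  have b5 := ((((tan h e).mono (Nat.le_succ k)).bilin_right (ContinuousLinearMap.id ℝ _) cR).apply
    (continuousAt_const (y := c))).bilin_right S.om (cX (0, e'))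
  refine (((b1.sub b3).sub b4).sub b5).congr (Eventually.of_forall fun q => ?_)
  simp only [map_sub, ContinuousLinearMap.sub_apply, S.om_gam, ContinuousLinearMap.comp_apply,
    S.om_adj, ContinuousLinearMap.flip_apply, ContinuousLinearMap.id_apply, Pi.sub_apply]
  ring

end Main

end AffX

open AffX in
theorem Sys.Fml.geo {k : ℕ} {P : V → V →L[ℝ] V} {Q : A × W → V} {M : A → W →L[ℝ] A →L[ℝ] ℝ}
    {p : A × W} (h : S.Fml (k + 1) P Q M p) (hP : S.FF k P (Q p)) :
    S.Geo k P (fun s => Q (p.1, s)) p.2 := by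
  intro e e'
  have h1 : Flat k (fun s => fderiv ℝ (fderiv ℝ Q) (p.1, s) (0, e) (0, e') - S.gam P (Q (p.1, s))
      (fderiv ℝ Q (p.1, s) (0, e)) (fderiv ℝ Q (p.1, s) (0, e'))) p.2 := by
    refine flat_of_om (S := S) (N := fun s => fderiv ℝ Q (p.1, s) ∘L ContinuousLinearMap.inl ℝ A W ∘L
      ContinuousLinearMap.fst ℝ A V + S.prp P (Q (p.1, s)) ∘L ContinuousLinearMap.snd ℝ A V)
      ?_ (fun v hv => ?_) fun w => ?_
    · exact ContinuousAt.comp (f := fun s : W => (p.1, s))
        (((sD h).continuousAt.clm_comp continuousAt_const).add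
          ((sC h (sR h hP)).continuousAt.clm_comp continuousAt_const)) (by fun_prop)
    · have h2 : v - P (Q p) v = 0 := S.om_inj fun c => by
        simpa [om_prp, Prod.mk_zero_zero] using hv (0, c)
      obtain ⟨e₀, rfl⟩ := range_eq h (sub_eq_zero.1 h2).symm
      rw [AffX.inj h (e := e₀) fun a => by simpa using hv (a, 0), Prod.mk_zero_zero, map_zero]
    · refine ((one h hP e e' w.1).add (AffX.slice (two h hP e e' w.2))).congr
        (Eventually.of_forall fun s => ?_)
      exact map_add _ _ _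
  refine h1.congr ?_
  filter_upwards [ev_slice (AffX.near h hP).eventually_nhds] with s n
  rw [fd_slice₂ (n.mono fun _ n => n.d1) n.self_of_nhds.d2, fd_slice n.self_of_nhds.d1]
  rfl

end Vale.Agent.P207Z
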