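import Vale.Agent.P207Z.Real.Defs
import Vale.Agent.P207Z.End.Defs
import Vale.Agent.P207Z.Stay

/-!
# P207: the realisation of a formal family (block CORE), definitions
-/

set_option linter.all false

open Set Filter Topology Metric
open scoped ContDiff

noncomputable section

namespace Vale.Agent.P207Z

variable {Γ X B E V : Type} [Group Γ] [Countable Γ] [MetricSpace X] [ProperSpace X]
  [MulAction Γ X] [IsIsometricSMul Γ X] [MeasurableSpace X] [BorelSpace X]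
  [TopologicalSpace B] [CompactSpace B] [T2Space B] [SecondCountableTopology B] [MulAction Γ B]
  [ContinuousConstSMul Γ B] [MeasurableSpace B] [BorelSpace B]
  [NormedAddCommGroup E] [InnerProductSpace ℝ E] [FiniteDimensional ℝ E]
  [NormedAddCommGroup V] [NormedSpace ℝ V] [FiniteDimensional ℝ V]
  {A W : Type} [NormedAddCommGroup A] [NormedSpace ℝ A] [NormedAddCommGroup W] [NormedSpace ℝ W]

namespace Sys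

variable (S : Sys Γ X B E V)

/-- `z` is a frame over the point `Pt (y, 0)` of the chart of `x₀`, at the level of `x₀` -/
def Ov (x₀ : X) (Pt : A × W → V) (y : A) (z : X) : Prop :=
  S.pt z = S.c x₀ (Pt (y, 0)) ∧ S.lv z = S.lv x₀

/-- the family in the chart of `φ t z` -/
def Th (x₀ : X) (Pt : A × W → V) (z : X) (t : ℝ) (p : A × W) : V := S.τ x₀ (S.φ t z) (Pt p)

/-- its Taylor coefficients in `s` -/
def co (J : ℕ) (x₀ : X) (Pt : A × W → V) (z : X) (t : ℝ) (y : A) : Jet J W V :=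
  jet J (fun s => S.Th x₀ Pt z t (y, s)) 0

/-- its Taylor polynomial in `s` -/
def ap (J : ℕ) (x₀ : X) (Pt : A × W → V) (z : X) (t : ℝ) (p : A × W) : V :=
  poly (S.co J x₀ Pt z t p.1) p.2

/-- the parameter `y` is good at the time `T` -/
def Gd (J : ℕ) (x₀ : X) (Pt : A × W → V) (C T : ℝ) (y : A) : Prop :=
  ∀ z, S.Ov x₀ Pt y z → Flat J (fun s => S.pU (S.τ x₀ z (Pt (y, s)))) 0 ∧
    ∀ i, 1 ≤ i → i ≤ J → ‖iteratedFDeriv ℝ i (fun s => S.Th x₀ Pt z T (y, s)) 0‖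
      ≤ C * Real.exp (-S.lam * i * T)

/-- the formal family along the unstable axis of `x₀` -/
structure Pre0 (x₀ : X) (Pt : A × W → V) (ε : ℝ) : Prop where
  pos : 0 < ε
  sm : ∀ y ∈ ball (0 : A) (2 * ε), ContDiffAt ℝ ∞ Pt (y, 0)
  bd : ∀ i, ∃ C, ∀ y ∈ ball (0 : A) (2 * ε), ‖iteratedFDeriv ℝ i Pt (y, 0)‖ ≤ C
  small : ∀ y ∈ ball (0 : A) (2 * ε), ‖Pt (y, 0)‖ ≤ 1 / 4
  ax : ∀ y ∈ ball (0 : A) (2 * ε), S.pS (Pt (y, 0)) = 0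

/-- the input of the realisation -/
structure Pre (J : ℕ) (x₀ : X) (Pt : A × W → V) (ε C : ℝ) : Prop extends S.Pre0 x₀ Pt ε where
  good : ∀ y₀ ∈ ball (0 : A) (2 * ε), ∀ T ≥ (0 : ℝ),
    ∃ y, ‖y - y₀‖ ≤ C * Real.exp (-S.lam * T) ∧ S.Gd J x₀ Pt C T y

/-- regularity of the family in the charts along the orbits -/
structure Reg (b r D : ℝ) (x₀ : X) (Pt : A × W → V) (ε : ℝ) : Prop where
  mem : ∀ y ∈ ball (0 : A) (3 * ε / 2), ∀ z, S.Ov x₀ Pt y z → ∀ t ≥ (0 : ℝ),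
    ∀ y' ∈ ball y (r * Real.exp (-b * t)), y' ∈ ball (0 : A) (2 * ε) ∧
      Pt (y', 0) ∈ S.dom x₀ (S.φ t z) ∧ ContDiffAt ℝ ∞ (S.Th x₀ Pt z t) (y', 0) ∧
      ‖S.Th x₀ Pt z t (y', 0)‖ ≤ 1 / 4 ∧
      ‖S.Th x₀ Pt z t (y', 0)‖ ≤ D * Real.exp (b * t) * ‖y' - y‖ ∧
      ∀ z', S.Ov x₀ Pt y' z' → dist (S.φ t z) (S.φ t z') ≤ D
  bd : ∀ i, ∃ C, ∀ y ∈ ball (0 : A) (3 * ε / 2), ∀ z, S.Ov x₀ Pt y z → ∀ t ≥ (0 : ℝ),
    ∀ y' ∈ ball y (r * Real.exp (-b * t)),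
      ‖iteratedFDeriv ℝ i (S.Th x₀ Pt z t) (y', 0)‖ ≤ C * Real.exp (b * i * t)

/-- the bounds of the Taylor coefficients -/
structure Coef (h β K D : ℝ) (i₁ J n₁ : ℕ) (x₀ : X) (Pt : A × W → V) (ε : ℝ) : Prop where
  mem : ∀ n ≥ n₁, ∀ y ∈ ball (0 : A) ε, ∀ z, S.Ov x₀ Pt y z →
    ∀ y' ∈ ball y (2 * Real.exp (-β * n)), y' ∈ ball (0 : A) (2 * ε) ∧
      Pt (y', 0) ∈ S.dom x₀ (S.φ (n * h) z) ∧ ContDiffAt ℝ ∞ (S.Th x₀ Pt z (n * h)) (y', 0) ∧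
      ∀ z', S.Ov x₀ Pt y' z' → ∀ t, |t - n * h| ≤ h → dist (S.φ (n * h) z) (S.φ t z') ≤ D
  bd : ∀ i, ∃ C, ∀ n ≥ n₁, ∀ y ∈ ball (0 : A) ε, ∀ z, S.Ov x₀ Pt y z →
    ∀ y' ∈ ball y (2 * Real.exp (-β * n)),
      ‖iteratedFDeriv ℝ i (S.co J x₀ Pt z (n * h)) y'‖ ≤ C * Real.exp (β * i * n) * (3 / 4) ^ n ∧
      ∀ j : Fin (J + 1), i₁ ≤ (j : ℕ) →
        ‖iteratedFDeriv ℝ i (fun y => S.co J x₀ Pt z (n * h) y j) y'‖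
          ≤ C * Real.exp (β * i * n) * Real.exp (-K * n)

/-- the approximant at the time `n`, read in the chart of `x` -/
def bk (h : ℝ) (J : ℕ) (x₀ : X) (Pt : A × W → V) (x z : X) (n : ℕ) (p : A × W) : V :=
  S.τ (S.φ (n * h) z) x (S.ap J x₀ Pt z (n * h) p)

/-- the approximants are compatible -/
def Est (h β K : ℝ) (J : ℕ) (x₀ : X) (Pt : A × W → V) (ε : ℝ) : Prop :=
  ∀ R : ℝ, ∃ (C : ℝ) (n₁ : ℕ), ∀ n₀ ≥ n₁, ∀ y₁ ∈ ball (0 : A) ε, ∀ z₁, S.Ov x₀ Pt y₁ z₁ →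
    ∀ n ≥ n₀, ∀ y ∈ ball (0 : A) ε ∩ ball y₁ (Real.exp (-β * n₀)), ∀ z, S.Ov x₀ Pt y z →
      ∀ p ∈ ball y (Real.exp (-β * n)) ×ˢ ball (0 : W) R,
        S.ap J x₀ Pt z (n * h) p ∈ S.dom (S.φ (n * h) z) (S.φ (n₀ * h) z₁) ∧
        ‖S.bk h J x₀ Pt (S.φ (n₀ * h) z₁) z n p‖ ≤ 1 / 2 ∧
        ContDiffAt ℝ ∞ (S.bk h J x₀ Pt (S.φ (n₀ * h) z₁) z n) p ∧
        (∀ i ≤ 3, ‖iteratedFDeriv ℝ i (S.bk h J x₀ Pt (S.φ (n₀ * h) z₁) z n₀) p‖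
          ≤ C * Real.exp (β * 3 * n₀)) ∧
        ∀ n', n' = n ∨ n' = n + 1 → ∀ y' ∈ ball (0 : A) ε ∩ ball y₁ (Real.exp (-β * n₀)),
          ∀ z', S.Ov x₀ Pt y' z' → p.1 ∈ ball y' (Real.exp (-β * n')) → ∀ i ≤ 3,
            ‖iteratedFDeriv ℝ i (S.bk h J x₀ Pt (S.φ (n₀ * h) z₁) z n) p -
              iteratedFDeriv ℝ i (S.bk h J x₀ Pt (S.φ (n₀ * h) z₁) z' n') p‖
                ≤ C * Real.exp (-K * n)

/-- the limit of the approximants -/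
structure Apx (h K : ℝ) (J : ℕ) (x₀ : X) (Pt : A × W → V) (ε : ℝ) (P : A × W → B × B) :
    Prop where
  base : ∀ y ∈ ball (0 : A) ε, P (y, 0) = S.c x₀ (Pt (y, 0))
  leaf : ∀ y ∈ ball (0 : A) ε, ∀ s, (P (y, s)).2 = (S.c x₀ (Pt (y, 0))).2
  apx : ∀ R : ℝ, ∃ (C : ℝ) (n₁ : ℕ), ∀ n ≥ n₁, ∀ y ∈ ball (0 : A) ε, ∀ z, S.Ov x₀ Pt y z →
    ∀ s ∈ ball (0 : W) R, ∃ Q, S.Rep P (y, s) (S.φ (n * h) z) Q ∧ ∀ i ≤ 2,
      ‖iteratedFDeriv ℝ i Q (y, s) - iteratedFDeriv ℝ i (S.ap J x₀ Pt z (n * h)) (y, s)‖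
        ≤ C * Real.exp (-K * n)

/-- the realised family -/
structure Out (h : ℝ) (J : ℕ) (x₀ : X) (Pt : A × W → V) (ε : ℝ) (P : A × W → B × B) : Prop where
  base : ∀ y ∈ ball (0 : A) ε, P (y, 0) = S.c x₀ (Pt (y, 0))
  leaf : ∀ y ∈ ball (0 : A) ε, ∀ s, (P (y, s)).2 = (S.c x₀ (Pt (y, 0))).2
  rep : ∀ y ∈ ball (0 : A) ε, ∀ s, ∃ x Q, S.Rep P (y, s) x Q
  om : ∀ y ∈ ball (0 : A) ε, ∀ (u v : A × W) (m : ℝ),
    Flat J (fun s => S.om (fderiv ℝ Pt (y, s) u) (fderiv ℝ Pt (y, s) v) - m) 0 →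
    ∀ s x Q, S.Rep P (y, s) x Q → S.om (fderiv ℝ Q (y, s) u) (fderiv ℝ Q (y, s) v) = m
  tan : ∀ y ∈ ball (0 : A) ε, ∀ z, S.Ov x₀ Pt y z → ∀ (v : A × W) (R : ℕ) s x Q
    (Pr : V → V →L[ℝ] V), S.Rep P (y, s) x Q → ContDiffAt ℝ 1 Pr (Q (y, s)) →
    (∃ᶠ n : ℕ in atTop, ∃ Pn, Prj J R Pn ∧
      Flat J (fun p => cmp Pn (S.Th x₀ Pt z (n * h) p) (fderiv ℝ (S.Th x₀ Pt z (n * h)) p v))
        (y, 0) ∧
      (Q (y, s) ∈ S.dom x (S.φ (n * h) z) →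
        S.τ x (S.φ (n * h) z) (Q (y, s)) ∈ ball (0 : V) (rad R) →
        Flat 1 (fun q => cmp Pr q ∘L S.TV.conj x (S.φ (n * h) z) Pn q) (Q (y, s)))) →
    Flat 1 (fun p => cmp Pr (Q p) (fderiv ℝ Q p v)) (y, s)

end Sys

end Vale.Agent.P207Z
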