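import Vale.Agent.P207Z.Bun
import Vale.Agent.P207Z.StayA

/-!
# P207: distortion of a cocycle along the stable axis, levels and distances
-/

set_option linter.all false

open Set Filter Topology Metric MeasureTheory
open scoped ContDiff

noncomputable section

namespace Vale.Agent.P207Z

open Vale.Agent.P207.N3 (JC)

variable {Γ X B E V : Type} [Group Γ] [Countable Γ] [MetricSpace X] [ProperSpace X]
  [MulAction Γ X] [IsIsometricSMul Γ X] [MeasurableSpace X] [BorelSpace X]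
  [TopologicalSpace B] [CompactSpace B] [T2Space B] [SecondCountableTopology B] [MulAction Γ B]
  [ContinuousConstSMul Γ B] [MeasurableSpace B] [BorelSpace B]
  [NormedAddCommGroup E] [InnerProductSpace ℝ E] [FiniteDimensional ℝ E]
  [NormedAddCommGroup V] [NormedSpace ℝ V] [FiniteDimensional ℝ V]
  {F W : Type} [NormedAddCommGroup F] [NormedSpace ℝ F] [FiniteDimensional ℝ F]
  [NormedAddCommGroup W] [NormedSpace ℝ W]
  {S : Sys Γ X B E V}

namespace DistAux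

theorem num {β : ℕ → ℝ} (hβ : ∀ i, 0 ≤ β i) (j : ℕ) : ∃ C : ℝ, 1 ≤ C ∧ ∀ u : ℕ → ℕ → ℝ,
    (∀ n, u n 0 ≤ 1) → (∀ n m, u n (m + 1) ≤
      ∑ i ∈ Finset.range (n + 1), (n.choose i : ℝ) * u i m * β (n - i)) →
    ∀ i < j, ∀ m, u i m ≤ C * (β 0 + 1) ^ m := by
  induction j with
  | zero => exact ⟨1, le_rfl, fun _ _ _ i hi => absurd hi (Nat.not_lt_zero i)⟩
  | succ j ih =>
    obtain ⟨C, hC, h⟩ := ih
    have h0 := hβ 0
    have hK : 0 ≤ ∑ i ∈ Finset.range j, (j.choose i : ℝ) * C * β (j - i) :=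
      Finset.sum_nonneg fun i _ => mul_nonneg (by positivity) (hβ _)
    set K := ∑ i ∈ Finset.range j, (j.choose i : ℝ) * C * β (j - i) with hK'
    refine ⟨C + K, by linarith, fun u h1 h2 i hi m => ?_⟩
    rcases Nat.lt_succ_iff_lt_or_eq.1 hi with hi | rfl
    · exact (h u h1 h2 i hi m).trans (by gcongr; linarith)
    induction m with
    | zero => exact (h1 i).trans (by rw [pow_zero]; linarith)
    | succ m ih =>
      have h3 : ∑ l ∈ Finset.range i, (i.choose l : ℝ) * u l m * β (i - l) ≤ K * (β 0 + 1) ^ m := by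
        rw [hK', Finset.sum_mul]
        refine Finset.sum_le_sum fun l hl => ?_
        have := mul_le_mul_of_nonneg_right (mul_le_mul_of_nonneg_left
          (h u h1 h2 l (Finset.mem_range.1 hl) m) (Nat.cast_nonneg (i.choose l))) (hβ (i - l))
        linarith
      have h4 := h2 i m
      rw [Finset.sum_range_succ, Nat.choose_self, Nat.sub_self, Nat.cast_one, one_mul] at h4
      have h5 := mul_le_mul_of_nonneg_right ih h0
      have h6 : 0 ≤ C * (β 0 + 1) ^ m := by positivity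
      rw [pow_succ]
      linarith

theorem prod_bd {s : Set E} (hs : IsOpen s) {β : ℕ → ℝ} (hβ : ∀ i, 0 ≤ β i) (j : ℕ) :
    ∃ C : ℝ, 0 ≤ C ∧ ∀ f g : ℕ → E → F →L[ℝ] F, (∀ m, ContDiffOn ℝ ∞ (f m) s) →
      (∀ m, ContDiffOn ℝ ∞ (g m) s) → (∀ w ∈ s, f 0 w = 1) →
      ((∀ m, ∀ w ∈ s, f (m + 1) w = f m w * g m w) ∨ ∀ m, ∀ w ∈ s, f (m + 1) w = g m w * f m w) →
      (∀ m i, ∀ w ∈ s, ‖iteratedFDeriv ℝ i (g m) w‖ ≤ β i) →
      ∀ m, ∀ w ∈ s, ‖iteratedFDeriv ℝ j (f m) w‖ ≤ C * (β 0 + 1) ^ m := by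
  obtain ⟨C, hC, h⟩ := num hβ (j + 1)
  refine ⟨C, by linarith, fun f g hf hg h0 h1 h2 m w hw =>
    h (fun n m => ‖iteratedFDeriv ℝ n (f m) w‖) (fun n => ?_) (fun n m => ?_) j j.lt_succ_self m⟩
  · have e : f 0 =ᶠ[𝓝 w] fun _ => 1 := mem_of_superset (hs.mem_nhds hw) h0
    rw [(e.iteratedFDeriv ℝ n).eq_of_nhds]
    rcases eq_or_ne n 0 with rfl | hn
    · rw [norm_iteratedFDeriv_zero]
      exact ContinuousLinearMap.norm_id_le
    · rw [iteratedFDeriv_const_of_ne hn, Pi.zero_apply, norm_zero]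
      exact zero_le_one
  · rcases h1 with h1 | h1
    · have e : f (m + 1) =ᶠ[𝓝 w] fun w => f m w * g m w := mem_of_superset (hs.mem_nhds hw) (h1 m)
      rw [(e.iteratedFDeriv ℝ n).eq_of_nhds]
      refine (StayAux.mul_le hs (hf m) (hg m) hw n).trans (Finset.sum_le_sum fun i _ => ?_)
      exact mul_le_mul_of_nonneg_left (h2 m _ w hw) (by positivity)
    · have e : f (m + 1) =ᶠ[𝓝 w] fun w => g m w * f m w := mem_of_superset (hs.mem_nhds hw) (h1 m)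
      rw [(e.iteratedFDeriv ℝ n).eq_of_nhds]
      refine (StayAux.mul_le hs (hg m) (hf m) hw n).trans ?_
      rw [← Finset.sum_flip]
      refine Finset.sum_le_sum fun i hi => ?_
      have hi' := Nat.lt_succ_iff.1 (Finset.mem_range.1 hi)
      rw [Nat.choose_symm hi', Nat.sub_sub_self hi', mul_right_comm]
      exact mul_le_mul_of_nonneg_left (h2 m _ w hw) (by positivity)

theorem sm_τ {r : ℝ} {x y : X} (h : ∀ w ∈ ball (0 : E) r, S.iS w ∈ S.dom x y) :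
    ContDiffOn ℝ ∞ (fun w => S.τ x y (S.iS w)) (ball 0 r) := fun w hw =>
  ((Sys.contDiffAt_τ (h w hw)).comp w S.iS.contDiff.contDiffAt).contDiffWithinAt

theorem step {f : X × X → V → W} (hf : JC f S.Dm)
    (hs : ∀ (g : Γ) x y, ∀ q ∈ S.dom x y, f (g • x, g • y) q = f (x, y) q) {r : ℝ} (hr : r ≤ S.ρ)
    (h : ∀ x, ∀ t ≥ (0 : ℝ), ∀ w ∈ ball (0 : E) r, S.iS w ∈ S.dom x (S.φ t x) ∧
      ‖S.τ x (S.φ t x) (S.iS w)‖ ≤ 1 / 2) (n : ℕ) :
    ∃ C : ℝ, 0 ≤ C ∧ ∀ x, ∀ s ≥ (0 : ℝ), ∀ t ≥ (0 : ℝ), |t - s| ≤ 1 → ∀ w ∈ ball (0 : E) r,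
      ‖iteratedFDeriv ℝ n (fun w => f (S.φ s x, S.φ t x) (S.τ x (S.φ s x) (S.iS w))) w‖ ≤ C := by
  obtain ⟨D, -, hD⟩ := S.dist_φ_le
  obtain ⟨C, hC, h1⟩ := S.unif_bd hf hs D one_half_lt_one n
  choose c hc using S.contrS
  obtain ⟨M, hM⟩ := ((finite_Iio n).image fun i => c (i + 1) i.succ_pos).bddAbove
  refine ⟨n.factorial * C * max M 1 ^ n, by positivity, fun x s hs0 t ht hst w hw => ?_⟩
  have h2 : MapsTo (fun w => S.τ x (S.φ s x) (S.iS w)) (ball 0 r) (S.dom (S.φ s x) (S.φ t x)) :=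
    fun w hw => Sys.τ_dom' (h x s hs0 w hw).1 (h x t ht w hw).1
  have h3 := norm_iteratedFDerivWithin_comp_le (hf.smooth (S.φ s x, S.φ t x))
    (sm_τ fun w hw => (h x s hs0 w hw).1) (StayAux.cast_le n) Sys.isOpen_dom.uniqueDiffOn
    isOpen_ball.uniqueDiffOn h2 hw (C := C) (D := max M 1) (fun i hi => ?_) (fun i h4 h5 => ?_)
  · rwa [iteratedFDerivWithin_of_isOpen _ isOpen_ball hw] at h3
  · refine (congrArg norm (iteratedFDerivWithin_of_isOpen _ Sys.isOpen_dom (h2 hw))).trans_le ?_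
    refine h1 _ _ (hD x s t hst) _ (h2 hw) (h x s hs0 w hw).2 ?_ i hi
    rw [Sys.τ_trans (h x s hs0 w hw).1 (h x t ht w hw).1]
    exact (h x t ht w hw).2
  · rw [iteratedFDerivWithin_of_isOpen _ isOpen_ball hw]
    obtain ⟨i, rfl⟩ : ∃ l, i = l + 1 := ⟨i - 1, by omega⟩
    refine (hc (i + 1) i.succ_pos x s hs0 w (ball_subset_ball hr hw)).trans ?_
    have h6 : Real.exp (-S.lam * s) ≤ 1 := Real.exp_le_one_iff.2 (by nlinarith [S.lam_pos])
    calc _ ≤ max M 1 * Real.exp (-S.lam * s) :=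
          mul_le_mul_of_nonneg_right ((hM ⟨i, h5, rfl⟩).trans (le_max_left _ _)) (Real.exp_pos _).le
      _ ≤ max M 1 := mul_le_of_le_one_right (by positivity) h6
      _ ≤ max M 1 ^ (i + 1) := le_self_pow₀ (le_max_right _ _) i.succ_ne_zero

theorem pow_le {a b t : ℝ} (ha : 0 ≤ a) (hb : a ≤ b) (ht : 0 ≤ t) :
    (a + 1) ^ (⌊t⌋₊ + 1) ≤ Real.exp b * Real.exp (b * t) := by
  refine (pow_le_pow_left₀ (by positivity) ((Real.add_one_le_exp a).trans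
    (Real.exp_le_exp.2 hb)) _).trans ?_
  rw [← Real.exp_nat_mul, ← Real.exp_add]
  refine Real.exp_le_exp.2 ?_
  push_cast
  nlinarith [Nat.floor_le ht]

end DistAux

open DistAux

theorem Bun.distS (𝔉 : Bun S F) : ∃ r b : ℝ, 0 < r ∧ 0 < b ∧ ∀ j : ℕ, ∃ C : ℝ, 0 ≤ C ∧
    ∀ x, ∀ t ≥ (0 : ℝ), ∀ w ∈ ball (0 : E) r, S.iS w ∈ S.dom x (S.φ t x) ∧
      ‖iteratedFDeriv ℝ j (fun w => 𝔉.A x (S.φ t x) (S.iS w)) w‖ ≤ C * Real.exp (b * t) ∧
      ‖iteratedFDeriv ℝ j (fun w => 𝔉.A (S.φ t x) x (S.τ x (S.φ t x) (S.iS w))) w‖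
        ≤ C * Real.exp (b * t) := by
  obtain ⟨r, C₀, hr, -, h0⟩ := S.stayS one_half_pos
  have h : ∀ x, ∀ t ≥ (0 : ℝ), ∀ w ∈ ball (0 : E) (min r S.ρ), S.iS w ∈ S.dom x (S.φ t x) ∧
      ‖S.τ x (S.φ t x) (S.iS w)‖ ≤ 1 / 2 := fun x t ht w hw =>
    (h0 x t ht w (ball_subset_ball (min_le_left _ _) hw)).1 t right_mem_uIcc
  choose β hβ h1 using step 𝔉.jc 𝔉.smul (min_le_right _ _) h
  choose β' hβ' h2 using step 𝔉.jc_inv (fun g x y q hq => Sys.smul_swap (𝔉.smul g) hq)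
    (min_le_right _ _) h
  have a0 := hβ 0
  have a1 := hβ' 0
  refine ⟨min r S.ρ, β 0 + β' 0 + 1, lt_min hr S.ρ_pos, by linarith, fun j => ?_⟩
  obtain ⟨C, hC, h3⟩ := prod_bd (F := F) (isOpen_ball (x := (0 : E)) (ε := min r S.ρ)) hβ j
  obtain ⟨C', hC', h4⟩ := prod_bd (F := F) (isOpen_ball (x := (0 : E)) (ε := min r S.ρ)) hβ' j
  refine ⟨(C + C') * Real.exp (β 0 + β' 0 + 1), by positivity, fun x t ht w hw => ?_⟩
  obtain ⟨s, s0, s1, e⟩ : ∃ s : ℝ, 0 ≤ s ∧ s ≤ 1 ∧ ((⌊t⌋₊ + 1 : ℕ) : ℝ) * s = t :=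
    ⟨t / (⌊t⌋₊ + 1 : ℕ), by positivity, (div_le_one (by positivity)).2
      (by push_cast; exact (Nat.lt_floor_add_one t).le), mul_div_cancel₀ _ (by positivity)⟩
  have p : ∀ m : ℕ, (m : ℝ) * s ≥ 0 := fun m => by positivity
  have d := fun (m : ℕ) w hw => (h x _ (p m) w hw).1
  have p' : ∀ m : ℕ, |((m + 1 : ℕ) : ℝ) * s - m * s| ≤ 1 := fun m => by
    rw [Nat.cast_succ, add_mul, one_mul, add_sub_cancel_left, abs_of_nonneg s0]
    exact s1
  have z : ∀ w ∈ ball (0 : E) (min r S.ρ), S.iS w ∈ ball (0 : V) 1 := fun w hw =>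
    Sys.dom_ball (d 0 w hw)
  have z' : S.φ (((0 : ℕ) : ℝ) * s) x = x := by rw [Nat.cast_zero, zero_mul, S.φ_zero]
  have h5 := h3 (fun m w => 𝔉.A x (S.φ (m * s) x) (S.iS w))
    (fun m w => 𝔉.A (S.φ (m * s) x) (S.φ ((m + 1 : ℕ) * s) x) (S.τ x (S.φ (m * s) x) (S.iS w)))
    (fun m w hw => ((𝔉.contDiffAt (d m w hw)).comp w S.iS.contDiff.contDiffAt).contDiffWithinAt)
    (fun m w hw => (𝔉.contDiffAt (Sys.τ_dom' (d m w hw) (d (m + 1) w hw))).comp_contDiffWithinAt w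
      (sm_τ (d m) w hw))
    (fun w hw => by rw [z', 𝔉.self x _ (z w hw)])
    (Or.inr fun m w hw => (𝔉.coc _ _ _ _ (d m w hw) (d (m + 1) w hw)).symm)
    (fun m i => h1 i x _ (p m) _ (p (m + 1)) (p' m)) (⌊t⌋₊ + 1) w hw
  have h6 := h4 (fun m w => 𝔉.A (S.φ (m * s) x) x (S.τ x (S.φ (m * s) x) (S.iS w)))
    (fun m w => 𝔉.A (S.φ ((m + 1 : ℕ) * s) x) (S.φ (m * s) x)
      (S.τ (S.φ (m * s) x) (S.φ ((m + 1 : ℕ) * s) x) (S.τ x (S.φ (m * s) x) (S.iS w))))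
    (fun m w hw => (𝔉.contDiffAt (Sys.τ_dom (d m w hw))).comp_contDiffWithinAt w (sm_τ (d m) w hw))
    (fun m w hw => by
      have k := Sys.τ_dom' (d m w hw) (d (m + 1) w hw)
      have k' := ((𝔉.contDiffAt (Sys.τ_dom k)).comp _ (Sys.contDiffAt_τ k)).comp_contDiffWithinAt w
        (sm_τ (d m) w hw)
      exact k')
    (fun w hw => by rw [z', Sys.τ_self (z w hw), 𝔉.self x _ (z w hw)])
    (Or.inl fun m w hw => (𝔉.coc_inv (d m w hw) (d (m + 1) w hw)).symm)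
    (fun m i => h2 i x _ (p m) _ (p (m + 1)) (p' m)) (⌊t⌋₊ + 1) w hw
  rw [e] at h5 h6
  refine ⟨(h x t ht w hw).1, h5.trans ?_, h6.trans ?_⟩
  · rw [mul_assoc]
    exact mul_le_mul (by linarith) (pow_le a0 (by linarith) ht) (by positivity) (by positivity)
  · rw [mul_assoc]
    exact mul_le_mul (by linarith) (pow_le a1 (by linarith) ht) (by positivity) (by positivity)

/-- frames with a common end: the levels and the distance control each other -/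
theorem Sys.lv_le_em (S : Sys Γ X B E V) (D : ℝ) : ∃ C : ℝ, ∀ x y, S.em x = S.em y →
    dist x y ≤ D → |S.lv x - S.lv y| ≤ C := by
  obtain ⟨K, hK, hKx⟩ := S.cocompact
  obtain ⟨C, hC⟩ := (Sys.isCompact_pairs hK D).exists_bound_of_continuousOn
    ((S.lv_cont.comp continuous_fst).sub (S.lv_cont.comp continuous_snd)).continuousOn
  refine ⟨C, fun x y e hd => ?_⟩
  obtain ⟨g, hg⟩ := hKx x
  rw [← S.lv_smul g x y e]
  exact hC (g • x, g • y) ⟨hg, (dist_smul g x y).trans_le hd⟩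
theorem Sys.lp_le_ep (S : Sys Γ X B E V) (D : ℝ) : ∃ C : ℝ, ∀ x y, S.ep x = S.ep y →
    dist x y ≤ D → |S.lp x - S.lp y| ≤ C := by
  obtain ⟨K, hK, hKx⟩ := S.cocompact
  obtain ⟨C, hC⟩ := (Sys.isCompact_pairs hK D).exists_bound_of_continuousOn
    ((S.lp_cont.comp continuous_fst).sub (S.lp_cont.comp continuous_snd)).continuousOn
  refine ⟨C, fun x y e hd => ?_⟩
  obtain ⟨g, hg⟩ := hKx x
  rw [← S.lp_smul g x y e]
  exact hC (g • x, g • y) ⟨hg, (dist_smul g x y).trans_le hd⟩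
theorem Sys.dist_le_U (S : Sys Γ X B E V) {a : ℝ} (ha : a < 1) (c : ℝ) : ∃ D : ℝ, ∀ x y,
    ∀ u : E, ‖u‖ ≤ a → S.pt y = S.c x (S.iU u) → |S.lv y - S.lv x| ≤ c → dist x y ≤ D := by
  obtain ⟨D, h1⟩ := S.fr_near ha
  obtain ⟨C, h2⟩ := S.lv_le_em D
  obtain ⟨D', hD', h3⟩ := S.dist_le_lv
  refine ⟨D + D' * (C + c + 1), fun x y u hu e hc => ?_⟩
  obtain ⟨z, e', hz⟩ := h1 x (S.iU u) ((S.norm_iU u).trans_le hu)
  have h4 := h2 x z ((congrArg Prod.fst e').trans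
    (S.c_iU x (mem_ball_zero_iff.2 (hu.trans_lt ha)))).symm hz
  refine (dist_triangle x z y).trans (add_le_add hz ((h3 z y (e'.trans e.symm)).trans ?_))
  rw [abs_le] at h4 hc
  exact mul_le_mul_of_nonneg_left (add_le_add_left (abs_le.2 ⟨by linarith, by linarith⟩) _) hD'.le
theorem Sys.dist_le_S (S : Sys Γ X B E V) {a : ℝ} (ha : a < 1) (c : ℝ) : ∃ D : ℝ, ∀ x y,
    ∀ w : E, ‖w‖ ≤ a → S.pt y = S.c x (S.iS w) → |S.lp y - S.lp x| ≤ c → dist x y ≤ D := by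
  obtain ⟨D, h1⟩ := S.fr_near ha
  obtain ⟨C, h2⟩ := S.lp_le_ep D
  obtain ⟨D', hD', h3⟩ := S.dist_le_lv
  refine ⟨D + D' * (C + c + 1), fun x y u hu e hc => ?_⟩
  obtain ⟨z, e', hz⟩ := h1 x (S.iS u) ((S.norm_iS u).trans_le hu)
  have h4 := h2 x z ((congrArg Prod.snd e').trans
    (S.c_iS x (mem_ball_zero_iff.2 (hu.trans_lt ha)))).symm hz
  have h5 := S.lv_add z y (congrArg Prod.fst (e'.trans e.symm)) (congrArg Prod.snd (e'.trans e.symm))
  refine (dist_triangle x z y).trans (add_le_add hz ((h3 z y (e'.trans e.symm)).trans ?_))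
  rw [abs_le] at h4 hc
  exact mul_le_mul_of_nonneg_left (add_le_add_left (abs_le.2 ⟨by linarith, by linarith⟩) _) hD'.le

end Vale.Agent.P207Z
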