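import Vale.Agent.P207Z.Real.Defs2
import Vale.Agent.P207Z.JetM

/-!
# P207 REAL: the jet of an affine germ is a continuous function of the data
-/

set_option linter.all false

open Set Filter Topology Metric VectorField
open scoped ContDiff

noncomputable section

namespace Vale.Agent.P207Z

namespace ExpX

open Vale.Agent.P207.N3 (JC)

variable {V W F G : Type} [NormedAddCommGroup V] [NormedSpace ℝ V]
  [NormedAddCommGroup W] [NormedSpace ℝ W] [NormedAddCommGroup F] [NormedSpace ℝ F]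
  [NormedAddCommGroup G] [NormedSpace ℝ G]

/-- the jet of a map from its value and the jet of its derivative -/
def up (k : ℕ) (p : G × Jet k W (W →L[ℝ] G)) : Jet (k + 1) W G :=
  Fin.cases ((continuousMultilinearCurryFin0 ℝ W G).symm p.1)
    fun i => (continuousMultilinearCurryRightEquiv' ℝ i W G).symm (p.2 i)

theorem continuous_up (k : ℕ) : Continuous (up (W := W) (G := G) k) := by
  refine continuous_pi fun i => ?_
  refine Fin.cases ?_ (fun i => ?_) i
  · exact (continuousMultilinearCurryFin0 ℝ W G).symm.continuous.comp continuous_fst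
  · exact (continuousMultilinearCurryRightEquiv' ℝ i W G).symm.continuous.comp
      ((continuous_apply i).comp continuous_snd)

theorem jet_succ (k : ℕ) (g : W → G) (z : W) :
    jet (k + 1) g z = up k (g z, jet k (fderiv ℝ g) z) := by
  funext i
  refine Fin.cases ?_ (fun i => ?_) i
  · exact congrFun (iteratedFDeriv_zero_eq_comp (𝕜 := ℝ) (f := g)) z
  · exact iteratedFDeriv_succ_eq_comp_right (𝕜 := ℝ) (f := g) (x := z) (n := i)

/-- the jet of the derivative -/
def down (k : ℕ) (a : Jet (k + 1) W G) : Jet k W (W →L[ℝ] G) :=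
  fun i => continuousMultilinearCurryRightEquiv' ℝ i W G (a i.succ)

theorem continuous_down (k : ℕ) : Continuous (down (W := W) (G := G) k) :=
  continuous_pi fun i => (continuousMultilinearCurryRightEquiv' ℝ i W G).continuous.comp
    (continuous_apply i.succ)

theorem down_jet (k : ℕ) (g : W → G) (z : W) :
    down k (jet (k + 1) g z) = jet k (fderiv ℝ g) z := by
  funext i
  show continuousMultilinearCurryRightEquiv' ℝ i W G (iteratedFDeriv ℝ (i + 1) g z) = _
  rw [iteratedFDeriv_succ_eq_comp_right, Function.comp_apply, LinearIsometryEquiv.apply_symm_apply]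
  rfl

theorem jet_zero (g : W → G) (z : W) : jet 0 g z = jet 0 (fun _ : W => g z) 0 := by
  funext i
  obtain rfl : i = 0 := Fin.fin_one_eq_zero i
  ext v
  rfl

theorem cont_jet {Z : Type} [TopologicalSpace Z] {f : Z → W → G} (h : JC f univ) (k : ℕ) :
    Continuous fun z => jet k (f z) 0 := continuous_pi fun i =>
  (h.cont i).comp_continuous (f := fun x : Z => (x, (0 : W))) (by fun_prop) fun _ => mem_univ _

theorem flat_prod {k : ℕ} {f : W → F} {g : W → G} {z : W} (hf : Flat k f z) (hg : Flat k g z) :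
    Flat k (fun s => (f s, g s)) z := Asymptotics.IsLittleO.prod_left hf hg

theorem iter_smul (c : ℝ) (g : W → G) : ∀ i : ℕ, iteratedFDeriv ℝ i (fun s => g (c • s)) =
    fun s => c ^ i • iteratedFDeriv ℝ i g (c • s)
  | 0 => by ext; simp
  | i + 1 => by
    funext s
    have h1 : fderiv ℝ (fun s => c ^ i • iteratedFDeriv ℝ i g (c • s)) s =
        c ^ (i + 1) • fderiv ℝ (iteratedFDeriv ℝ i g) (c • s) := by
      have := congrFun (fderiv_const_smul_field (𝕜 := ℝ)
        (f := fun s => iteratedFDeriv ℝ i g (c • s)) (c ^ i)) s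
      rw [Pi.smul_apply, fderiv_comp_smul, smul_smul, ← pow_succ] at this
      exact this
    rw [iteratedFDeriv_succ_eq_comp_left, iteratedFDeriv_succ_eq_comp_left, iter_smul c g i,
      Function.comp_apply, Function.comp_apply, h1, map_smul]

variable [FiniteDimensional ℝ W]

/-- the right side of the equation -/
def psi (T : F →L[ℝ] V →L[ℝ] V →L[ℝ] V) (p : F × (W →L[ℝ] V)) : W →L[ℝ] W →L[ℝ] V :=
  (T p.1).bilinearComp p.2 p.2

theorem contDiff_psi (T : F →L[ℝ] V →L[ℝ] V →L[ℝ] V) : ContDiff ℝ ∞ (psi (W := W) T) := by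
  refine contDiff_clm_apply_iff.2 fun a => contDiff_clm_apply_iff.2 fun b => ?_
  show ContDiff ℝ ∞ fun p : F × (W →L[ℝ] V) => T p.1 (p.2 a) (p.2 b)
  have h := ContinuousLinearMap.contDiff (𝕜 := ℝ) (E := F) (F := V →L[ℝ] V →L[ℝ] V) (n := ∞) T
  have h1 : ContDiff ℝ ∞ fun p : F × (W →L[ℝ] V) => T p.1 := h.comp contDiff_fst
  exact (h1.clm_apply (contDiff_snd.clm_apply contDiff_const)).clm_apply
    (contDiff_snd.clm_apply contDiff_const)

theorem jc_psi (T : F →L[ℝ] V →L[ℝ] V →L[ℝ] V) (J m : ℕ) :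
    JC (fun (z : Jet J V F × Jet m W V) (s : W) =>
      psi T (poly z.1 (poly z.2 s), fderiv ℝ (poly z.2) s)) univ := by
  have h1 : JC (fun (z : Jet J V F × Jet m W V) (s : W) => poly z.2 s) univ :=
    JC.of_uncurry isOpen_univ (contDiff_poly₂.comp
      ((contDiff_snd.comp contDiff_fst).prodMk contDiff_snd)).contDiffOn
  have h2 : JC (fun (z : Jet J V F × Jet m W V) (q : V) => poly z.1 q) univ :=
    JC.of_uncurry isOpen_univ (contDiff_poly₂.comp
      ((contDiff_fst.comp contDiff_fst).prodMk contDiff_snd)).contDiffOn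
  exact ((h2.comp' h1 fun _ _ => mem_univ _).prodMk h1.fderiv).comp_contDiff (contDiff_psi T)

theorem step (T : F →L[ℝ] V →L[ℝ] V →L[ℝ] V) {J m : ℕ} (hm : m ≤ J) {R : V → F} {g : W → V}
    (hR : ContDiffAt ℝ J R 0) (hg : ContDiffAt ℝ (J + 2 : ℕ) g 0) (h0 : g 0 = 0)
    (h : ∀ a b, Flat J (fun s => fderiv ℝ (fderiv ℝ g) s a b
      - T (R (g s)) (fderiv ℝ g s a) (fderiv ℝ g s b)) 0) :
    jet m (fderiv ℝ (fderiv ℝ g)) 0 = jet m (fun s => psi T (poly (jet J R 0)
      (poly (jet (m + 1) g 0) s), fderiv ℝ (poly (jet (m + 1) g 0)) s)) 0 := by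
  have hg1 : ContDiffAt ℝ (m + 1 : ℕ) g 0 := hg.of_le (by exact_mod_cast (by omega))
  have hg2 : ContDiffAt ℝ (m : ℕ) (fderiv ℝ (fderiv ℝ g)) 0 :=
    (hg.fderiv_right (m := (m + 1 : ℕ)) (by exact_mod_cast (by omega))).fderiv_right
      (by exact_mod_cast le_rfl)
  have hs := ((jc_psi (W := W) T J (m + 1)).smooth (jet J R 0, jet (m + 1) g 0)).contDiffAt
    (x := 0) (by simp)
  refine (jet_eq_iff hg2 (hs.of_le (by exact_mod_cast le_top))).2 ?_
  set a := jet J R 0
  set p := poly (jet (m + 1) g 0) with hp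
  have cp : ContDiff ℝ ∞ p := contDiff_poly _
  have f1 : Flat (m + 1) (fun s => g s - p s) 0 := by simpa only [sub_zero] using flat_taylor hg1
  have f2 : Flat m (fun s => fderiv ℝ g s - fderiv ℝ p s) 0 := by
    refine (f1.fderiv (hg1.sub (contDiffAt_poly _ _ _))).congr ?_
    filter_upwards [hg1.eventually (by simp)] with s hs
    exact (fderiv_fun_sub (hs.differentiableAt (by simp))
      (cp.differentiable (by simp) s)).symm
  have f3 : Flat J (fun s => R (g s) - poly a (g s)) 0 := by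
    have := flat_taylor hR
    simp only [sub_zero] at this
    rw [← h0] at this
    exact Flat.comp (τ := g) (by simpa only [h0] using this) (hg1.differentiableAt (by simp))
  have f4 : Flat (m + 1) (fun s => poly a (g s) - poly a (p s)) 0 :=
    f1.map cp.continuous.continuousAt (contDiffAt_poly a 1 _)
  have f5 : Flat m (fun s => (R (g s), fderiv ℝ g s) - (poly a (p s), fderiv ℝ p s)) 0 := by
    refine flat_prod ?_ f2
    simpa only [sub_add_sub_cancel] using (f3.mono hm).add (f4.mono (Nat.le_succ m))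
  have f6 := f5.map (Φ := psi T) (((contDiff_poly a).continuous.comp cp.continuous).prodMk
    (cp.continuous_fderiv (by simp))).continuousAt
    ((contDiff_psi T).contDiffAt.of_le (by exact_mod_cast le_top))
  have f7 : Flat J (fun s => fderiv ℝ (fderiv ℝ g) s - psi T (R (g s), fderiv ℝ g s)) 0 :=
    flat_clm_iff.2 fun a => flat_clm_iff.2 fun b => h a b
  simpa only [sub_add_sub_cancel] using (f7.mono hm).add f6

theorem core (T : F →L[ℝ] V →L[ℝ] V →L[ℝ] V) (J m : ℕ) (hm : m ≤ J + 1) :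
    ∃ e : Jet J V F × (W →L[ℝ] V) → Jet (m + 1) W V, Continuous e ∧
      ∀ (R : V → F) (g : W → V), ContDiffAt ℝ J R 0 → ContDiffAt ℝ (J + 2 : ℕ) g 0 → g 0 = 0 →
        (∀ a b, Flat J (fun s => fderiv ℝ (fderiv ℝ g) s a b
          - T (R (g s)) (fderiv ℝ g s a) (fderiv ℝ g s b)) 0) →
        jet (m + 1) g 0 = e (jet J R 0, fderiv ℝ g 0) := by
  induction m with
  | zero =>
    have h1 : Continuous fun p : Jet J V F × (W →L[ℝ] V) => jet 0 (fun _ : W => p.2) 0 :=
      cont_jet (JC.param' isOpen_univ continuous_snd) 0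
    refine ⟨fun p => up 0 (0, jet 0 (fun _ : W => p.2) 0), (continuous_up 0).comp
      (continuous_const.prodMk h1), ?_⟩
    intro R g _ _ h0 _
    rw [jet_succ, h0, jet_zero]
  | succ m ih =>
    obtain ⟨e, he, h⟩ := ih (by omega)
    obtain ⟨q, hq, c1⟩ : ∃ q : Jet J V F × Jet (m + 1) W V → Jet m W (W →L[ℝ] W →L[ℝ] V),
        (∀ z, q z = jet m (fun s => psi T (poly z.1 (poly z.2 s), fderiv ℝ (poly z.2) s)) 0) ∧
        Continuous q := ⟨_, fun _ => rfl, cont_jet (jc_psi T J (m + 1)) m⟩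
    have c2 : Continuous fun p : Jet J V F × (W →L[ℝ] V) => up m (p.2, q (p.1, e p)) :=
      (continuous_up m).comp (continuous_snd.prodMk (c1.comp (continuous_fst.prodMk he)))
    refine ⟨fun p => up (m + 1) (0, up m (p.2, q (p.1, e p))), (continuous_up _).comp
      (continuous_const.prodMk c2), ?_⟩
    intro R g hR hg h0 hG
    show _ = up (m + 1) (0, up m (fderiv ℝ g 0, q (jet J R 0, e (jet J R 0, fderiv ℝ g 0))))
    rw [jet_succ, jet_succ m, h0, step T (by omega) hR hg h0 hG, ← h R g hR hg h0 hG, hq]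

end ExpX

open ExpX

variable {Γ X B E V : Type} [Group Γ] [Countable Γ] [MetricSpace X] [ProperSpace X]
  [MulAction Γ X] [IsIsometricSMul Γ X] [MeasurableSpace X] [BorelSpace X]
  [TopologicalSpace B] [CompactSpace B] [T2Space B] [SecondCountableTopology B] [MulAction Γ B]
  [ContinuousConstSMul Γ B] [MeasurableSpace B] [BorelSpace B]
  [NormedAddCommGroup E] [InnerProductSpace ℝ E] [FiniteDimensional ℝ E]
  [NormedAddCommGroup V] [NormedSpace ℝ V] [FiniteDimensional ℝ V]
  {A W G : Type} [NormedAddCommGroup A] [NormedSpace ℝ A] [FiniteDimensional ℝ A]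
  [NormedAddCommGroup W] [NormedSpace ℝ W] [FiniteDimensional ℝ W]
  [NormedAddCommGroup G] [NormedSpace ℝ G] {S : Sys Γ X B E V}

theorem ExpX.exists_T (S : Sys Γ X B E V) :
    ∃ T : (V →L[ℝ] V →L[ℝ] V) →L[ℝ] V →L[ℝ] V →L[ℝ] V,
      ∀ P z a b, S.gam P z a b = T (fderiv ℝ P z) a b :=
  ⟨-(ContinuousLinearMap.compL ℝ V (V →L[ℝ] V) (V →L[ℝ] V) S.adj ∘L
    (ContinuousLinearMap.flipₗᵢ ℝ V V V).toContinuousLinearEquiv.toContinuousLinearMap),
    fun _ _ _ _ => rfl⟩

theorem Sys.exists_exp (S : Sys Γ X B E V) (J : ℕ) (W : Type) [NormedAddCommGroup W]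
    [NormedSpace ℝ W] [FiniteDimensional ℝ W] :
    ∃ e : Jet (J + 1) V (V →L[ℝ] V) × (W →L[ℝ] V) → Jet (J + 2) W V, Continuous e ∧
      ∀ (P : V → V →L[ℝ] V) (g : W → V), ContDiffAt ℝ (J + 1 : ℕ) P 0 →
        ContDiffAt ℝ (J + 2 : ℕ) g 0 → g 0 = 0 → S.Geo J P g 0 →
        jet (J + 2) g 0 = e (jet (J + 1) P 0, fderiv ℝ g 0) := by
  obtain ⟨T, hT⟩ := exists_T S
  obtain ⟨e, he, h⟩ := core (W := W) (V := V) (F := V →L[ℝ] V →L[ℝ] V) T J (J + 1) le_rfl
  refine ⟨fun p => e (down J p.1, p.2), he.comp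
    (((continuous_down J).comp continuous_fst).prodMk continuous_snd), fun P g hP hg h0 hG => ?_⟩
  show _ = e (down J (jet (J + 1) P 0), _)
  rw [down_jet]
  refine h _ g (hP.fderiv_right (by exact_mod_cast le_rfl)) hg h0 fun a b => ?_
  simpa only [hT] using hG a b

theorem ExpX.geo_smul {J : ℕ} {P : V → V →L[ℝ] V} {g : W → V} (h : S.Geo J P g 0) (c : ℝ) :
    S.Geo J P (fun s => g (c • s)) 0 := by
  intro a b
  have h1 : fderiv ℝ (fun s => g (c • s)) = fun s => c • fderiv ℝ g (c • s) :=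
    funext fun s => fderiv_comp_smul c
  have h2 : ∀ s, fderiv ℝ (fun s => c • fderiv ℝ g (c • s)) s =
      c • c • fderiv ℝ (fderiv ℝ g) (c • s) := fun s => by
    have := congrFun (fderiv_const_smul_field (𝕜 := ℝ)
      (f := fun s => fderiv ℝ g (c • s)) c) s
    rw [Pi.smul_apply, fderiv_comp_smul] at this
    exact this
  have h3 := Flat.comp (τ := fun s : W => c • s) (z' := 0)
    (by simpa only [smul_zero] using h (c • a) (c • b)) (by fun_prop)
  simpa only [h1, h2, map_smul, ContinuousLinearMap.smul_apply] using h3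

theorem Sys.geo_bound (S : Sys Γ X B E V) (J : ℕ) (n : ℝ) (W : Type) [NormedAddCommGroup W]
    [NormedSpace ℝ W] [FiniteDimensional ℝ W] : ∃ C : ℝ, 0 ≤ C ∧
      ∀ (P : V → V →L[ℝ] V) (g : W → V), ContDiffAt ℝ (J + 1 : ℕ) P 0 → ‖jet (J + 1) P 0‖ ≤ n →
        ContDiffAt ℝ (J + 2 : ℕ) g 0 → g 0 = 0 → S.Geo J P g 0 →
        ∀ i, 1 ≤ i → i ≤ J + 2 → ‖iteratedFDeriv ℝ i g 0‖ ≤ C * ‖fderiv ℝ g 0‖ ^ i := by
  obtain ⟨e, he, h⟩ := S.exists_exp J W
  haveI := JetMx.fd_jet (J + 1) V (V →L[ℝ] V)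
  haveI : ProperSpace (Jet (J + 1) V (V →L[ℝ] V)) := FiniteDimensional.proper_real _
  haveI : ProperSpace (W →L[ℝ] V) := FiniteDimensional.proper_real _
  obtain ⟨C, hC⟩ := ((isCompact_closedBall (0 : Jet (J + 1) V (V →L[ℝ] V)) n).prod
    (isCompact_closedBall (0 : W →L[ℝ] V) 1)).exists_bound_of_continuousOn he.continuousOn
  refine ⟨|C|, abs_nonneg C, fun P g hP hn hg h0 hG i _ hi => ?_⟩
  have key : ∀ t, ‖fderiv ℝ g 0‖ < t → ‖iteratedFDeriv ℝ i g 0‖ ≤ |C| * t ^ i := by
    intro t ht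
    have t0 : 0 < t := (norm_nonneg _).trans_lt ht
    have h1 := h P (fun s => g (t⁻¹ • s)) hP
      (ContDiffAt.comp (g := g) 0 (by simpa only [smul_zero] using hg) (by fun_prop))
      (by simpa only [smul_zero] using h0) (geo_smul hG _)
    have h2 : ‖jet (J + 2) (fun s => g (t⁻¹ • s)) 0‖ ≤ C := by
      rw [h1]
      refine hC _ ⟨mem_closedBall_zero_iff.2 hn, mem_closedBall_zero_iff.2 ?_⟩
      show ‖fderiv ℝ (fun s => g (t⁻¹ • s)) 0‖ ≤ 1
      rw [fderiv_comp_smul, smul_zero, norm_smul, Real.norm_of_nonneg (by positivity),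
        inv_mul_le_iff₀ t0, mul_one]
      exact ht.le
    have h3 : ‖iteratedFDeriv ℝ i (fun s => g (t⁻¹ • s)) 0‖ ≤ |C| :=
      ((norm_le_pi_norm (jet (J + 2) (fun s => g (t⁻¹ • s)) 0)
        ⟨i, Nat.lt_succ_of_le hi⟩).trans h2).trans (le_abs_self C)
    rw [iter_smul] at h3
    simp only [smul_zero] at h3
    rwa [norm_smul, Real.norm_of_nonneg (by positivity), inv_pow, inv_mul_le_iff₀ (by positivity),
      mul_comm] at h3
  have h4 : Tendsto (fun t : ℝ => |C| * t ^ i) (𝓝[>] ‖fderiv ℝ g 0‖)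
      (𝓝 (|C| * ‖fderiv ℝ g 0‖ ^ i)) :=
    tendsto_nhdsWithin_of_tendsto_nhds (Continuous.tendsto (by fun_prop) _)
  exact ge_of_tendsto h4 (eventually_nhdsWithin_of_forall key)

end Vale.Agent.P207Z
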