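import Vale.Agent.P207Z.Real.Defs
import Vale.Agent.P207Z.End.Defs

/-!
# P207: formal families of leaves (block REAL, calculus in one chart)
-/

set_option linter.all false

open Set Filter Topology Metric VectorField
open scoped ContDiff

noncomputable section

namespace Vale.Agent.P207Z

variable {Γ X B E V : Type} [Group Γ] [Countable Γ] [MetricSpace X] [ProperSpace X]
  [MulAction Γ X] [IsIsometricSMul Γ X] [MeasurableSpace X] [BorelSpace X]
  [TopologicalSpace B] [CompactSpace B] [T2Space B] [SecondCountableTopology B] [MulAction Γ B]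
  [ContinuousConstSMul Γ B] [MeasurableSpace B] [BorelSpace B]
  [NormedAddCommGroup E] [InnerProductSpace ℝ E] [FiniteDimensional ℝ E]
  [NormedAddCommGroup V] [NormedSpace ℝ V] [FiniteDimensional ℝ V]
  {A W : Type} [NormedAddCommGroup A] [NormedSpace ℝ A] [NormedAddCommGroup W] [NormedSpace ℝ W]

/-- the derivative of `Q` in the direction `w` lies in the range of `P`, to the order `k` at `p` -/
def TanTo (k : ℕ) (P : V → V →L[ℝ] V) (Q : A → V) (p w : A) : Prop :=
  Flat k (fun p' => cmp P (Q p') (fderiv ℝ Q p' w)) p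

namespace Sys

variable (S : Sys Γ X B E V)

/-- the Christoffel symbols of the affine structure of the leaves -/
def gam (P : V → V →L[ℝ] V) (z a b : V) : V :=
  -S.omInv (S.om b ∘L (fderiv ℝ P z).flip a)

theorem om_gam (P : V → V →L[ℝ] V) (z a b v : V) :
    S.om (S.gam P z a b) v = -S.om b (fderiv ℝ P z v a) := by
  rw [gam, map_neg, S.om_omInv]
  rfl

/-- `g` is an affine map, to the order `k` at `s₀` -/
def Geo (k : ℕ) (P : V → V →L[ℝ] V) (g : W → V) (s₀ : W) : Prop :=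
  ∀ e e', Flat k (fun s => fderiv ℝ (fderiv ℝ g) s e e'
    - S.gam P (g s) (fderiv ℝ g s e) (fderiv ℝ g s e')) s₀

/-- the identities of the jets of `F` at the point `z` -/
structure FF (k : ℕ) (P : V → V →L[ℝ] V) (z : V) : Prop where
  sm : Idm (k + 1 : ℕ) P z
  iso : ∀ v w, Flat (k + 1) (fun q => S.om (P q v) (P q w)) z
  br : ∀ v w, Flat k (fun q => cmp P q (lieBracket ℝ (fun p => P p v) (fun p => P p w) q)) z
  brC : ∀ v w, Flat k (fun q => cmp (S.prp P) q
    (lieBracket ℝ (fun p => P p v) (fun p => S.prp P p w) q)) z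

/-- the identities of the jets of `F` and `Z` at the point `z` -/
structure FZ (k : ℕ) (P Pz : V → V →L[ℝ] V) (z : V) : Prop extends S.FF k P z where
  smZ : Idm (k + 1 : ℕ) Pz z
  le : Flat (k + 1) (fun q => cmp Pz q ∘L P q) z
  omZ : ∀ v w, Flat (k + 1) (fun q => S.om (P q v) (Pz q w)) z
  brZ : ∀ v w, Flat k (fun q => cmp Pz q (lieBracket ℝ (fun p => P p v) (fun p => Pz p w) q)) z

/-- a family of affine parametrisations of leaves of `F`, to the order `k` at `p` -/
structure Fml (k : ℕ) (P : V → V →L[ℝ] V) (Q : A × W → V) (M : A → W →L[ℝ] A →L[ℝ] ℝ)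
    (p : A × W) : Prop where
  sm : ContDiffAt ℝ (k + 1 : ℕ) Q p
  tan : ∀ e, TanTo k P Q p (0, e)
  om : ∀ e a, Flat k (fun p' => S.om (fderiv ℝ Q p' (0, e)) (fderiv ℝ Q p' (a, 0)) - M p'.1 e a) p
  inj : ∀ e, M p.1 e = 0 → e = 0
  rk : Module.finrank ℝ W = Module.finrank ℝ (P (Q p)).range

/-- a smooth family of germs through the points of the unstable axis -/
structure Base (Q : A × W → V) : Prop where
  sm : ∀ᶠ p in 𝓝 (0 : A × W), ContDiffAt ℝ ∞ Q p
  zero : Q 0 = 0
  base : ∀ᶠ y in 𝓝 (0 : A), S.pS (Q (y, 0)) = 0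
  crd : ∃ J : A ≃L[ℝ] E, HasFDerivAt (fun y => S.pU (Q (y, 0))) (J : A →L[ℝ] E) 0

/-- the formal family: `(σ, κ) : ℝ × K` are coordinates on the unstable axis, `∂σ` lies in `Z` -/
structure Form {K : Type} [NormedAddCommGroup K] [NormedSpace ℝ K] (L : ℕ)
    (P Pz : V → V →L[ℝ] V) (Q : (ℝ × K) × W → V) (M : ℝ × K → W →L[ℝ] (ℝ × K) →L[ℝ] ℝ) : Prop
    extends S.Base Q where
  fml : ∀ᶠ y in 𝓝 (0 : ℝ × K), S.Fml L P Q M (y, 0)
  tanZ : ∀ᶠ y in 𝓝 (0 : ℝ × K), ∀ r e, TanTo L Pz Q (y, 0) ((r, 0), e)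
  M_σ : ∀ᶠ y in 𝓝 (0 : ℝ × K), ∀ e, M y e (1, 0) = 0

end Sys

end Vale.Agent.P207Z
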