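import Vale.Agent.P207Z.Real.Ident
import Vale.Agent.P207Z.Real.Defs2

/-!
# P207 REAL: the identities of the data, on extensions
-/

set_option linter.all false

open Set Filter Topology Metric MeasureTheory VectorField
open scoped ContDiff

noncomputable section

namespace Vale.Agent.P207Z

variable {Γ X B E V Y : Type} [Group Γ] [Countable Γ] [MetricSpace X] [ProperSpace X]
  [MulAction Γ X] [IsIsometricSMul Γ X] [MeasurableSpace X] [BorelSpace X]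
  [TopologicalSpace B] [CompactSpace B] [T2Space B] [SecondCountableTopology B] [MulAction Γ B]
  [ContinuousConstSMul Γ B] [MeasurableSpace B] [BorelSpace B]
  [NormedAddCommGroup E] [InnerProductSpace ℝ E] [FiniteDimensional ℝ E]
  [NormedAddCommGroup V] [NormedSpace ℝ V] [FiniteDimensional ℝ V]
  [MeasurableSpace Y] [MulAction Γ Y] {S : Sys Γ X B E V} {F C Z : SSub S.TV}

open Ident

namespace Jets

variable {k : ℕ} {P₁ P₂ P₃ : V → V →L[ℝ] V} {z : V}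

theorem sm_om {m : WithTop ℕ∞} (h1 : Idm m P₁ z) (h2 : Idm m P₂ z) (v w : V) :
    ContDiffAt ℝ m (fun q => S.om (P₁ q v) (P₂ q w)) z :=
  (S.om.contDiff.contDiffAt.comp _ (sm_apply h1 v)).clm_apply (sm_apply h2 w)

theorem sm_br (h1 : Idm (k + 1 : ℕ) P₁ z) (h2 : Idm (k + 1 : ℕ) P₂ z) (h3 : Idm (k + 1 : ℕ) P₃ z)
    (v w : V) : ContDiffAt ℝ k
      (fun q => cmp P₃ q (lieBracket ℝ (fun p => P₁ p v) (fun p => P₂ p w) q)) z :=
  (h3.e_cmp.of_le (by exact_mod_cast k.le_succ)).clm_apply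
    ((sm_apply h1 v).lieBracket_vectorField (sm_apply h2 w) (by exact_mod_cast le_rfl))

theorem om_FZ (h : Data F C Z) : ∀ᵐ x ∂S.μ, ∀ v ∈ F.H x, ∀ w ∈ Z.H x, S.om v w = 0 := by
  filter_upwards [h.C_eq, h.Z_C] with x h1 h2 v hv w hw
  exact h1.le (h2 hw) v hv

theorem om_FF (h : Data F C Z) : ∀ᵐ x ∂S.μ, ∀ v ∈ F.H x, ∀ w ∈ F.H x, S.om v w = 0 := by
  filter_upwards [om_FZ h, h.F_Z] with x h1 h2 v hv w hw
  exact h1 v hv w (h2.le hw)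

end Jets

open Jets

theorem Sys.FF.closed {k : ℕ} {P : V → V →L[ℝ] V} {z : V} (hP : Idm (k + 1 : ℕ) P z)
    (h : ∃ᶠ q in 𝓝 z, S.FF k P q) : S.FF k P z :=
  ⟨hP, fun v w => flat_closed (sm_om hP hP v w) (h.mono fun _ h => h.iso v w),
    fun v w => flat_closed (sm_br hP hP hP v w) (h.mono fun _ h => h.br v w),
    fun v w => flat_closed (sm_br hP hP.prp hP.prp v w) (h.mono fun _ h => h.brC v w)⟩
theorem Sys.FZ.closed {k : ℕ} {P Pz : V → V →L[ℝ] V} {z : V} (hP : Idm (k + 1 : ℕ) P z)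
    (hZ : Idm (k + 1 : ℕ) Pz z) (h : ∃ᶠ q in 𝓝 z, S.FZ k P Pz q) : S.FZ k P Pz z :=
  ⟨Sys.FF.closed hP (h.mono fun _ h => h.toFF), hZ,
    flat_closed (hZ.e_cmp.clm_comp hP.e_cd) (h.mono fun _ h => h.le),
    fun v w => flat_closed (sm_om hP hZ v w) (h.mono fun _ h => h.omZ v w),
    fun v w => flat_closed (sm_br hP hZ hZ v w) (h.mono fun _ h => h.brZ v w)⟩
theorem Data.at_ff (P : Prob S Y) (h : Data F C Z) : ∀ᵐ y ∂S.μ, ∀ (k : ℕ) x Q,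
    (0 : V) ∈ S.dom y x → Idm (k + 1 : ℕ) Q (S.τ y x 0) → F.At (k + 1) x Q y →
    S.FF k Q (S.τ y x 0) := by
  filter_upwards [at_om P (om_FF h), at_br P h.brFF, at_br P h.brFC, at_prp P h.C_eq]
    with y h1 h2 h3 h4 k x Q h0 i a
  have a' := h4 _ x Q h0 i a
  exact ⟨i, h1 _ x Q Q h0 i i a a, h2 k x Q Q Q h0 i i i a a a,
    h3 k x Q _ _ h0 i i.prp i.prp a a' a'⟩
theorem Data.at_fz (P : Prob S Y) (h : Data F C Z) : ∀ᵐ y ∂S.μ, ∀ (k : ℕ) x Q Qz,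
    (0 : V) ∈ S.dom y x → Idm (k + 1 : ℕ) Q (S.τ y x 0) → Idm (k + 1 : ℕ) Qz (S.τ y x 0) →
    F.At (k + 1) x Q y → Z.At (k + 1) x Qz y → S.FZ k Q Qz (S.τ y x 0) := by
  filter_upwards [h.at_ff P, at_le P (h.F_Z.mono fun _ h => h.le), at_om P (om_FZ h),
    at_br P h.brFZ] with y h1 h2 h3 h4 k x Q Qz h0 i j a b
  exact ⟨h1 k x Q h0 i a, j, h2 _ x Q Qz h0 i j a b, h3 _ x Q Qz h0 i j a b,
    h4 k x Q Qz Qz h0 i j j a b b⟩
theorem Data.fz_U (P : Prob S Y) (h : Data F C Z) : ∀ᵐ ξ ∂S.ν, ∀ x, S.em x = ξ →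
    ∀ (k : ℕ) Q Qz, F.UExt (k + 1) x Q → Z.UExt (k + 1) x Qz →
      ∀ᶠ a in 𝓝 (0 : E), S.FZ k Q Qz (S.iU a) := by
  filter_upwards [ae_lU (h.at_fz P)] with ξ t x hx k Q Qz ⟨i, ρ, hρ, a⟩ ⟨j, ρ', hρ', b⟩
  obtain ⟨r, r0, r1, r2, hr⟩ := exists_r (i.ev.and j.ev) (lt_min hρ hρ')
  have r3 : r ≤ 1 := by linarith
  have A := ((a.mono (r1.trans (min_le_left _ _)) fun _ _ _ h => h).and
    (b.mono (r1.trans (min_le_right _ _)) fun _ _ _ h => h)).and (t x hx r)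
  filter_upwards [ball_mem_nhds (0 : E) r0] with u hu
  have l := hr _ (S.iU_mem.2 hu)
  refine Sys.FZ.closed l.1 l.2 (S.iU.continuous.continuousAt.tendsto.frequently
    (((freqU A hu (ball_subset_ball r3 hu)).and_eventually (isOpen_ball.mem_nhds hu)).mono
      fun a' ⟨⟨h1, ⟨y, hy⟩, h2⟩, h3⟩ => ?_))
  have e := Sys.τ_zero' (S.iU_mem.2 h1) hy
  have l' := hr _ (S.iU_mem.2 h3)
  obtain ⟨⟨p1, p2⟩, p3⟩ := h2 y hy
  exact e ▸ p3 k x Q Qz (Sys.zero_dom' (S.iU_mem.2 h1) hy) (e.symm ▸ l'.1) (e.symm ▸ l'.2) p1 p2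
theorem Data.rk_ne (h : Data F C Z) : ∀ᵐ ξ ∂S.ν, ∀ x, S.em x = ξ → ∀ (k : ℕ) Qz,
    Z.UExt k x Qz → ∃ᶠ a in 𝓝 (0 : E), (Qz (S.iU a)).range ⊓ S.Eu ≠ ⊥ := by
  filter_upwards [ae_lU (h.F_Z.and (h.Z_le.and Z.at_val))] with ξ t x hx k Qz ⟨j, ρ, hρ, b⟩
  refine ((freqU (b.and (t x hx ρ)) (mem_ball_self hρ) (mem_ball_self one_pos)).and_eventually
    ((S.iU.continuous.tendsto' 0 0 (map_zero _)).eventually j.ev)).mono
      fun a ⟨⟨h1, ⟨y, hy⟩, h2⟩, h3⟩ => ?_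
  have e := Sys.τ_zero' (S.iU_mem.2 h1) hy
  have h0 := Sys.zero_dom' (S.iU_mem.2 h1) hy
  obtain ⟨p1, p2, p3, p4⟩ := h2 y hy
  have p5 := p4 k x Qz h0 (e.symm ▸ h3) p1
  rw [e] at p5
  obtain ⟨z, hz, hz'⟩ := SetLike.exists_of_lt p2
  obtain ⟨f, hf, u, hu, rfl⟩ := Submodule.mem_sup.1 (p3 hz)
  have hu' : u ∈ Z.H y := by simpa using (Z.H y).sub_mem hz (p2.le hf)
  refine (Submodule.ne_bot_iff _).2 ⟨S.TV.A y x 0 u, ⟨p5.ge ⟨u, hu', rfl⟩, S.mem_Eu.2 ?_⟩,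
    fun h4 => hz' ?_⟩
  · rw [← S.iU_pU (S.mem_Eu.1 hu)]
    exact Sys.pS_fderiv_τ ((congrArg Prod.fst hy).trans (S.c_iU x h1)) h0 (map_zero _) _
  · rwa [← S.TV.inv_apply h0 u, h4, map_zero, add_zero]
/-- `Z ≤ F + E^u` at every point of almost every stable leaf -/
theorem Data.vals (h : Data F C Z) : ∀ᵐ η ∂S.ν, ∀ x, S.ep x = η → ∀ (k : ℕ) Q Qz,
    F.SExt k x Q → Z.SExt k x Qz → ∀ v, ∃ u, S.pS (Qz 0 v - Q 0 u) = 0 := by
  obtain ⟨D, hD⟩ := S.fr_near (a := 1 / 2) (by norm_num)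
  filter_upwards [ae_lS (h.F_le.and (h.Z_le.and (F.at_val.and Z.at_val)))]
    with η t x hx k Q Qz ⟨i, ρ, hρ, a⟩ ⟨j, ρ', hρ', b⟩ v
  have A := ((a.mono (min_le_left ρ ρ') fun _ _ _ h => h).and
    (b.mono (min_le_right ρ ρ') fun _ _ _ h => h)).and (t x hx _)
  have t0 := S.iS.continuous.tendsto' 0 0 (map_zero _)
  have fr : ∃ᶠ w in 𝓝 (0 : E), ∃ y ∈ closedBall x D, S.pt y = S.c x (S.iS w) ∧
      cmp Q (S.iS w) (S.TV.A y x 0 (S.iS (S.pS (S.TV.A x y (S.iS w) (Qz (S.iS w) v))))) = 0 := by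
    refine ((freqS A (mem_ball_self (lt_min hρ hρ')) (mem_ball_self one_pos)).and_eventually
      ((t0.eventually (i.ev.and j.ev)).and (closedBall_mem_nhds (0 : E) one_half_pos))).mono
        fun w ⟨⟨h1, _, h2⟩, h3, h4⟩ => ?_
    obtain ⟨y, hy, d⟩ := hD x (S.iS w) (by rw [S.norm_iS]; exact mem_closedBall_zero_iff.1 h4)
    have e := Sys.τ_zero' (S.iS_mem.2 h1) hy
    have h0 := Sys.zero_dom' (S.iS_mem.2 h1) hy
    obtain ⟨⟨p1, p2⟩, p3, p4, p5, p6⟩ := h2 y hy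
    have p7 := p5 k x Q h0 (e.symm ▸ h3.1) p1
    have p8 := p6 k x Qz h0 (e.symm ▸ h3.2) p2
    have p9 := S.TV.inv_apply h0
    rw [e] at p7 p8 p9
    refine ⟨y, mem_closedBall'.2 d, hy, ?_⟩
    obtain ⟨z, hz, e1⟩ := p8.le ⟨v, rfl⟩
    obtain ⟨f, hf, u, hu, rfl⟩ := Submodule.mem_sup.1 (p4 hz)
    obtain ⟨g, e2⟩ := p7.ge ⟨f, hf, rfl⟩
    have e3 : Qz (S.iS w) v = S.TV.A y x 0 (f + u) := e1.symm
    have e4 : S.TV.A y x 0 f = Q (S.iS w) g := e2.symm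
    rw [e3, p9, map_add, S.mem_Eu.1 hu, add_zero, S.iS_pS (S.mem_Es.1 (p3 hf)), e4]
    exact sub_eq_zero.2 (congrArg (· g) h3.1.e_idem).symm
  obtain ⟨w, hw, h1⟩ := exists_seq_forall_of_frequently fr
  choose y hy h2 h3 using h1
  obtain ⟨y₀, -, φ, hφ, hl⟩ := (isCompact_closedBall x D).tendsto_subseq hy
  have t1 : Tendsto (fun n => S.iS (w (φ n))) atTop (𝓝 0) :=
    t0.comp (hw.comp hφ.tendsto_atTop)
  have hp : S.pt y₀ = S.pt x := by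
    refine tendsto_nhds_unique (S.pt_cont.continuousAt.tendsto.comp hl) ?_
    rw [← S.c_zero' x]
    exact (((S.continuousOn_c x).continuousAt (ball_mem_nhds 0 one_pos)).tendsto.comp t1).congr
      fun n => (h2 (φ n)).symm
  have h0 := Sys.zero_dom hp
  have c : ∀ {p : (X × X) × V}, p ∈ S.Dm →
      ContinuousAt (fun p : (X × X) × V => S.TV.A p.1.1 p.1.2 p.2) p := fun hp =>
    S.TV.jc.continuousOn.continuousAt (Sys.isOpen_Dm.mem_nhds hp)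
  have t2 : Tendsto (fun n => S.TV.A (y (φ n)) x 0) atTop (𝓝 (S.TV.A y₀ x 0)) :=
    (c (p := ((y₀, x), 0)) h0).tendsto.comp
      ((hl.prodMk_nhds tendsto_const_nhds).prodMk_nhds tendsto_const_nhds)
  have t3 : Tendsto (fun n => S.TV.A x (y (φ n)) (S.iS (w (φ n)))) atTop (𝓝 (S.TV.A x y₀ 0)) :=
    (c (p := ((x, y₀), 0)) (Sys.zero_dom hp.symm)).tendsto.comp
      ((tendsto_const_nhds.prodMk_nhds hl).prodMk_nhds t1)
  have ap : ∀ {L : ℕ → V →L[ℝ] V} {L₀ : V →L[ℝ] V} {s : ℕ → V} {s₀ : V}, Tendsto L atTop (𝓝 L₀) →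
      Tendsto s atTop (𝓝 s₀) → Tendsto (fun n => L n (s n)) atTop (𝓝 (L₀ s₀)) := fun h h' =>
    ((isBoundedBilinearMap_apply (𝕜 := ℝ) (E := V) (F := V)).continuous.tendsto _).comp
      (h.prodMk_nhds h')
  have t4 := ap (i.e_cmp.continuousAt.tendsto.comp t1) (ap t2 ((S.iS.continuous.tendsto _).comp
    ((S.pS.continuous.tendsto _).comp (ap t3 (ap (j.e_cont.tendsto.comp t1)
      (tendsto_const_nhds (x := v)))))))
  have e1 := tendsto_nhds_unique t4 (tendsto_const_nhds.congr fun n => (h3 (φ n)).symm)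
  refine ⟨S.TV.A y₀ x 0 (S.iS (S.pS (S.TV.A x y₀ 0 (Qz 0 v)))), ?_⟩
  have e2 := S.TV.inv_apply' h0 (Qz 0 v)
  rw [Sys.τ_zero hp] at e2
  have e3 : ∀ s, cmp Q 0 s = 0 → Q 0 s = s := fun s h => (sub_eq_zero.1 h).symm
  rw [e3 _ e1]
  nth_rewrite 1 [← e2, ← S.iS_add (S.TV.A x y₀ 0 (Qz 0 v))]
  rw [map_add, add_sub_cancel_left]
  exact Sys.pS_fderiv_τ (congrArg Prod.fst hp) h0 (map_zero _) _

end Vale.Agent.P207Z
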