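import Vale.Agent.P207Z.Real.Ident
import Vale.Agent.P207Z.Real.Good
import Vale.Agent.P207Z.Real.Dist
import Vale.Agent.P207Z.Real.Slc
import Vale.Agent.P207Z.Real.Aff
import Vale.Agent.P207Z.Real.Exp
import Vale.Agent.P207Z.Real.CDefs
import Vale.Agent.P207Z.Real.Jets

/-!
# P207 REAL: the formal family is good
-/

set_option linter.all false

open Set Filter Topology Metric MeasureTheory VectorField
open scoped ContDiff

noncomputable section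

namespace Vale.Agent.P207Z

variable {Γ X B E V Y : Type} [Group Γ] [Countable Γ] [MetricSpace X] [ProperSpace X]
  [MulAction Γ X] [IsIsometricSMul Γ X] [MeasurableSpace X] [BorelSpace X]
  [TopologicalSpace B] [CompactSpace B] [T2Space B] [SecondCountableTopology B] [MulAction Γ B]
  [ContinuousConstSMul Γ B] [MeasurableSpace B] [BorelSpace B]
  [NormedAddCommGroup E] [InnerProductSpace ℝ E] [FiniteDimensional ℝ E]
  [NormedAddCommGroup V] [NormedSpace ℝ V] [FiniteDimensional ℝ V]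
  [MeasurableSpace Y] [MulAction Γ Y] {S : Sys Γ X B E V} {F C Z : SSub S.TV}

namespace PreA

variable {A W : Type} [NormedAddCommGroup A] [NormedSpace ℝ A] [FiniteDimensional ℝ A]
  [NormedAddCommGroup W] [NormedSpace ℝ W] [FiniteDimensional ℝ W]

theorem inv {u : A → E} (hu : ContDiffAt ℝ 1 u 0) (J : A ≃L[ℝ] E)
    (hJ : HasFDerivAt u (J : A →L[ℝ] E) 0) : ∃ K δ : ℝ, 0 ≤ K ∧ 0 < δ ∧ ∀ᶠ y₀ in 𝓝 (0 : A),
      ∀ b, ‖b - u y₀‖ ≤ δ → ∃ y, u y = b ∧ ‖y - y₀‖ ≤ K * ‖b - u y₀‖ := by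
  haveI := FiniteDimensional.complete ℝ A
  have h := hu.hasStrictFDerivAt' hJ one_ne_zero
  obtain ⟨K, t, ht, hK⟩ := h.to_localInverse.exists_lipschitzOnWith
  obtain ⟨δ, hδ, h1⟩ := nhds_basis_closedBall.mem_iff.1 (inter_mem ht h.eventually_right_inverse)
  refine ⟨K, δ / 2, K.2, half_pos hδ, ?_⟩
  filter_upwards [h.eventually_left_inverse,
    hu.continuousAt.eventually (closedBall_mem_nhds _ (half_pos hδ))] with y₀ h2 h3 b hb
  have h4 : b ∈ closedBall (u 0) δ := by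
    rw [mem_closedBall, dist_eq_norm]
    rw [dist_eq_norm] at h3
    linarith [norm_sub_le_norm_sub_add_norm_sub b (u y₀) (u 0)]
  have h5 := hK.dist_le_mul _ (h1 h4).1 _
    (h1 (closedBall_subset_closedBall (half_le_self hδ.le) h3)).1
  rw [h2, dist_eq_norm, dist_eq_norm] at h5
  exact ⟨_, (h1 h4).2, h5⟩

theorem ev (c : ℝ) {κ : ℝ} (hκ : 0 < κ) : ∀ᶠ a in 𝓝[>] (0 : ℝ), c * a < κ :=
  nhdsWithin_le_nhds ((continuous_const.mul continuous_id).continuousAt.eventually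
    (gt_mem_nhds (by simpa using hκ)))

/-- typical frames -/
structure Typ (F : SSub S.TV) (z : X) : Prop where
  mono : ∀ k k' x P, k' ≤ k → F.At k x P z → F.At k' x P z
  tan : ∀ (k : ℕ) Q, Idm k Q 0 → F.At k z Q z → Flat k (fun w => S.pU ∘L Q (S.iS w)) 0
  cen : ∀ (k : ℕ) x ρ P, S.AlongS x ρ (F.At k x P) → S.ep z = S.ep x → (0 : V) ∈ S.dom z x →
    S.τ z x 0 ∈ ball (0 : V) ρ → Idm k P (S.τ z x 0) → F.At k x P z
  val : ∀ (k : ℕ) x P, (0 : V) ∈ S.dom z x → Idm k P (S.τ z x 0) → F.At k x P z →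
    (P (S.τ z x 0)).range = (F.H z).map (S.TV.A z x 0 : V →ₗ[ℝ] V)
  ff : ∀ (k : ℕ) x Q, (0 : V) ∈ S.dom z x → Idm (k + 1 : ℕ) Q (S.τ z x 0) → F.At (k + 1) x Q z →
    S.FF k Q (S.τ z x 0)

theorem ae_typ (P : Prob S Y) (h : Data F C Z) : ∀ᵐ z ∂S.μ, Typ F z := by
  filter_upwards [F.at_mono, at_tan h.F_le, F.centreS, F.at_val, h.at_ff P] with z h1 h2 h3 h4 h5
  exact ⟨h1, h2, h3, h4, h5⟩

variable {J L n : ℕ} {P : V → V →L[ℝ] V} {Q : A × W → V} {M : A → W →L[ℝ] A →L[ℝ] ℝ} {y : A}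
  {x z : X}

/-- the family in the chart centred at the base point -/
structure Cen (F : SSub S.TV) (J : ℕ) (z : X) (P : V → V →L[ℝ] V) (Q : A × W → V)
    (M : A → W →L[ℝ] A →L[ℝ] ℝ) (y : A) : Prop where
  zero : Q (y, 0) = 0
  idm : Idm (J + 1 : ℕ) P 0
  at' : F.At (J + 1) z P z
  fml : S.Fml (J + 1) P Q M (y, 0)

theorem dom (hq : Q (y, 0) ∈ ball (0 : V) 1) (hz : S.pt z = S.c x (Q (y, 0))) :
    Q (y, 0) ∈ S.dom x z := Sys.τ_zero' hq hz ▸ Sys.τ_dom (Sys.zero_dom' hq hz)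

theorem cen (hL : J + 1 ≤ L) (hq : Q (y, 0) ∈ ball (0 : V) 1) (hz : S.pt z = S.c x (Q (y, 0)))
    (ht : Typ F z) (hI : Idm L P (Q (y, 0))) (hA : F.At L x P z)
    (hF : S.Fml (J + 1) P Q M (y, 0)) :
    Cen F J z (S.TV.conj z x P) (fun p => S.τ x z (Q p)) M y := by
  have h0 := Sys.zero_dom' hq hz
  have h1 := Sys.τ_zero' hq hz
  refine ⟨by rw [← h1, Sys.τ_τ h0], Idm.conj (by exact_mod_cast le_top) h0
    (h1.symm ▸ SlcA.idm_mono hI hL), ?_, hF.conj (dom hq hz)⟩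
  exact (F.at_conj h0 (Sys.zero_dom rfl)).2 (ht.mono _ _ _ _ hL hA)

theorem Cen.sm (h : Cen F J z P Q M y) : ContDiffAt ℝ (J + 2 : ℕ) (fun s => Q (y, s)) 0 :=
  h.fml.sm.comp (0 : W) (contDiffAt_const.prodMk contDiffAt_id)

theorem Cen.flat (h : Cen F J z P Q M y) (ht : Typ F z) :
    Flat (J + 2) (fun s => S.pU (Q (y, s))) 0 ∧
      ∀ e, S.pU (fderiv ℝ (fun s => Q (y, s)) 0 e) = 0 := by
  have h1 := ht.tan _ _ h.idm h.at'
  have h2 : ∀ e, TanTo (J + 1) P (fun s => Q (y, s)) 0 e := fun e => by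
    refine (Flat.slice (h.fml.tan e)).congr ?_
    have h3 : ContinuousAt (fun s : W => (y, s)) 0 := by fun_prop
    filter_upwards [h3.eventually (h.fml.sm.eventually (by simp))] with s hs
    rw [fderiv_slice (p := (y, s)) (hs.differentiableAt (by simp))]
  refine ⟨flat_pU (h.sm.of_le (by exact_mod_cast Nat.le_add_left 1 _)) h.zero
    (h.idm.self_of_nhds.1.of_le (by exact_mod_cast Nat.le_add_left 1 _)) h2 h1, fun e => ?_⟩
  have h3 := h1.eq_zero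
  rw [map_zero] at h3
  rw [← (h2 e).mem, h.zero]
  exact DFunLike.congr_fun h3 _

theorem Cen.geo (h : Cen F J z P Q M y) (ht : Typ F z) (hb : F.BS (J + 1) n z) :
    ∃ P' : V → V →L[ℝ] V, ContDiffAt ℝ (J + 1 : ℕ) P' 0 ∧ ‖jet (J + 1) P' 0‖ ≤ n ∧
      S.Geo J P' (fun s => Q (y, s)) 0 := by
  obtain ⟨P', h1, h2⟩ := hb
  have h0 : (0 : V) ∈ S.dom z z := Sys.zero_dom rfl
  have e : S.τ z z 0 = 0 := Sys.τ_zero rfl
  have hr := mem_ball_self (x := (0 : V)) (rad_pos n)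
  have h3 : Idm (J + 1 : ℕ) P' (S.τ z z 0) := e.symm ▸ h1.idm hr
  have h4 : Idm (J + 1 : ℕ) P (S.τ z z 0) := e.symm ▸ h.idm
  have h5 := ht.cen _ z _ P' h2 rfl h0 (e.symm ▸ hr) h3
  have h6 := F.at_flat h0 h3 h4 h5 h.at'
  have h7 := (ht.val _ z P' h0 h3 h5).trans (ht.val _ z P h0 h4 h.at').symm
  have h8 := ht.ff _ z P' h0 h3 h5
  rw [e, ← h.zero] at h6 h7 h8
  exact ⟨P', h1.ckb.contDiffAt hr, norm_jet_le n.cast_nonneg fun i hi => h1.ckb.bd i hi 0 hr,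
    (h.fml.of_flat h8.sm.self_of_nhds.1.continuousAt h6 (by rw [h7])).geo h8⟩

theorem contr (S : Sys Γ X B E V) : ∃ c : ℝ, 0 ≤ c ∧ ∀ z, ∀ T ≥ (0 : ℝ), ∀ v, S.pU v = 0 →
    ‖fderiv ℝ (S.τ z (S.φ T z)) 0 v‖ ≤ c * Real.exp (-S.lam * T) * ‖v‖ := by
  obtain ⟨c, h⟩ := S.contrS 1 le_rfl
  refine ⟨|c|, abs_nonneg c, fun z T hT v hv => ?_⟩
  have h1 := h z T hT 0 (mem_ball_self S.ρ_pos)
  have h2 : HasFDerivAt (S.τ z (S.φ T z)) (fderiv ℝ (S.τ z (S.φ T z)) 0) (S.iS 0) := by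
    rw [map_zero]
    exact (Sys.differentiableAt_τ (Sys.zero_dom (S.pt_φ T z).symm)).hasFDerivAt
  rw [norm_iteratedFDeriv_one] at h1
  have h3 := (congrArg norm (h2.comp 0 S.iS.hasFDerivAt).fderiv).ge.trans h1
  rw [← S.iS_pS hv, S.norm_iS]
  exact ((fderiv ℝ (S.τ z (S.φ T z)) 0 ∘L S.iS).le_opNorm _).trans (mul_le_mul_of_nonneg_right
    (h3.trans (mul_le_mul_of_nonneg_right (le_abs_self c) (Real.exp_pos _).le)) (norm_nonneg _))

/-- good parameters -/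
theorem gd (S : Sys Γ X B E V) (J n : ℕ) (W : Type) [NormedAddCommGroup W] [NormedSpace ℝ W]
    [FiniteDimensional ℝ W] (c₀ : ℝ) : ∃ c : ℝ, 0 ≤ c ∧ ∀ (F : SSub S.TV) (L : ℕ) (x : X)
      (P : V → V →L[ℝ] V) (Q : A × W → V) (M : A → W →L[ℝ] A →L[ℝ] ℝ) (y : A), ∀ T ≥ (0 : ℝ),
      J + 1 ≤ L → ‖Q (y, 0)‖ ≤ 1 / 4 → S.pS (Q (y, 0)) = 0 → ‖fderiv ℝ Q (y, 0)‖ ≤ c₀ →
      Idm L P (Q (y, 0)) → S.Fml (J + 1) P Q M (y, 0) →
      (∀ z, S.pt z = S.c x (Q (y, 0)) → Typ F z ∧ F.At L x P z ∧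
        (S.lv z = S.lv x + T → F.BS (J + 1) n z)) → S.Gd J x Q c T y := by
  obtain ⟨c₁, hc₁, h1⟩ := S.geo_bound J n W
  obtain ⟨c₂, hc₂, h2⟩ := contr S
  obtain ⟨D, h3⟩ := S.dist_le_U (a := 1 / 4) (by norm_num) 0
  obtain ⟨c₃, hc₃, h4⟩ := S.unif_bd Sys.jc_τ (fun g x y q h => Sys.τ_smul g h) D (a := 1 / 4)
    (by norm_num) 1
  refine ⟨c₁ * max 1 (c₂ * (c₃ * c₀)) ^ J, by positivity,
    fun F L x P Q M y T hT hL hq hS hD hI hF h z hz => ?_⟩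
  have hq1 : Q (y, 0) ∈ ball (0 : V) 1 := mem_ball_zero_iff.2 (by linarith)
  have hz' : S.pt (S.φ T z) = S.c x (Q (y, 0)) := (S.pt_φ T z).trans hz.1
  obtain ⟨a1, a2, -⟩ := h z hz.1
  obtain ⟨b1, b2, b3⟩ := h _ hz'
  have g0 := cen hL hq1 hz.1 a1 hI a2 hF
  have gT := cen hL hq1 hz' b1 hI b2 hF
  obtain ⟨f1, f2⟩ := g0.flat a1
  refine ⟨f1.mono (by omega), fun i hi hJ => ?_⟩
  obtain ⟨P', p1, p2, p3⟩ := gT.geo b1 (b3 (by rw [S.lv_φ, hz.2]))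
  refine (h1 P' _ p1 p2 gT.sm gT.zero p3 i hi (by omega)).trans ?_
  have d0 := g0.sm.differentiableAt (by simp)
  have dQ := hF.sm.differentiableAt (by simp)
  have e1 : (fun s => S.τ x (S.φ T z) (Q (y, s)))
      =ᶠ[𝓝 0] fun s => S.τ z (S.φ T z) (S.τ x z (Q (y, s))) :=
    (dQ.continuousAt.comp (f := fun s : W => (y, s)) (by fun_prop)).eventually
      (Sys.τ_trans_ev (dom hq1 hz.1) (dom hq1 hz')).symm
  have e2 : ‖fderiv ℝ (fun s => S.τ x z (Q (y, s))) 0‖ ≤ c₃ * c₀ := by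
    have h5 := h4 x z (h3 x z (S.pU (Q (y, 0))) ((S.norm_pU_le _).trans hq)
      (by rw [S.iU_pU hS, hz.1]) (by rw [hz.2, sub_self, abs_zero])) _ (dom hq1 hz.1) hq
      (by rw [g0.zero, norm_zero]; norm_num) 1 le_rfl
    rw [norm_iteratedFDeriv_one] at h5
    refine (congrArg norm ((Sys.differentiableAt_τ (dom hq1 hz.1)).hasFDerivAt.comp (0 : W)
      (SlcA.fd_slice dQ)).fderiv).le.trans ?_
    exact (ContinuousLinearMap.opNorm_comp_le _ _).trans (mul_le_mul h5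
      (((ContinuousLinearMap.opNorm_comp_le _ _).trans (mul_le_of_le_one_right (norm_nonneg _)
        (ContinuousLinearMap.norm_inr_le_one ℝ A W))).trans hD) (norm_nonneg _) hc₃)
  have e3 : ‖fderiv ℝ (fun s => S.τ x (S.φ T z) (Q (y, s))) 0‖
      ≤ max 1 (c₂ * (c₃ * c₀)) * Real.exp (-S.lam * T) := by
    have h5 : DifferentiableAt ℝ (S.τ z (S.φ T z)) (S.τ x z (Q (y, 0))) :=
      g0.zero.symm ▸ Sys.differentiableAt_τ (Sys.zero_dom (S.pt_φ T z).symm)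
    rw [e1.fderiv_eq, fderiv_fun_comp (0 : W) h5 d0, g0.zero]
    refine ContinuousLinearMap.opNorm_le_bound _ (by positivity) fun e => ?_
    refine (h2 z T hT _ (f2 e)).trans ?_
    calc _ ≤ c₂ * Real.exp (-S.lam * T) * (c₃ * c₀ * ‖e‖) := mul_le_mul_of_nonneg_left
          ((ContinuousLinearMap.le_opNorm _ _).trans
            (mul_le_mul_of_nonneg_right e2 (norm_nonneg _))) (by positivity)
      _ = c₂ * (c₃ * c₀) * Real.exp (-S.lam * T) * ‖e‖ := by ring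
      _ ≤ _ := by gcongr; exact le_max_right _ _
  rw [mul_assoc]
  refine mul_le_mul_of_nonneg_left ((pow_le_pow_left₀ (norm_nonneg _) e3 i).trans ?_) hc₁
  rw [mul_pow, ← Real.exp_nat_mul, show i * (-S.lam * T) = -S.lam * i * T by ring]
  exact mul_le_mul_of_nonneg_right (pow_le_pow_right₀ (le_max_left _ _) hJ) (Real.exp_pos _).le

/-- a nearby point of the unstable axis, read at the time `T` -/
theorem back (S : Sys Γ X B E V) : ∃ r c : ℝ, 0 < r ∧ 0 ≤ c ∧ ∀ x z, ∀ q : V, ‖q‖ ≤ 1 / 4 →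
    S.pS q = 0 → S.pt z = S.c x q → S.lv z = S.lv x → ∀ T ≥ (0 : ℝ), ∀ u ∈ ball (0 : E) r,
      ∃ q' ∈ ball (0 : V) 1, S.pS q' = 0 ∧ S.c x q' = S.c (S.φ T z) (S.iU u) ∧
        ‖q' - q‖ ≤ c * Real.exp (-S.lam * T) * ‖u‖ := by
  obtain ⟨r, c, hr, hc, h1⟩ := S.stayU one_pos
  obtain ⟨D, h2⟩ := S.dist_le_U (a := 1 / 4) (by norm_num) 0
  obtain ⟨r', c', hr', hc', h3⟩ := S.lip_zero D
  obtain ⟨a, ⟨a1, a2⟩, a3⟩ := (((ev 1 hr).and (ev c hr')).and self_mem_nhdsWithin).exists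
  refine ⟨a, c' * c, a3, by positivity, fun x z q hq hS hz hl T hT u hu => ?_⟩
  have hq1 : q ∈ ball (0 : V) 1 := mem_ball_zero_iff.2 (by linarith)
  obtain ⟨b1, b2⟩ := h1 (S.φ T z) T hT u (ball_subset_ball (by linarith) hu)
  have b3 := (b1 _ right_mem_uIcc).1
  rw [← S.φ_add, neg_add_cancel, S.φ_zero] at b2 b3
  have b4 : Real.exp (-S.lam * T) ≤ 1 :=
    Real.exp_le_one_iff.2 (by nlinarith [S.lam_pos])
  obtain ⟨b5, b6⟩ := h3 z x (dist_comm x z ▸ h2 x z (S.pU q) ((S.norm_pU_le _).trans hq)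
    (by rw [S.iU_pU hS, hz]) (by rw [hl, sub_self, abs_zero])) (Sys.zero_dom' hq1 hz)
    (by rw [Sys.τ_zero' hq1 hz]; linarith) _ (b2.trans ((mul_le_mul
      (mul_le_of_le_one_right hc b4) (mem_ball_zero_iff.1 hu).le (norm_nonneg _) hc).trans a2.le))
  have b7 := (Sys.c_τ b5).trans (Sys.c_τ b3)
  refine ⟨_, Sys.τ_ball b5, (S.c_U x _ (Sys.τ_ball b5)).1 ?_, b7, ?_⟩
  · rw [b7, S.c_iU _ (S.iU_mem.1 (Sys.dom_ball b3)), S.em_φ]
    exact (congrArg Prod.fst hz).trans ((S.c_U x q hq1).2 hS)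
  · rw [Sys.τ_zero' hq1 hz] at b6
    rw [mul_assoc, mul_assoc, ← mul_assoc c]
    exact b6.trans (mul_le_mul_of_nonneg_left b2 hc')

end PreA

open PreA

theorem Data.pre (P : Prob S Y) (h : Data F C Z) (J : ℕ) : ∀ᵐ ξ ∂S.ν, ∀ x₀, S.em x₀ = ξ →
    ∀ (A W : Type) [NormedAddCommGroup A] [NormedSpace ℝ A] [FiniteDimensional ℝ A]
      [NormedAddCommGroup W] [NormedSpace ℝ W] [FiniteDimensional ℝ W] (L : ℕ)
      (Pf : V → V →L[ℝ] V) (Q : A × W → V) (M : A → W →L[ℝ] A →L[ℝ] ℝ), J + 1 ≤ L →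
      F.UExt L x₀ Pf → S.Base Q → (∀ᶠ y in 𝓝 (0 : A), S.Fml (J + 1) Pf Q M (y, 0)) →
      ∃ ε₀ > 0, ∀ ε, 0 < ε → ε ≤ ε₀ → ∃ c, S.Pre J x₀ Q ε c := by
  filter_upwards [Sys.ae_ae_U (ae_typ P h)] with ξ hξ x hx A W _ _ _ _ _ _ L Pf Q M hL hU hb hF
  obtain ⟨hI, ρ, hρ, hA⟩ := hU
  subst hx
  have c0 : ContinuousAt (fun y : A => (y, (0 : W))) 0 := by fun_prop
  have s0 : ContDiffAt ℝ ∞ (fun y : A => Q (y, 0)) 0 :=
    hb.sm.self_of_nhds.comp (0 : A) (contDiffAt_id.prodMk contDiffAt_const)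
  have t0 : Tendsto (fun y : A => Q (y, 0)) (𝓝 0) (𝓝 0) := hb.zero ▸ s0.continuousAt
  obtain ⟨J', hJ'⟩ := hb.crd
  obtain ⟨K, κ, hK, hκ, h1⟩ := inv
    (S.pU.contDiff.contDiffAt.comp 0 (s0.of_le (by exact_mod_cast le_top))) J' hJ'
  obtain ⟨δ, hδ, h2⟩ := nhds_basis_closedBall.mem_iff.1 ((c0.eventually hb.sm).and (hb.base.and
    (hF.and (h1.and ((t0.eventually hI.ev).and ((t0.eventually (ball_mem_nhds 0 hρ)).and
      (t0.eventually (closedBall_mem_nhds 0 (by norm_num : (0 : ℝ) < 1 / 4)))))))))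
  have hbd : ∀ i, ∃ c, ∀ y ∈ closedBall (0 : A) δ, ‖iteratedFDeriv ℝ i Q (y, 0)‖ ≤ c := fun i =>
    (isCompact_closedBall 0 δ).exists_bound_of_continuousOn fun y hy =>
      (((h2 hy).1.continuousAt_iteratedFDeriv (by exact_mod_cast le_top)).comp
        (f := fun y : A => (y, (0 : W))) (by fun_prop)).continuousWithinAt
  obtain ⟨r, c₁, hr, hc₁, h3⟩ := back S
  obtain ⟨a, ⟨⟨⟨a1, a2⟩, a3⟩, a4⟩, a5⟩ := (((((ev 1 hr).and (ev 1 one_pos)).and (ev c₁ hκ)).and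
    (ev (K * c₁) (half_pos hδ))).and self_mem_nhdsWithin).exists
  obtain ⟨n, h4⟩ := F.goodS P (J + 1) a5 (by linarith) 0
  obtain ⟨c₀, h5⟩ := hbd 1
  obtain ⟨c₂, hc₂, h6⟩ := gd (A := A) S J n W c₀
  refine ⟨δ / 4, by positivity, fun ε hε hε' => ?_⟩
  have hs : ball (0 : A) (2 * ε) ⊆ closedBall 0 δ :=
    ball_subset_closedBall.trans (closedBall_subset_closedBall (by linarith))
  refine ⟨max (δ / 2) c₂, ⟨hε, fun y hy => (h2 (hs hy)).1,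
    fun i => (hbd i).imp fun c hc y hy => hc y (hs hy),
    fun y hy => mem_closedBall_zero_iff.1 (h2 (hs hy)).2.2.2.2.2.2,
    fun y hy => (h2 (hs hy)).2.1⟩, fun y₀ hy₀ T hT => ?_⟩
  obtain ⟨-, b1, -, b2, -, -, b3⟩ := h2 (hs hy₀)
  rw [dist_zero_right] at b3
  obtain ⟨z, z1, z2⟩ := S.exists_frame_lv
    (S.c_ne x (Q (y₀, 0)) (mem_ball_zero_iff.2 (by linarith))) (S.lv x)
  obtain ⟨u, hu, u1, u2⟩ := h4 (S.φ T z) _ (hξ.and hA)
  obtain ⟨q, q1, q2, q3, q4⟩ := h3 x z _ b3 b1 z1 z2 T hT u (ball_subset_ball (by linarith) hu)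
  have e0 := Real.exp_pos (-S.lam * T)
  have e1 : Real.exp (-S.lam * T) ≤ 1 := Real.exp_le_one_iff.2 (by nlinarith [S.lam_pos])
  have q5 : ‖S.pU q - S.pU (Q (y₀, 0))‖ ≤ c₁ * a * Real.exp (-S.lam * T) := by
    rw [← map_sub, mul_right_comm]
    exact (S.norm_pU_le _).trans (q4.trans
      (mul_le_mul_of_nonneg_left (mem_ball_zero_iff.1 hu).le (by positivity)))
  obtain ⟨y, y1, y2⟩ := b2 (S.pU q)
    (q5.trans ((mul_le_of_le_one_right (mul_nonneg hc₁ (le_of_lt a5)) e1).trans a3.le))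
  have y3 : ‖y - y₀‖ ≤ δ / 2 * Real.exp (-S.lam * T) :=
    (y2.trans (mul_le_mul_of_nonneg_left q5 hK)).trans (by
      rw [← mul_assoc, ← mul_assoc]
      exact mul_le_mul_of_nonneg_right a4.le e0.le)
  have y4 : y ∈ closedBall (0 : A) δ := by
    have := mem_ball_zero_iff.1 hy₀
    have := mul_le_of_le_one_right (half_pos hδ).le e1
    rw [mem_closedBall_zero_iff]
    linarith [norm_sub_norm_le y y₀]
  obtain ⟨-, d1, d2, -, d3, d4, d5⟩ := h2 y4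
  have y5 : Q (y, 0) = q := by
    rw [← S.iU_pU d1, ← S.iU_pU q2]
    exact congrArg S.iU y1
  refine ⟨y, y3.trans (mul_le_mul_of_nonneg_right (le_max_left _ _) e0.le), fun z' hz' => ?_⟩
  obtain ⟨g1, g2⟩ := h6 F L x Pf Q M y T hT hL (mem_closedBall_zero_iff.1 d5) d1
    (by simpa only [norm_iteratedFDeriv_one] using h5 y y4) d3 d2 (fun w hw => by
      have g3 : S.pt w = (S.em x, (S.c (S.φ T z) (S.iU u)).2) := by
        rw [hw, y5, ← q3]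
        exact Prod.ext ((S.c_U x q q1).2 q2) rfl
      exact ⟨u1.1 w g3, u1.2 w g3 ⟨_, d4, hw.symm⟩, fun hl => u2 w (by rw [hw, y5, q3])
        (by rw [hl, S.lv_φ, z2, sub_self, abs_zero])⟩) z' hz'
  exact ⟨g1, fun i hi hJ => (g2 i hi hJ).trans
    (mul_le_mul_of_nonneg_right (le_max_right _ _) (Real.exp_pos _).le)⟩

end Vale.Agent.P207Z
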