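import Vale.Agent.P207Z.Real.Fam0
import Vale.Agent.P207Z.Real.Form
import Vale.Agent.P207Z.Real.Pre
import Vale.Agent.P207Z.Real.Pick
import Vale.Agent.P207Z.Real.Core
import Vale.Agent.P207Z.Real.CTan
import Vale.Agent.P207Z.Real.Eq1
import Vale.Agent.P207Z.Real.Far
import Vale.Agent.P207Z.End.Main

/-!
# P207: the end game (blocks REAL, EQ, END)
-/

set_option linter.all false

open Set Filter Topology Metric MeasureTheory VectorField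
open scoped ContDiff

noncomputable section

namespace Vale.Agent.P207Z

variable {Γ X B E V Y : Type} [Group Γ] [Countable Γ] [MetricSpace X] [ProperSpace X]
  [MulAction Γ X] [IsIsometricSMul Γ X] [MeasurableSpace X] [BorelSpace X]
  [TopologicalSpace B] [CompactSpace B] [T2Space B] [SecondCountableTopology B] [MulAction Γ B]
  [ContinuousConstSMul Γ B] [MeasurableSpace B] [BorelSpace B]
  [NormedAddCommGroup E] [InnerProductSpace ℝ E] [FiniteDimensional ℝ E]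
  [NormedAddCommGroup V] [NormedSpace ℝ V] [FiniteDimensional ℝ V]
  [MeasurableSpace Y] [MulAction Γ Y] {S : Sys Γ X B E V} {F C Z : SSub S.TV}

/-- the typical leaves -/
theorem Data.leaves (P : Prob S Y) (h : Data F C Z) : ∃ (k d : ℕ) (T : Set B), 1 ≤ k ∧
    (∀ᵐ x ∂S.μ, Module.finrank ℝ (F.H x) = d) ∧ (∀ᵐ ξ ∂S.ν, ξ ∈ T) ∧
    (∀ x, S.em x ∈ T → ∃ Pr, S.ZU 1 Pr ∧ Z.UExt k x Pr) ∧
    ∀ᵐ η ∂S.ν, ∀ x, S.ep x = η → ∃ Pf Pz, F.SExt k x Pf ∧ Z.SExt k x Pz ∧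
      d = Module.finrank ℝ (Pf 0).range ∧ (∀ v, ∃ u, S.pS (Pz 0 v - Pf 0 u) = 0) ∧
      ∀ Pu, S.em x ∈ T → Z.UExt k x Pu → Flat 1 (fun q => cmp Pu q ∘L Pz q) 0 := by
  obtain ⟨k₀, A, A', hA, hA', heq⟩ := Z.eq1 P
  obtain ⟨d, hd, hrk⟩ := F.sExt_rank P
  refine ⟨k₀ + 2, d, {ξ | ξ ∈ A ∧ ∀ x, S.em x = ξ → ∃ Pr, S.ZU 1 Pr ∧ Z.UExt (k₀ + 2) x Pr},
    by omega, hd, ?_, fun x hx => hx.2 x rfl, ?_⟩
  · filter_upwards [hA, Z.smoothU P, h.zu P, Z.uExt_mono] with ξ h1 h2 h3 h4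
    refine ⟨h1, fun x hx => ?_⟩
    obtain ⟨Pr, h5, h6⟩ := h2 x hx (k₀ + 2)
    exact ⟨Pr, h3 x hx 1 Pr h5 (h4 x hx _ _ Pr (by omega) h6), h6⟩
  · filter_upwards [hA', F.smoothS P, Z.smoothS P, hrk, h.vals] with η h1 h2 h3 h4 h5 x hx
    obtain ⟨Pf, -, hf⟩ := h2 x hx (k₀ + 2)
    obtain ⟨Pz, -, hz⟩ := h3 x hx (k₀ + 2)
    exact ⟨Pf, Pz, hf, hz, (h4 x hx _ _ hf).symm, h5 x hx _ _ _ hf hz, fun Pu hu hU =>
      (heq x hu.1 (hx ▸ h1) _ (by omega) Pu Pz hU hz).1⟩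

/-- the formal family at almost every point -/
theorem Data.form (P : Prob S Y) (h : Data F C Z) (L : ℕ) : ∀ᵐ x ∂S.μ,
    ∃ (Pf Pz : V → V →L[ℝ] V) (m f : ℕ)
      (Q : (ℝ × EuclideanSpace ℝ (Fin m)) × EuclideanSpace ℝ (Fin f) → V)
      (M : ℝ × EuclideanSpace ℝ (Fin m) →
        EuclideanSpace ℝ (Fin f) →L[ℝ] (ℝ × EuclideanSpace ℝ (Fin m)) →L[ℝ] ℝ),
      F.UExt (L + 4) x Pf ∧ Z.UExt (L + 4) x Pz ∧ S.Form L Pf Pz Q M ∧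
        Module.finrank ℝ (EuclideanSpace ℝ (Fin f)) = Module.finrank ℝ (F.H x) := by
  filter_upwards [Sys.ae_of_em (F.smoothU P), Sys.ae_of_em (Z.smoothU P), Sys.ae_of_em (h.fz_U P),
    Sys.ae_of_em (h.zu P), Sys.ae_of_em h.rk_ne, F.centreU, F.at_val, h.F_le]
    with x h1 h2 h3 h4 h5 h6 h7 h8
  obtain ⟨Pf, f1, f2⟩ := h1 x rfl (L + 4)
  obtain ⟨Pz, z1, z2⟩ := h2 x rfl (L + 4)
  have e0 : S.τ x x 0 = 0 := Sys.τ_zero rfl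
  have e1 : (Pf 0).range = F.H x := by
    obtain ⟨f3, ρ, hρ, f4⟩ := f2
    have e2 := h7 _ x Pf (Sys.zero_dom rfl) (e0.symm ▸ f3) (h6 _ x ρ Pf f4 rfl (Sys.zero_dom rfl)
      (e0.symm ▸ mem_ball_self hρ) (e0.symm ▸ f3))
    rw [e0, S.TV.self x 0 Sys.ball_zero] at e2
    exact e2.trans (Submodule.map_id _)
  obtain ⟨r, hr⟩ := (h4 x rfl (L + 3) Pz z1 z2).rk
  obtain ⟨a, a1, a2⟩ := ((h5 x rfl _ Pz z2).and_eventually hr).exists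
  obtain ⟨m, f, Q, M, hF⟩ := Sys.exists_form L f1 z1 (h3 x rfl (L + 3) Pf Pz f2 z2) (e1 ▸ h8)
    (fun h0 => a1 (Submodule.finrank_eq_zero.1 (a2.trans h0))) hr
  refine ⟨Pf, Pz, m, f, Q, M, f2, z2, hF, ?_⟩
  have e2 := hF.fml.self_of_nhds.rk
  rwa [show Q (0, 0) = 0 from hF.zero, e1] at e2

/-- **The end game.** -/
theorem endgame [MeasurableSpace E] [BorelSpace E] {n : ℕ} {b : Module.Basis (Fin n) ℝ E}
    {Mg : Marg S b} (P : Prob S Y) (hL : Leb S) (Tm : Tim S Mg) {F C Z : SSub S.TV}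
    (h : Data F C Z) : False := by
  obtain ⟨t₀, ht₀, J₀, hcore⟩ := S.core
  obtain ⟨k, d, T, hk, hd, hT, hT', hS⟩ := h.leaves P
  have hJ : 1 ≤ J₀ + 1 := Nat.le_add_left 1 J₀
  have hty := (((far0 P hL h hT).and (Sys.ae_of_ep hS)).and (hd.and (F.at_mono.and Z.at_mono))).and
    ((F.tan P ht₀ hJ).and (Z.tan P ht₀ hJ))
  obtain ⟨x₀, ⟨⟨Pf, Pz, m, f, Q, M, hf, hz, hF, hr⟩, hd₀⟩, hU, hpre⟩ := Sys.ae_exists
    (((h.form P (J₀ + 2)).and hd).and ((Sys.ae_leafU hty).and (Sys.ae_of_em (h.pre P (J₀ + 1)))))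
  obtain ⟨ε₀, e0, hpre⟩ := hpre x₀ rfl _ _ _ Pf Q M (by omega) hf hF.toBase hF.fml
  obtain ⟨Jc, hJc⟩ := hF.crd
  have cQ : ContDiffAt ℝ ∞ (fun y => Q (y, 0)) 0 :=
    ContDiffAt.comp (g := Q) 0 hF.sm.self_of_nhds (contDiffAt_id.prodMk contDiffAt_const)
  obtain ⟨ε₁, e1, hinj, hpick⟩ := pick (u := fun y => S.pU (Q (y, 0)))
    (S.pU.contDiff.contDiffAt.comp 0 (cQ.of_le (by exact_mod_cast le_top))) Jc hJc
  obtain ⟨f1, ρ, hρ, f2⟩ := hf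
  obtain ⟨z1, ρ', hρ', z2⟩ := hz
  have tQ : Tendsto (fun y => Q (y, 0)) (𝓝 0) (𝓝 0) := by
    have := cQ.continuousAt.tendsto
    rwa [show Q (0, 0) = 0 from hF.zero] at this
  have bl : ∀ {r : ℝ}, 0 < r → ∀ᶠ q in 𝓝 (0 : V), q ∈ ball (0 : V) r := fun hr =>
    ball_mem_nhds _ hr
  obtain ⟨ε₂, e2, hev⟩ := Metric.eventually_nhds_iff_ball.1 ((hF.fml.and (hF.tanZ.and hF.M_σ)).and
    (hF.base.and (tQ.eventually ((f1.ev.and z1.ev).and ((bl hρ).and ((bl hρ').and (bl one_pos)))))))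
  obtain ⟨ε, e3, e4, e5, e6⟩ : ∃ ε > 0, ε ≤ ε₀ ∧ ε ≤ ε₁ ∧ ε ≤ ε₂ :=
    ⟨min ε₀ (min ε₁ ε₂), by positivity, min_le_left _ _, (min_le_right _ _).trans (min_le_left _ _),
      (min_le_right _ _).trans (min_le_right _ _)⟩
  replace hev := fun y hy => hev y (ball_subset_ball e6 hy)
  obtain ⟨c, hp⟩ := hpre ε e3 e4
  obtain ⟨p, hp'⟩ := hcore _ (Nat.le_succ _) _ _ x₀ Q ε c hp
  have key : ∀ {R' : B → Prop}, (∀ᵐ η ∂S.ν, R' η) → ∃ R : B → Prop, (∀ᵐ η ∂S.ν, R η) ∧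
      ∀ η, R η → R' η := fun h => ⟨_, h, fun _ h => h⟩
  obtain ⟨R, hR, hR'⟩ := key (hU.and (Eventually.and f2 z2))
  obtain ⟨y₀, hy₀, ty₀, hden⟩ := hpick ε e3 e5 _
    ((hL.aeU x₀ subset_rfl).1 (hR.mono fun η hη _ => hη))
  have ax : ∀ y ∈ ball (0 : ℝ × EuclideanSpace ℝ (Fin m)) ε, S.iU (S.pU (Q (y, 0))) = Q (y, 0) ∧
      (S.c x₀ (Q (y, 0))).1 = S.em x₀ := fun y hy =>
    ⟨by simpa [(hev y hy).2.1] using S.iS_add (Q (y, 0)),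
      (S.c_U x₀ _ (hev y hy).2.2.2.2.2).2 (hev y hy).2.1⟩
  have ty : ∀ y ∈ ball (0 : ℝ × EuclideanSpace ℝ (Fin m)) ε,
      (S.pU (Q (y, 0)) ∈ ball (0 : E) 1 → R (S.c x₀ (S.iU (S.pU (Q (y, 0))))).2) →
      ∃ z, S.pt z = S.c x₀ (Q (y, 0)) ∧ S.pt z = (S.em x₀, S.ep z) ∧ R (S.ep z) := by
    intro y hy hR
    obtain ⟨z, hz⟩ := S.exists_pt_c x₀ (hev y hy).2.2.2.2.2
    refine ⟨z, hz, Prod.ext ((congrArg Prod.fst hz).trans (ax y hy).2) rfl, ?_⟩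
    have h1 := hR (S.iU_mem.1 ((ax y hy).1.symm ▸ (hev y hy).2.2.2.2.2))
    rwa [(ax y hy).1, ← hz] at h1
  have h0 : Fam0 F Z p (ball 0 ε) (S.em x₀) (fun y => (S.c x₀ (Q (y, 0))).2) M fun y =>
      S.pU (Q (y, 0)) ∈ ball (0 : E) 1 → R (S.c x₀ (S.iU (S.pU (Q (y, 0))))).2 := by
    refine ⟨isOpen_ball, fun y hy => by rw [hp'.base y hy]; exact (ax y hy).2, hp'.leaf, hp'.rep,
      fun y hy s x Q' hQ e a => hp'.om y hy _ _ _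
        (((hev y hy).1.1.om e a).slice.mono (Nat.le_succ _)) s x Q' hQ,
      fun y hy => (hev y hy).1.1.inj, fun y hy => (hev y hy).1.2.2,
      fun y hy ht s x Q' Pr k hk hx hQ hP e => ?_, fun y hy ht s x Q' Pr k hk hx hQ hP r e => ?_⟩
    · obtain ⟨z, z3, z4, z5⟩ := ty y hy ht
      obtain ⟨z5, z6, -⟩ := hR' _ z5
      exact (z5 z z4).2.1 _ _ x₀ Q ε p hp.toPre0 hp' y hy z3 Pf _
        ((hev y hy).2.2.1.1.of_le (by exact_mod_cast by omega))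
        ((z5 z z4).1.2.2.1 _ _ x₀ Pf (by omega) (z6 z z4 ⟨_, (hev y hy).2.2.2.1, z3.symm⟩))
        (((hev y hy).1.1.tan e).mono (Nat.le_succ _)) s x Q' Pr k hk hx hQ hP
    · obtain ⟨z, z3, z4, z5⟩ := ty y hy ht
      obtain ⟨z5, -, z6⟩ := hR' _ z5
      exact (z5 z z4).2.2 _ _ x₀ Q ε p hp.toPre0 hp' y hy z3 Pz _
        ((hev y hy).2.2.1.2.of_le (by exact_mod_cast by omega))
        ((z5 z z4).1.2.2.2 _ _ x₀ Pz (by omega) (z6 z z4 ⟨_, (hev y hy).2.2.2.2.1, z3.symm⟩))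
        (((hev y hy).1.2.1 r e).mono (Nat.le_succ _)) s x Q' Pr k hk hx hQ hP
  have seg : ∀ σ ∈ Icc 0 (ε / 4),
      y₀ + (σ, 0) ∈ ball (0 : ℝ × EuclideanSpace ℝ (Fin m)) ε := fun σ hσ => by
    rw [mem_ball_zero_iff] at hy₀ ⊢
    have h1 : ‖((σ, 0) : ℝ × EuclideanSpace ℝ (Fin m))‖ = σ := by
      simp [Prod.norm_def, abs_of_nonneg hσ.1, hσ.1]
    linarith [norm_add_le y₀ (σ, 0), hσ.2]
  have o0 : y₀ + 0 ∈ ball (0 : ℝ × EuclideanSpace ℝ (Fin m)) ε := seg 0 ⟨le_rfl, by positivity⟩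
  have h1 := h0.shift y₀
  refine end_false Tm le_rfl (h1.fam (σ₀ := ε / 4) (by positivity) seg (fun hne => ?_) hden hk
    (fun y hy ht x hx => ?_) hT' fun N hN => ?_)
  · have o1 := seg (ε / 4) ⟨by positivity, le_rfl⟩
    have h2 := S.c_inj x₀ (hev _ o1).2.2.2.2.2 (hev _ o0).2.2.2.2.2
      (Prod.ext ((ax _ o1).2.trans (ax _ o0).2.symm) hne)
    have h3 := hinj (ball_subset_ball e5 o1) (ball_subset_ball e5 o0) (congrArg S.pU h2)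
    have h4 : ε / 4 = 0 := congrArg Prod.fst (add_left_cancel h3)
    linarith
  · obtain ⟨z, z3, z4, z5⟩ := ty _ hy ht
    replace z5 := (hR' _ z5).1
    obtain ⟨Pf', Pz', h2, h3, h4, h5⟩ := (z5 z z4).1.1.2 x (hx.trans (congrArg Prod.snd z3).symm)
    exact ⟨Pf', Pz', h2, h3, hr.trans (hd₀.trans h4), h5⟩
  · have ty₁ := ty₀
    rw [← add_zero y₀] at ty₁
    obtain ⟨z, z3, z4, z5⟩ := ty _ o0 ty₁
    replace z5 := (hR' _ z5).1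
    have z6 : (S.c x₀ (Q (y₀ + 0, 0))).2 = S.ep z := (congrArg Prod.snd z3).symm
    refine (z5 z z4).1.1.1 _ _ _ (fun y => M (y₀ + y)) (hr.trans (hd₀.trans (z5 z z4).1.2.1.symm)) ?_
      (fun s => (h1.leaf 0 o0 s).trans z6) (fun s => ?_) (h1.inj 0 o0)
      (fun s x Q' Pr hx hQ hP => h1.tanF 0 o0 ty₁ s x Q' Pr 2 one_le_two hx hQ hP) N (z6 ▸ hN)
    · exact Prod.ext ((h1.base 0 o0).trans (congrArg Prod.fst z4).symm)
        ((h1.leaf 0 o0 0).trans z6)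
    · obtain ⟨x, Q', hQ⟩ := h1.rep 0 o0 s
      exact ⟨x, Q', hQ, h1.om_ev o0 hQ⟩

end Vale.Agent.P207Z
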