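import Vale.Agent.P207Z.AnnD.T
import Vale.Agent.P207Z.An.Glue

/-!
# P207: derivatives of Taylor coefficients, interpolation along a sequence of scales
-/

set_option linter.all false

open Set Filter Topology Metric
open scoped ContDiff

noncomputable section

namespace Vale.Agent.P207Z.CCoefA

open AnnD

variable {A W V F : Type} [NormedAddCommGroup A] [NormedSpace ℝ A] [NormedAddCommGroup W]
  [NormedSpace ℝ W] [NormedAddCommGroup V] [NormedSpace ℝ V] [NormedAddCommGroup F]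
  [NormedSpace ℝ F]

theorem iter_aff (L : A →L[ℝ] V) (c : V) {g : V → F} {a : A} {i : ℕ}
    (hg : ContDiffAt ℝ i g (c + L a)) : iteratedFDeriv ℝ i (fun a => g (c + L a)) a =
      (iteratedFDeriv ℝ i g (c + L a)).compContinuousLinearMap fun _ => L := by
  obtain ⟨u, hu, ha, h⟩ := hg.contDiffOn' le_rfl (by simp)
  rw [insert_eq_of_mem (mem_univ _), univ_inter] at h
  exact iteratedFDeriv_affine L c hu h ha le_rfl

theorem norm_comp_le {i : ℕ} (M : V [×i]→L[ℝ] F) (L : A →L[ℝ] V) (hL : ‖L‖ ≤ 1) :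
    ‖M.compContinuousLinearMap fun _ => L‖ ≤ ‖M‖ :=
  (M.norm_compContinuousLinearMap_le _).trans (mul_le_of_le_one_right (norm_nonneg _)
    (Finset.prod_le_one (fun _ _ => norm_nonneg _) fun _ _ => hL))

/-- the Taylor coefficients in the second variable, as functions of the first one -/
theorem coeff {f : A × W → V} {y : A} (hf : ContDiffAt ℝ ∞ f (y, 0)) (j : ℕ) :
    ContDiffAt ℝ ∞ (fun y => iteratedFDeriv ℝ j (fun s => f (y, s)) 0) y ∧ ∀ i,
      ‖iteratedFDeriv ℝ i (fun y => iteratedFDeriv ℝ j (fun s => f (y, s)) 0) y‖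
        ≤ ‖iteratedFDeriv ℝ (j + i) f (y, 0)‖ := by
  obtain ⟨L, hL, e⟩ : ∃ L : ((A × W) [×j]→L[ℝ] V) →L[ℝ] (W [×j]→L[ℝ] V), (∀ v, ‖L v‖ ≤ ‖v‖) ∧
      ∀ v, L v = v.compContinuousLinearMap fun _ => ContinuousLinearMap.inr ℝ A W :=
    ⟨ContinuousMultilinearMap.compContinuousLinearMapL fun _ => ContinuousLinearMap.inr ℝ A W,
      fun v => norm_comp_le v _ (ContinuousLinearMap.norm_inr_le_one ℝ A W), fun _ => rfl⟩
  have hc : ContDiffAt ℝ ∞ (fun y : A => ((y, 0) : A × W)) y :=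
    contDiffAt_id.prodMk contDiffAt_const
  have h1 : (fun y => iteratedFDeriv ℝ j (fun s => f (y, s)) 0) =ᶠ[𝓝 y]
      L ∘ fun y => iteratedFDeriv ℝ j f (y, 0) := by
    filter_upwards [hc.continuousAt.eventually ((hf.of_le (cast_le j)).eventually (by simp))]
      with y hy
    have := iter_aff (ContinuousLinearMap.inr ℝ A W) (y, 0) (g := f) (a := 0) (i := j)
      (by simpa using hy)
    simpa [e] using this
  have h2 : ContDiffAt ℝ ∞ (iteratedFDeriv ℝ j f) (y, 0) :=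
    hf.iteratedFDeriv_right (m := ∞) (i := j) (by exact_mod_cast le_top)
  have h3 : ContDiffAt ℝ ∞ (fun y => iteratedFDeriv ℝ j f (y, 0)) y := h2.comp y hc
  refine ⟨(L.contDiff.contDiffAt.comp y h3).congr_of_eventuallyEq h1, fun i => ?_⟩
  rw [(h1.iteratedFDeriv ℝ i).self_of_nhds]
  refine (norm_clm_le L hL h3 i).trans (le_trans ?_ (norm_iter_iter j hf i))
  have := iter_aff (ContinuousLinearMap.inl ℝ A W) 0 (g := iteratedFDeriv ℝ j f) (a := y) (i := i)
    (by simpa using h2.of_le (cast_le i))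
  simp only [zero_add, ContinuousLinearMap.inl_apply] at this
  rw [this]
  exact norm_comp_le _ _ (ContinuousLinearMap.norm_inl_le_one ℝ A W)

theorem norm_pi_le {J i : ℕ} {g : A → Jet J W V} {y : A} (hg : ∀ j, ContDiffAt ℝ ∞ (g · j) y)
    {M : ℝ} (hM : ∀ j, ‖iteratedFDeriv ℝ i (g · j) y‖ ≤ M) : ‖iteratedFDeriv ℝ i g y‖ ≤ M := by
  have h0 : 0 ≤ M := (norm_nonneg _).trans (hM 0)
  refine ContinuousMultilinearMap.opNorm_le_bound h0 fun m => ?_
  refine (pi_norm_le_iff_of_nonneg (by positivity)).2 fun j => ?_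
  have e := (ContinuousLinearMap.proj (R := ℝ)
    (φ := fun i : Fin (J + 1) => W [×(i : ℕ)]→L[ℝ] V) j).iteratedFDeriv_comp_left
      (contDiffAt_pi.2 hg) (cast_le i)
  have e2 : iteratedFDeriv ℝ i g y m j = iteratedFDeriv ℝ i (g · j) y m :=
    (congrArg (fun L => L m) e).symm
  rw [e2]
  exact (ContinuousMultilinearMap.le_opNorm _ _).trans
    (mul_le_mul_of_nonneg_right (hM j) (by positivity))

theorem exists_exp_le (C : ℝ) {c : ℝ} (hc : 0 < c) : ∃ n₀ : ℕ, ∀ n ≥ n₀,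
    C * Real.exp (-(n : ℝ)) ≤ c := by
  have h : Tendsto (fun n : ℕ => C * Real.exp (-(n : ℝ))) atTop (𝓝 (C * 0)) :=
    (Real.tendsto_exp_neg_atTop_nhds_zero.comp tendsto_natCast_atTop_atTop).const_mul C
  rw [mul_zero] at h
  exact eventually_atTop.1 (h.eventually (ge_mem_nhds hc))

theorem dense_ball {x : A} {δ c : ℝ} (hδ : 0 < δ) (hc : 0 < c) {G : Set A}
    (h : ∀ w ∈ closedBall x δ, ∃ y ∈ G, ‖y - w‖ ≤ min c 1 / 2 * δ) :
    ∀ z ∈ closedBall x δ, ∃ y ∈ G ∩ closedBall x δ, dist z y ≤ c * δ := by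
  intro z hz
  set t := min c 1 / 2 with ht
  have t0 : 0 < t := by positivity
  have t1 : t ≤ 1 / 2 := by rw [ht]; linarith [min_le_right c 1]
  have t2 : t ≤ c / 2 := by rw [ht]; linarith [min_le_left c 1]
  have hz' : ‖z - x‖ ≤ δ := mem_closedBall_iff_norm.1 hz
  have h1 : ‖x + (1 - t) • (z - x) - x‖ ≤ (1 - t) * δ := by
    rw [add_sub_cancel_left, norm_smul, Real.norm_of_nonneg (by linarith)]
    exact mul_le_mul_of_nonneg_left hz' (by linarith)
  have h2 : ‖z - (x + (1 - t) • (z - x))‖ ≤ t * δ := by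
    rw [show z - (x + (1 - t) • (z - x)) = t • (z - x) by module, norm_smul,
      Real.norm_of_nonneg t0.le]
    exact mul_le_mul_of_nonneg_left hz' t0.le
  obtain ⟨y, hy, h3⟩ := h _ (mem_closedBall_iff_norm.2 (h1.trans (by nlinarith)))
  refine ⟨y, ⟨hy, mem_closedBall_iff_norm.2 ?_⟩, ?_⟩
  · linarith [norm_sub_le_norm_sub_add_norm_sub y (x + (1 - t) • (z - x)) x]
  · rw [dist_eq_norm]
    rw [norm_sub_rev] at h3
    have := norm_sub_le_norm_sub_add_norm_sub z (x + (1 - t) • (z - x)) y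
    nlinarith

/-- interpolation along a sequence of scales -/
theorem interp_seq [FiniteDimensional ℝ A] {I : Type} (n : I → ℕ) (x : I → A) (g : I → A → F)
    (G : I → Set A) {b K a C : ℝ} (hb : 0 ≤ b) (J : ℕ)
    (hg : ∀ ι, ∀ y ∈ closedBall (x ι) (Real.exp (-(b + 1) * n ι)), ContDiffAt ℝ ∞ (g ι) y)
    (hd : ∀ i : ℕ, ∃ C, ∀ ι, ∀ y ∈ closedBall (x ι) (Real.exp (-(b + 1) * n ι)),
      ‖iteratedFDeriv ℝ i (g ι) y‖ ≤ C * Real.exp (b * (J + i) * n ι))
    (ha : ∀ ι, ∀ y ∈ G ι ∩ closedBall (x ι) (Real.exp (-(b + 1) * n ι)),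
      ‖g ι y‖ ≤ a * Real.exp (-K * n ι))
    (hG : ∀ ι, ∀ w ∈ closedBall (x ι) (Real.exp (-(b + 1) * n ι)), ∃ y ∈ G ι,
      ‖y - w‖ ≤ C * Real.exp (-(b + 2) * n ι)) (i : ℕ) :
    ∃ C, ∀ ι, ‖iteratedFDeriv ℝ i (g ι) (x ι)‖
      ≤ C * Real.exp ((b + 1) * i * n ι) * Real.exp (-K * n ι) := by
  obtain ⟨r, hr⟩ := exists_nat_ge (b * J + K + i + |K|)
  have hi : i ≤ r + 1 := by
    have : (i : ℝ) ≤ r := by nlinarith [neg_abs_le K, (Nat.cast_nonneg J : (0 : ℝ) ≤ J)]
    have : i ≤ r := by exact_mod_cast this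
    omega
  obtain ⟨C₁, c, hC₁, hc, h⟩ := An.interp.{0} r
  obtain ⟨n₀, h0⟩ := exists_exp_le C (c := min c 1 / 2) (by positivity)
  obtain ⟨C₂, h2⟩ := hd (r + 1)
  obtain ⟨C₃, h3⟩ := hd i
  refine ⟨max (C₁ * (a + |C₂|)) (|C₃| * Real.exp (|b * J + K| * n₀)), fun ι => ?_⟩
  have hn : (0 : ℝ) ≤ n ι := Nat.cast_nonneg _
  rw [mul_assoc]
  rcases le_or_gt n₀ (n ι) with h4 | h4
  · refine le_trans ?_ (mul_le_mul_of_nonneg_right (le_max_left _ _) (by positivity))
    have h5 := (h (g ι) (x ι) _ _ _ (G ι) (Real.exp_pos _)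
      (fun y hy => (hg ι y hy).of_le (cast_le _)) (h2 ι) (ha ι)
      (dense_ball (Real.exp_pos _) hc fun w hw => ?_)).2 i hi
    · have e1 : Real.exp (-(b + 1) * n ι) ^ i * Real.exp ((b + 1) * i * n ι) = 1 := by
        rw [← Real.exp_nat_mul, ← Real.exp_add, ← Real.exp_zero]
        congr 1
        ring
      have e2 : C₂ * Real.exp (b * (J + (r + 1 : ℕ)) * n ι) * Real.exp (-(b + 1) * n ι) ^ (r + 1)
          ≤ |C₂| * Real.exp (-K * n ι) := by
        rw [mul_assoc, ← Real.exp_nat_mul, ← Real.exp_add]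
        refine mul_le_mul (le_abs_self _) (Real.exp_le_exp.2 ?_) (Real.exp_pos _).le (abs_nonneg _)
        push_cast
        have : b * J + K ≤ r + 1 := by
          linarith [abs_nonneg K, (Nat.cast_nonneg i : (0 : ℝ) ≤ i)]
        nlinarith
      calc ‖iteratedFDeriv ℝ i (g ι) (x ι)‖ = ‖iteratedFDeriv ℝ i (g ι) (x ι)‖ *
            Real.exp (-(b + 1) * n ι) ^ i * Real.exp ((b + 1) * i * n ι) := by
            rw [mul_assoc, e1, mul_one]
        _ ≤ C₁ * (a * Real.exp (-K * n ι) + |C₂| * Real.exp (-K * n ι)) *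
            Real.exp ((b + 1) * i * n ι) := by
            refine mul_le_mul_of_nonneg_right (h5.trans ?_) (Real.exp_pos _).le
            gcongr
        _ = _ := by ring
    · obtain ⟨y, hy, h6⟩ := hG ι w hw
      refine ⟨y, hy, h6.trans ?_⟩
      rw [show -(b + 2) * (n ι : ℝ) = -(n ι : ℝ) + -(b + 1) * n ι by ring, Real.exp_add,
        ← mul_assoc]
      exact mul_le_mul_of_nonneg_right (h0 _ h4) (Real.exp_pos _).le
  · refine le_trans ?_ (mul_le_mul_of_nonneg_right (le_max_right _ _) (by positivity))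
    refine (h3 ι _ (mem_closedBall_self (Real.exp_pos _).le)).trans ?_
    rw [mul_assoc |C₃|, ← Real.exp_add, ← Real.exp_add]
    refine mul_le_mul (le_abs_self _) (Real.exp_le_exp.2 ?_) (Real.exp_pos _).le (abs_nonneg _)
    have h5 : (n ι : ℝ) ≤ n₀ := by exact_mod_cast h4.le
    have h6 : (b * J + K) * n ι ≤ |b * J + K| * n₀ :=
      mul_le_mul (le_abs_self _) h5 hn (abs_nonneg _)
    have h7 : (0 : ℝ) ≤ i * n ι := by positivity
    nlinarith

end Vale.Agent.P207Z.CCoefA
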