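import Vale.Agent.P207Z.Real.CDefs
import Vale.Agent.P207Z.JetC
import Vale.Agent.P207Z.An.Window

/-!
# P207 REAL, CORE: the coefficients at a good parameter, in its own charts
-/

set_option linter.all false

open Set Filter Topology Metric MeasureTheory
open scoped ContDiff

noncomputable section

namespace Vale.Agent.P207Z

namespace CWin

theorem norm_aff {E V W : Type} [NormedAddCommGroup E] [NormedSpace ℝ E] [NormedAddCommGroup V]
    [NormedSpace ℝ V] [NormedAddCommGroup W] [NormedSpace ℝ W] (L : E →L[ℝ] V) (hL : ‖L‖ ≤ 1)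
    (c : V) {g : V → W} {a : E} {i : ℕ} (hg : ContDiffAt ℝ i g (c + L a)) :
    ‖iteratedFDeriv ℝ i (fun a => g (c + L a)) a‖ ≤ ‖iteratedFDeriv ℝ i g (c + L a)‖ := by
  obtain ⟨u, hu, h⟩ := hg.contDiffOn le_rfl (by simp)
  rw [iteratedFDeriv_affine L c isOpen_interior (h.mono interior_subset)
    (mem_interior_iff_mem_nhds.2 hu) le_rfl]
  exact (ContinuousMultilinearMap.norm_compContinuousLinearMap_le _ _).trans
    (mul_le_of_le_one_right (norm_nonneg _)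
      (Finset.prod_le_one (fun _ _ => norm_nonneg _) fun _ _ => hL))

theorem norm_lin {E V W : Type} [NormedAddCommGroup E] [NormedSpace ℝ E] [NormedAddCommGroup V]
    [NormedSpace ℝ V] [NormedAddCommGroup W] [NormedSpace ℝ W] (L : E →L[ℝ] V) (hL : ‖L‖ ≤ 1)
    {g : V → W} {i : ℕ} (hg : ContDiffAt ℝ i g 0) :
    ‖iteratedFDeriv ℝ i (fun a => g (L a)) 0‖ ≤ ‖iteratedFDeriv ℝ i g 0‖ := by
  simpa only [zero_add, map_zero] using
    norm_aff L hL 0 (g := g) (a := 0) (i := i) (by simpa only [zero_add, map_zero] using hg)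

end CWin

variable {Γ X B E V : Type} [Group Γ] [Countable Γ] [MetricSpace X] [ProperSpace X]
  [MulAction Γ X] [IsIsometricSMul Γ X] [MeasurableSpace X] [BorelSpace X]
  [TopologicalSpace B] [CompactSpace B] [T2Space B] [SecondCountableTopology B] [MulAction Γ B]
  [ContinuousConstSMul Γ B] [MeasurableSpace B] [BorelSpace B]
  [NormedAddCommGroup E] [InnerProductSpace ℝ E] [FiniteDimensional ℝ E]
  [NormedAddCommGroup V] [NormedSpace ℝ V] [FiniteDimensional ℝ V]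

namespace CWin

open Sys

variable {S : Sys Γ X B E V} {W : Type} [NormedAddCommGroup W] [NormedSpace ℝ W] {J : ℕ}
  {x₀ z z' : X} {f : W → V}

/-- `z` is a frame over the point `f 0` of the chart of `x₀` -/
structure At (S : Sys Γ X B E V) (x₀ : X) (f : W → V) (z : X) : Prop where
  sm : ContDiffAt ℝ ∞ f 0
  mem : f 0 ∈ ball (0 : V) 1
  pt : S.pt z = S.c x₀ (f 0)

theorem At.dom (h : At S x₀ f z) : f 0 ∈ S.dom x₀ z :=
  mem_dom h.mem (mem_ball_self one_pos) ((S.c_zero' z).trans h.pt)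

theorem At.zero (h : At S x₀ f z) : S.τ x₀ z (f 0) = 0 :=
  τ_eq (mem_ball_self one_pos) ((S.c_zero' z).trans h.pt)

theorem At.cd (h : At S x₀ f z) (n : ℕ) : ContDiffAt ℝ n (fun s => S.τ x₀ z (f s)) 0 :=
  ((contDiffAt_τ h.dom).comp 0 h.sm).of_le (by exact_mod_cast le_top)

theorem At.fl (h : At S x₀ f z) (t : ℝ) : At S x₀ f (S.φ t z) :=
  ⟨h.sm, h.mem, (S.pt_φ t z).trans h.pt⟩

theorem At.eq (h : At S x₀ f z) (h' : At S x₀ f z') : S.pt z = S.pt z' := h.pt.trans h'.pt.symm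

theorem At.cdτ (h : At S x₀ f z) (h' : At S x₀ f z') (n : ℕ) : ContDiffAt ℝ n (S.τ z z') 0 :=
  (contDiffAt_τ (zero_dom (h.eq h'))).of_le (by exact_mod_cast le_top)

theorem At.trans (h : At S x₀ f z) (h' : At S x₀ f z') :
    (fun s => S.τ x₀ z' (f s)) =ᶠ[𝓝 0] S.τ z z' ∘ fun s => S.τ x₀ z (f s) :=
  (h.sm.continuousAt.eventually (τ_trans_ev h.dom h'.dom)).mono fun _ e => e.symm

theorem At.proj (h : At S x₀ f z) (h' : At S x₀ f z')
    (hF : Flat J (fun s => S.pU (S.τ x₀ z (f s))) 0) :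
    Flat J (fun s => S.τ x₀ z' (f s) - S.τ z z' (S.iS (S.pS (S.τ x₀ z (f s))))) 0 := by
  have h1 : Flat J (fun s => S.τ x₀ z (f s) - S.iS (S.pS (S.τ x₀ z (f s)))) 0 :=
    (hF.clm S.iU).congr (Eventually.of_forall fun s => sub_eq_of_eq_add' (S.iS_add _).symm)
  refine (h1.map (Φ := S.τ z z') (S.iS.continuous.continuousAt.comp
    (S.pS.continuous.continuousAt.comp (h.cd 0).continuousAt)) ?_).congr ?_
  · simpa only [h.zero, map_zero, Nat.cast_one] using h.cdτ h' 1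
  · filter_upwards [h.trans h'] with s e
    rw [e]
    rfl

theorem At.tan (h : At S x₀ f z) (h' : At S x₀ f z')
    (hF : Flat J (fun s => S.pU (S.τ x₀ z (f s))) 0) :
    Flat J (fun s => S.pU (S.τ x₀ z' (f s))) 0 := by
  refine ((h.proj h' hF).clm S.pU).congr ?_
  have h1 : ContinuousAt (fun s => S.iS (S.pS (S.τ x₀ z (f s)))) 0 :=
    S.iS.continuous.continuousAt.comp (S.pS.continuous.continuousAt.comp (h.cd 0).continuousAt)
  filter_upwards [h1.eventually_mem (s := S.dom z z') (by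
    simpa only [h.zero, map_zero] using dom_nhds (zero_dom (h.eq h')))] with s hs
  rw [map_sub, (pU_τ (congrArg Prod.snd (h.eq h')) hs).2 (S.pU_iS _), sub_zero]

theorem At.fwd (h : At S x₀ f z) (h' : At S x₀ f z')
    (hF : Flat J (fun s => S.pU (S.τ x₀ z (f s))) 0) {L C0 : ℝ}
    (hL : ‖iteratedFDeriv ℝ 1 (fun w => S.τ z z' (S.iS w)) 0‖ ≤ L)
    (hC : ∀ j ≤ J, ‖iteratedFDeriv ℝ j (S.τ z z') 0‖ ≤ C0) {i : ℕ} (h1 : 1 ≤ i) (h2 : i ≤ J) :
    ‖iteratedFDeriv ℝ i (fun s => S.τ x₀ z' (f s)) 0‖ ≤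
      L * ‖iteratedFDeriv ℝ i (fun s => S.τ x₀ z (f s)) 0‖ +
      C0 * An.hiSum (fun j => ‖iteratedFDeriv ℝ j (fun s => S.τ x₀ z (f s)) 0‖) i := by
  have nS : ‖S.iS‖ ≤ 1 := S.iS.opNorm_le_bound zero_le_one fun w => by rw [S.norm_iS, one_mul]
  have nP : ‖S.pS‖ ≤ 1 :=
    S.pS.opNorm_le_bound zero_le_one fun w => by rw [one_mul]; exact S.norm_pS_le w
  have c1 : ∀ n : ℕ, ContDiffAt ℝ n (fun w => S.τ z z' (S.iS w)) 0 := fun n =>
    ContDiffAt.comp (g := S.τ z z') 0 (by rw [map_zero]; exact h.cdτ h' n) S.iS.contDiff.contDiffAt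
  have c2 : ∀ n : ℕ, ContDiffAt ℝ n (fun v => S.τ z z' (S.iS (S.pS v))) (S.τ x₀ z (f 0)) :=
    fun n => ContDiffAt.comp (g := fun w => S.τ z z' (S.iS w)) _
      (by rw [h.zero, map_zero]; exact c1 n) S.pS.contDiff.contDiffAt
  have e := congrFun ((jet_eq_iff (h'.cd J) (ContDiffAt.comp
    (g := fun v => S.τ z z' (S.iS (S.pS v))) 0 (c2 J) (h.cd J))).2 (h.proj h' hF))
    ⟨i, Nat.lt_succ_of_le h2⟩
  refine (congrArg norm e).trans_le (An.norm_iter_comp_le h1 (c2 i) (h.cd i) ?_ fun j _ j2 => ?_)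
  · rw [← norm_iteratedFDeriv_one, h.zero]
    exact (norm_lin S.pS nP (c1 1)).trans hL
  · rw [h.zero]
    exact ((norm_lin S.pS nP (c1 j)).trans (norm_lin S.iS nS (h.cdτ h' j))).trans
      (hC j (j2.trans h2))

theorem At.bwd (h : At S x₀ f z) (h' : At S x₀ f z') {L C0 : ℝ}
    (hL : ‖iteratedFDeriv ℝ 1 (S.τ z z') 0‖ ≤ L)
    (hC : ∀ j ≤ J, ‖iteratedFDeriv ℝ j (S.τ z z') 0‖ ≤ C0) {i : ℕ} (h1 : 1 ≤ i) (h2 : i ≤ J) :
    ‖iteratedFDeriv ℝ i (fun s => S.τ x₀ z' (f s)) 0‖ ≤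
      L * ‖iteratedFDeriv ℝ i (fun s => S.τ x₀ z (f s)) 0‖ +
      C0 * An.hiSum (fun j => ‖iteratedFDeriv ℝ j (fun s => S.τ x₀ z (f s)) 0‖) i := by
  rw [((h.trans h').iteratedFDeriv ℝ i).eq_of_nhds]
  refine An.norm_iter_comp_le h1 ?_ (h.cd i) ?_ fun j _ j2 => ?_ <;> rw [h.zero]
  exacts [h.cdτ h' i, (norm_iteratedFDeriv_one _).symm.trans_le hL, hC j (j2.trans h2)]

theorem bd_pt (S : Sys Γ X B E V) (D : ℝ) (k : ℕ) : ∃ C : ℝ, 0 ≤ C ∧ ∀ x y, dist x y ≤ D →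
    S.pt x = S.pt y → ∀ i ≤ k, ‖iteratedFDeriv ℝ i (S.τ x y) 0‖ ≤ C := by
  obtain ⟨C, hC, h⟩ := S.unif_bd jc_τ (fun g x y q hq => τ_smul g hq) D one_half_lt_one k
  exact ⟨C, hC, fun x y hd e => h x y hd 0 (zero_dom e) (by simp) (by simp [τ_zero e])⟩

theorem dist_ov (S : Sys Γ X B E V) (x₀ : X) : ∃ D : ℝ, ∀ (q : V) (z : X), ‖q‖ ≤ 1 / 4 →
    S.pt z = S.c x₀ q → S.lv z = S.lv x₀ → dist x₀ z ≤ D := by
  obtain ⟨D, hD⟩ := S.fr_near (a := 1 / 4) (by norm_num)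
  obtain ⟨D', hD', h⟩ := S.dist_le_lv
  obtain ⟨L, hL⟩ := (isCompact_closedBall x₀ D).exists_bound_of_continuousOn
    (S.lv_cont.sub (continuous_const (y := S.lv x₀))).continuousOn
  refine ⟨D + D' * (L + 1), fun q z hq e e' => ?_⟩
  obtain ⟨y, e1, e2⟩ := hD x₀ q hq
  refine (dist_triangle _ y _).trans (add_le_add e2 ((h y z (e1.trans e.symm)).trans ?_))
  rw [e']
  exact mul_le_mul_of_nonneg_left (add_le_add (hL y (mem_closedBall'.2 e2)) le_rfl) hD'.le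

variable {A : Type} [NormedAddCommGroup A] [NormedSpace ℝ A] {Pt : A × W → V} {ε : ℝ}

theorem norm_slice {y : A} {i : ℕ} (h : ContDiffAt ℝ i Pt (y, 0)) :
    ‖iteratedFDeriv ℝ i (fun s => Pt (y, s)) 0‖ ≤ ‖iteratedFDeriv ℝ i Pt (y, 0)‖ := by
  simpa using norm_aff (ContinuousLinearMap.inr ℝ A W) (ContinuousLinearMap.norm_inr_le_one ℝ A W)
    (y, 0) (g := Pt) (a := 0) (i := i) (by simpa using h)

theorem at_ov (hp : S.Pre0 x₀ Pt ε) {y : A} (hy : y ∈ ball (0 : A) (2 * ε))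
    (hz : S.Ov x₀ Pt y z) : At S x₀ (fun s => Pt (y, s)) z :=
  ⟨ContDiffAt.comp (g := Pt) 0 (hp.sm y hy) (contDiffAt_const.prodMk contDiffAt_id),
    mem_ball_zero_iff.2 ((hp.small y hy).trans_lt (by norm_num)), hz.1⟩

theorem init (hp : S.Pre0 x₀ Pt ε) (J : ℕ) : ∃ M : ℝ, ∀ y ∈ ball (0 : A) (2 * ε), ∀ z,
    S.Ov x₀ Pt y z → ∀ i, 1 ≤ i → i ≤ J →
      ‖iteratedFDeriv ℝ i (fun s => S.τ x₀ z (Pt (y, s))) 0‖ ≤ M := by
  obtain ⟨D, hD⟩ := dist_ov S x₀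
  obtain ⟨C, -, hC⟩ := S.unif_bd jc_τ (fun g x y q hq => τ_smul g hq) D one_half_lt_one J
  choose b hb using hp.bd
  obtain ⟨M, hM1, hM⟩ : ∃ M : ℝ, 1 ≤ M ∧ ∀ i ≤ J, b i ≤ M :=
    ⟨1 + ∑ i ∈ Finset.range (J + 1), |b i|, le_add_of_nonneg_right (by positivity), fun i hi =>
      ((le_abs_self _).trans (Finset.single_le_sum (f := fun i => |b i|) (fun _ _ => abs_nonneg _)
        (Finset.mem_range.2 (Nat.lt_succ_of_le hi)))).trans (le_add_of_nonneg_left zero_le_one)⟩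
  refine ⟨C * (An.nPart J * M ^ J) * (0 + 1 ^ 0), fun y hy z hz i h1 h2 => ?_⟩
  have ha := at_ov hp hy hz
  refine An.norm_iter_comp_small (ph := S.τ x₀ z) (p := fun s => Pt (y, s)) (i0 := i + 1) h1 h2
    hM1 zero_le_one le_rfl le_rfl ((contDiffAt_τ ha.dom).of_le (by exact_mod_cast le_top))
    (ha.sm.of_le (by exact_mod_cast le_top)) (fun j _ j2 => ?_) (fun j _ j2 => ?_)
    (fun j j0 _ j2 => by omega) (by omega)
  · exact hC x₀ z (hD _ z (hp.small y hy) hz.1 hz.2) _ ha.dom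
      ((hp.small y hy).trans (by norm_num)) ((congrArg norm ha.zero).trans_le (by simp)) j
      (j2.trans h2)
  · rw [mul_one]
    exact (norm_slice ((hp.sm y hy).of_le (by exact_mod_cast le_top))).trans
      ((hb j y hy).trans (hM j (j2.trans h2)))

end CWin

namespace Sys

variable (S : Sys Γ X B E V)

open CWin in
theorem win : ∃ h > 0, ∀ (K : ℝ) (q : ℕ), ∃ i₀ : ℕ, 1 ≤ i₀ ∧ ∀ (J : ℕ) (A W : Type)
    [NormedAddCommGroup A] [NormedSpace ℝ A] [NormedAddCommGroup W] [NormedSpace ℝ W] (x₀ : X)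
    (Pt : A × W → V) (ε C : ℝ), S.Pre0 x₀ Pt ε → ∃ C' : ℝ, ∀ y ∈ ball (0 : A) (2 * ε),
      ∀ (T : ℕ), S.Gd J x₀ Pt C (T * h) y → ∀ z, S.Ov x₀ Pt y z →
        (∀ (t : ℕ) (j : Fin (J + 1)), ‖S.co J x₀ Pt z (t * h) y j‖ ≤ C' * (3 / 4) ^ t ∧
          Flat J (fun s => S.pU (S.Th x₀ Pt z (t * h) (y, s))) 0) ∧
        ∀ n t : ℕ, T ≤ q * n + q → n ≤ t → t ≤ T → ∀ j : Fin (J + 1), i₀ ≤ (j : ℕ) →
          ‖S.co J x₀ Pt z (t * h) y j‖ ≤ C' * Real.exp (-K * n) := by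
  obtain ⟨C1, hC1⟩ := S.contrS 1 le_rfl
  obtain ⟨h₀, hh₀, hT⟩ := S.exists_exp_lt C1 one_half_pos
  obtain ⟨h, hh, hh'⟩ : ∃ h > 0, C1 * Real.exp (-S.lam * h) < 1 / 2 :=
    ⟨h₀ + 1, by positivity, hT _ (by linarith)⟩
  obtain ⟨D, -, hD⟩ := S.dist_le_lv
  have hd : ∀ x, dist x (S.φ h x) ≤ D * (h + 1) := fun x => by
    simpa [S.lv_φ, abs_of_pos hh] using hD x (S.φ h x) (S.pt_φ h x).symm
  obtain ⟨Lam, -, hLam⟩ := bd_pt S (D * (h + 1)) 1
  refine ⟨h, hh, fun K q => ?_⟩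
  obtain ⟨i₀, hi₀, hw⟩ := An.window_seq Lam K (Real.exp (-S.lam * h)) q (Real.exp_pos _).le
    (Real.exp_lt_one_iff.2 (by nlinarith [S.lam_pos]))
  refine ⟨i₀, hi₀, fun J A W _ _ _ _ x₀ Pt ε C hp => ?_⟩
  obtain ⟨C0, hC0, hb⟩ := bd_pt S (D * (h + 1)) J
  obtain ⟨M0, hM0⟩ := init hp J
  obtain ⟨M, hM, hf⟩ := An.forward_seq J C0 M0 hC0
  obtain ⟨C', -, hw⟩ := hw J C0 M0 C hC0
  refine ⟨max M C', fun y hy T hg z hz => ?_⟩
  obtain ⟨g1, g2⟩ := hg z hz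
  have ha := at_ov hp hy hz
  have hs : ∀ t : ℕ, S.φ ((t + 1 : ℕ) * h) z = S.φ h (S.φ (t * h) z) := fun t => by
    rw [← S.φ_add, Nat.cast_succ, add_mul, one_mul, add_comm]
  set a : ℕ → ℕ → ℝ := fun i t =>
    ‖iteratedFDeriv ℝ i (fun s => S.τ x₀ (S.φ (t * h) z) (Pt (y, s))) 0‖ with ea
  have r1 : ∀ t i, 1 ≤ i → i ≤ J →
      a i (t + 1) ≤ 1 / 2 * a i t + C0 * An.hiSum (fun j => a j t) i := fun t i h1 h2 => by
    simp only [ea, hs]
    exact (ha.fl _).fwd ((ha.fl _).fl h) (ha.tan (ha.fl _) g1)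
      ((hC1 _ h hh.le 0 (mem_ball_self S.ρ_pos)).trans hh'.le)
      (hb _ _ (hd _) (S.pt_φ _ _).symm) h1 h2
  have r2 : ∀ t i, 1 ≤ i → i ≤ J →
      a i t ≤ Lam * a i (t + 1) + C0 * An.hiSum (fun j => a j (t + 1)) i := fun t i h1 h2 => by
    simp only [ea, hs]
    exact ((ha.fl _).fl h).bwd (ha.fl _)
      (hLam _ _ ((dist_comm _ _).trans_le (hd _)) (S.pt_φ _ _) 1 le_rfl)
      (hb _ _ ((dist_comm _ _).trans_le (hd _)) (S.pt_φ _ _)) h1 h2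
  have r0 : ∀ i, 1 ≤ i → i ≤ J → a i 0 ≤ M0 := fun i h1 h2 => by
    simpa only [ea, Nat.cast_zero, zero_mul, S.φ_zero] using hM0 y hy z hz i h1 h2
  refine ⟨fun t j => ⟨?_, ha.tan (ha.fl _) g1⟩, fun n t h1 h2 h3 j h4 => ?_⟩
  · change a j t ≤ _
    rcases Nat.eq_zero_or_pos j with e | e
    · simp only [ea, e, norm_iteratedFDeriv_zero, (ha.fl _).zero, norm_zero]
      have := zero_le_one.trans (hM.trans (le_max_left M C'))
      positivity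
    · exact (hf t a (fun _ _ => norm_nonneg _) r0 (fun t _ => r1 t) t le_rfl j e j.is_le).trans
        (mul_le_mul_of_nonneg_right (le_max_left _ _) (by positivity))
  · refine (hw n T a h1 (fun _ _ => norm_nonneg _) (fun t _ => r1 t) (fun t _ => r2 t) r0
      (fun i j1 j2 => (g2 i j1 j2).trans_eq ?_) t h2 h3 j h4 j.is_le).trans
      (mul_le_mul_of_nonneg_right (le_max_right _ _) (Real.exp_pos _).le)
    rw [← Real.exp_nat_mul]
    congr 2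
    push_cast
    ring

end Sys

end Vale.Agent.P207Z
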