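import Vale.Agent.P207Z.Real.CReg
import Vale.Agent.P207Z.Real.CWin
import Vale.Agent.P207Z.Real.CCoefA
import Vale.Agent.P207Z.An.Window

/-!
# P207: the bounds of the Taylor coefficients at all parameters
-/

set_option linter.all false

open Set Filter Topology Metric MeasureTheory
open scoped ContDiff

noncomputable section

namespace Vale.Agent.P207Z

variable {Γ X B E V : Type} [Group Γ] [Countable Γ] [MetricSpace X] [ProperSpace X]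
  [MulAction Γ X] [IsIsometricSMul Γ X] [MeasurableSpace X] [BorelSpace X]
  [TopologicalSpace B] [CompactSpace B] [T2Space B] [SecondCountableTopology B] [MulAction Γ B]
  [ContinuousConstSMul Γ B] [MeasurableSpace B] [BorelSpace B]
  [NormedAddCommGroup E] [InnerProductSpace ℝ E] [FiniteDimensional ℝ E]
  [NormedAddCommGroup V] [NormedSpace ℝ V] [FiniteDimensional ℝ V]

namespace Sys

variable (S : Sys Γ X B E V)

/-- the coefficients in the chart of another frame -/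
theorem co_change {A W : Type} [NormedAddCommGroup A] [NormedSpace ℝ A] [NormedAddCommGroup W]
    [NormedSpace ℝ W] {x₀ : X} {Pt : A × W → V} {b r D ε : ℝ} (hp : S.Pre0 x₀ Pt ε)
    (hr : S.Reg b r D x₀ Pt ε) (J : ℕ) : ∃ C₀ : ℝ, 0 ≤ C₀ ∧ ∀ y ∈ ball (0 : A) (3 * ε / 2), ∀ z,
      S.Ov x₀ Pt y z → ∀ t ≥ (0 : ℝ), ∀ g ∈ ball y (r * Real.exp (-b * t)), ∀ z',
      S.Ov x₀ Pt g z' → ∀ (i₀ P : ℕ) (M η e : ℝ), 1 ≤ M → 0 ≤ η → η ≤ 1 → 0 ≤ e →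
      (∀ j, ‖S.co J x₀ Pt z' t g j‖ ≤ M * η) →
      (∀ j : Fin (J + 1), i₀ ≤ (j : ℕ) → ‖S.co J x₀ Pt z' t g j‖ ≤ e) →
      ∀ j : Fin (J + 1), 1 ≤ (j : ℕ) → i₀ * P ≤ (j : ℕ) →
        ‖S.co J x₀ Pt z t g j‖ ≤ C₀ * (An.nPart J * M ^ J) * (e + η ^ P) := by
  obtain ⟨C₀, h0, hC⟩ := S.unif_bd S.jc_τ (fun g x y q hq => τ_smul g hq) D
    (a := 1 / 4) (by norm_num) J
  refine ⟨C₀, h0, fun y hy z hz t ht g hg z' hz' i₀ P M η e hM hη hη1 he h1 h2 j j1 j2 => ?_⟩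
  obtain ⟨m1, m2, -, m4, -, m6⟩ := hr.mem y hy z hz t ht g hg
  have b1 : Pt (g, 0) ∈ ball (0 : V) 1 := dom_ball m2
  have e1 : S.pt (S.φ t z') = S.c x₀ (Pt (g, 0)) := (S.pt_φ t z').trans hz'.1
  have d1 : Pt (g, 0) ∈ S.dom x₀ (S.φ t z') := by
    have := τ_dom (zero_dom' b1 e1)
    rwa [τ_zero' b1 e1] at this
  have e2 : S.τ x₀ (S.φ t z') (Pt (g, 0)) = 0 := by
    have := τ_τ (zero_dom' b1 e1)
    rwa [τ_zero' b1 e1] at this
  have s1 : ContDiffAt ℝ ∞ (fun s : W => Pt (g, s)) 0 :=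
    (hp.sm g m1).comp 0 (contDiffAt_const.prodMk contDiffAt_id)
  have s2 : ContDiffAt ℝ ∞ (fun s : W => S.Th x₀ Pt z' t (g, s)) 0 :=
    (contDiffAt_τ d1).comp 0 s1
  have d2 := τ_dom' d1 m2
  have e3 : (fun s : W => S.Th x₀ Pt z t (g, s)) =ᶠ[𝓝 0]
      S.τ (S.φ t z') (S.φ t z) ∘ fun s : W => S.Th x₀ Pt z' t (g, s) :=
    (s1.continuousAt.eventually (τ_trans_ev d1 m2)).mono fun s hs => hs.symm
  have jJ : (j : ℕ) ≤ J := Nat.lt_succ_iff.1 j.2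
  show ‖iteratedFDeriv ℝ j (fun s : W => S.Th x₀ Pt z t (g, s)) 0‖ ≤ _
  rw [(e3.iteratedFDeriv ℝ j).self_of_nhds]
  exact An.norm_iter_comp_small j1 jJ hM hη hη1 he ((contDiffAt_τ d2).of_le (AnnD.cast_le _))
    (s2.of_le (AnnD.cast_le _)) (fun i _ hi => hC _ _ (by rw [dist_comm]; exact m6 z' hz') _ d2
      (by rw [e2, norm_zero]; norm_num) (by rw [τ_trans d1 m2]; exact m4) i (hi.trans jJ))
    (fun i _ hi => h1 ⟨i, by omega⟩) (fun i hi0 _ hi => h2 ⟨i, by omega⟩ hi0) j2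

theorem coef : ∃ h > 0, ∃ β > 0, ∀ K : ℝ, ∃ i₁ : ℕ, 1 ≤ i₁ ∧ ∀ (J : ℕ) (A W : Type)
    [NormedAddCommGroup A] [NormedSpace ℝ A] [FiniteDimensional ℝ A] [NormedAddCommGroup W]
    [NormedSpace ℝ W] [FiniteDimensional ℝ W] (x₀ : X) (Pt : A × W → V) (ε C : ℝ),
    S.Pre J x₀ Pt ε C → ∃ D n₁, S.Coef h β K D i₁ J n₁ x₀ Pt ε := by
  obtain ⟨b, hb, hreg⟩ := S.reg
  obtain ⟨h, hh, hwin⟩ := S.win
  have hl := mul_pos S.lam_pos hh
  have hbh := mul_pos hb hh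
  refine ⟨h, hh, b * h + 1, by positivity, fun K => ?_⟩
  obtain ⟨q, hq⟩ := exists_nat_ge ((b * h + 2) / (S.lam * h) + 1)
  have hq0 : 0 < (b * h + 2) / (S.lam * h) := by positivity
  have hq1 : 1 ≤ q := by exact_mod_cast (by linarith : (1 : ℝ) ≤ q)
  have hq2 : b * h + 2 ≤ q * (S.lam * h) := (div_le_iff₀ hl).1 (by linarith)
  obtain ⟨i₀, hi₀, hw⟩ := hwin K q
  obtain ⟨P, hP⟩ := An.exists_pow_le (c := 3 / 4) (by norm_num) (Real.exp_pos (-K))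
  refine ⟨i₀ * (P + 1), Nat.mul_pos hi₀ P.succ_pos, fun J A W _ _ _ _ _ _ x₀ Pt ε C hp => ?_⟩
  obtain ⟨r, hr, D, hD, hR⟩ := hreg A W x₀ Pt ε hp.toPre0
  obtain ⟨C', hC'⟩ := hw J A W x₀ Pt ε C hp.toPre0
  obtain ⟨C₀, hC₀, hc⟩ := S.co_change hp.toPre0 hR J
  obtain ⟨D', hD', hlv⟩ := S.dist_le_lv
  obtain ⟨n₁, hn₁⟩ := CCoefA.exists_exp_le 3 hr
  have hε := hp.pos
  have sub : ball (0 : A) ε ⊆ ball 0 (3 * ε / 2) := ball_subset_ball (by linarith)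
  have rad : ∀ n ≥ n₁, 3 * Real.exp (-(b * h + 1) * n) ≤ r * Real.exp (-b * (n * h)) := by
    intro n hn
    rw [show -(b * h + 1) * (n : ℝ) = -(n : ℝ) + -b * (n * h) by ring, Real.exp_add, ← mul_assoc]
    exact mul_le_mul_of_nonneg_right (hn₁ n hn) (Real.exp_pos _).le
  have tn : ∀ n : ℕ, (n : ℝ) * h ≥ 0 := fun n => by positivity
  refine ⟨D + D' * (h + 1), n₁, fun n hn y hy z hz y' hy' => ?_, fun i => ?_⟩
  · obtain ⟨m1, m2, m3, -, -, m6⟩ := hR.mem y (sub hy) z hz _ (tn n) y' (ball_subset_ball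
      (le_trans (by linarith [Real.exp_pos (-(b * h + 1) * n)]) (rad n hn)) hy')
    refine ⟨m1, m2, m3, fun z' hz' t ht => (dist_triangle _ (S.φ (n * h) z') _).trans
      (add_le_add (m6 z' hz') ((hlv _ _ ((S.pt_φ _ _).trans (S.pt_φ _ _).symm)).trans ?_))⟩
    rw [S.lv_φ, S.lv_φ, add_sub_add_left_eq_sub, abs_sub_comm]
    gcongr
  let I := {p : ℕ × A × X × A // n₁ ≤ p.1 ∧ p.2.1 ∈ ball (0 : A) ε ∧ S.Ov x₀ Pt p.2.1 p.2.2.1 ∧
    p.2.2.2 ∈ ball p.2.1 (2 * Real.exp (-(b * h + 1) * p.1))}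
  have in3 : ∀ ι : I, ∀ w ∈ closedBall ι.1.2.2.2 (Real.exp (-(b * h + 1) * ι.1.1)),
      w ∈ ball ι.1.2.1 (3 * Real.exp (-(b * h + 1) * ι.1.1)) := fun ι w hw => by
    have h1 := mem_ball.1 ι.2.2.2.2
    have h2 := mem_closedBall.1 hw
    exact mem_ball.2 (by linarith [dist_triangle w ι.1.2.2.2 ι.1.2.1])
  have inr := fun ι w hw => ball_subset_ball (rad _ ι.2.1) (in3 ι w hw)
  have mem := fun ι w hw => hR.mem _ (sub ι.2.2.1) _ ι.2.2.2.1 _ (tn _) w (inr ι w hw)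
  have key : ∀ (j : Fin (J + 1)) (K' a : ℝ), (∀ ι : I,
      ∀ g ∈ {g | S.Gd J x₀ Pt C ((q * ι.1.1 : ℕ) * h) g} ∩
        closedBall ι.1.2.2.2 (Real.exp (-(b * h + 1) * ι.1.1)),
        ‖S.co J x₀ Pt ι.1.2.2.1 (ι.1.1 * h) g j‖ ≤ a * Real.exp (-K' * ι.1.1)) → ∃ C, ∀ ι : I,
      ‖iteratedFDeriv ℝ i (fun y => S.co J x₀ Pt ι.1.2.2.1 (ι.1.1 * h) y j) ι.1.2.2.2‖
        ≤ C * Real.exp ((b * h + 1) * i * ι.1.1) * Real.exp (-K' * ι.1.1) := by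
    intro j K' a ha
    refine CCoefA.interp_seq (C := |C|) (fun ι : I => ι.1.1) (fun ι => ι.1.2.2.2)
      (fun ι y => S.co J x₀ Pt ι.1.2.2.1 (ι.1.1 * h) y j) _ hbh.le j
      (fun ι w hw => (CCoefA.coeff (mem ι w hw).2.2.1 j).1) (fun k => ?_) ha (fun ι w hw => ?_) i
    · obtain ⟨C₁, h1⟩ := hR.bd (j + k)
      refine ⟨C₁, fun ι w hw => (((CCoefA.coeff (mem ι w hw).2.2.1 j).2 k).trans
        (h1 _ (sub ι.2.2.1) _ ι.2.2.2.1 _ (tn _) w (inr ι w hw))).trans (le_of_eq ?_)⟩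
      congr 2
      push_cast
      ring
    · obtain ⟨g, g1, g2⟩ := hp.good w (mem ι w hw).1 _ (tn (q * ι.1.1))
      refine ⟨g, g2, g1.trans (mul_le_mul (le_abs_self _) (Real.exp_le_exp.2 ?_)
        (Real.exp_pos _).le (abs_nonneg _))⟩
      push_cast
      nlinarith [(Nat.cast_nonneg ι.1.1 : (0 : ℝ) ≤ ι.1.1)]
  have e34 : ∀ n : ℕ, Real.exp (-(-Real.log (3 / 4)) * n) = (3 / 4) ^ n := fun n => by
    rw [neg_neg, mul_comm, Real.exp_nat_mul, Real.exp_log (by norm_num)]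
  set M := max C' 1 with hM
  have M1 : 1 ≤ M := le_max_right _ _
  have p1 : ∀ n : ℕ, (3 / 4 : ℝ) ^ n ≤ 1 := fun n => pow_le_one₀ (by norm_num) (by norm_num)
  have N0 : 0 ≤ C₀ * (An.nPart J * M ^ J) := by have := An.nPart_nonneg J; positivity
  have good : ∀ ι : I, ∀ g ∈ {g | S.Gd J x₀ Pt C ((q * ι.1.1 : ℕ) * h) g} ∩
      closedBall ι.1.2.2.2 (Real.exp (-(b * h + 1) * ι.1.1)), ∃ z', S.Ov x₀ Pt g z' ∧
        (∀ j, ‖S.co J x₀ Pt z' (ι.1.1 * h) g j‖ ≤ M * (3 / 4) ^ ι.1.1) ∧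
        ∀ j : Fin (J + 1), i₀ ≤ (j : ℕ) →
          ‖S.co J x₀ Pt z' (ι.1.1 * h) g j‖ ≤ M * Real.exp (-K * ι.1.1) := fun ι g hg => by
    obtain ⟨z', hz'⟩ := S.exists_ov x₀ (dom_ball (mem ι g hg.2).2.1)
    obtain ⟨h1, h2⟩ := hC' g (mem ι g hg.2).1 _ hg.1 z' hz'
    exact ⟨z', hz', fun j => (h1 _ j).1.trans (by gcongr; exact le_max_left _ _), fun j hj =>
      (h2 _ _ (Nat.le_add_right _ _) le_rfl (Nat.le_mul_of_pos_left _ hq1) j hj).trans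
        (by gcongr; exact le_max_left _ _)⟩
  have k1 := fun j : Fin (J + 1) => key j (-Real.log (3 / 4))
      (D * 3 + C₀ * (An.nPart J * M ^ J) * (M + 1)) fun ι g hg => by
    rw [e34, add_mul]
    rcases Nat.eq_zero_or_pos j with h0 | h0
    · obtain rfl : j = 0 := Fin.ext h0
      refine le_trans ?_ (le_add_of_nonneg_right (by positivity))
      refine ((norm_iteratedFDeriv_zero (𝕜 := ℝ) (f := fun s : W =>
        S.Th x₀ Pt ι.1.2.2.1 (ι.1.1 * h) (g, s))).trans_le (mem ι g hg.2).2.2.2.2.1).trans ?_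
      have h1 := (mem_ball_iff_norm.1 (in3 ι g hg.2)).le
      have h2 : Real.exp (b * (ι.1.1 * h)) * Real.exp (-(b * h + 1) * ι.1.1)
          ≤ (3 / 4) ^ ι.1.1 := by
        rw [← Real.exp_add, show b * ((ι.1.1 : ℝ) * h) + -(b * h + 1) * ι.1.1 = ι.1.1 * (-1) by
          ring, Real.exp_nat_mul]
        refine pow_le_pow_left₀ (Real.exp_pos _).le ?_ _
        rw [Real.exp_neg, inv_le_comm₀ (Real.exp_pos _) (by norm_num)]
        linarith [Real.add_one_le_exp 1]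
      calc _ ≤ D * Real.exp (b * (ι.1.1 * h)) * (3 * Real.exp (-(b * h + 1) * ι.1.1)) := by gcongr
        _ = D * 3 * (Real.exp (b * (ι.1.1 * h)) * Real.exp (-(b * h + 1) * ι.1.1)) := by ring
        _ ≤ _ := by gcongr
    · obtain ⟨z', hz', h1, -⟩ := good ι g hg
      refine le_trans ?_ (le_add_of_nonneg_left (by positivity))
      refine (hc _ (sub ι.2.2.1) _ ι.2.2.2.1 _ (tn _) g (inr ι g hg.2) z' hz' 0 1 M _ _ M1
        (by positivity) (p1 _) (by positivity) h1 (fun j _ => h1 j) j h0 (Nat.zero_le _)).trans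
        (le_of_eq (by ring))
  have k2 : ∀ j : Fin (J + 1), ∃ C, i₀ * (P + 1) ≤ (j : ℕ) → ∀ ι : I,
      ‖iteratedFDeriv ℝ i (fun y => S.co J x₀ Pt ι.1.2.2.1 (ι.1.1 * h) y j) ι.1.2.2.2‖
        ≤ C * Real.exp ((b * h + 1) * i * ι.1.1) * Real.exp (-K * ι.1.1) := fun j => by
    by_cases hj : i₀ * (P + 1) ≤ (j : ℕ)
    swap
    · exact ⟨0, fun h => absurd h hj⟩
    refine (key j K (C₀ * (An.nPart J * M ^ J) * (M + 1)) fun ι g hg => ?_).imp fun _ h _ => h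
    obtain ⟨z', hz', h1, h2⟩ := good ι g hg
    refine (hc _ (sub ι.2.2.1) _ ι.2.2.2.1 _ (tn _) g (inr ι g hg.2) z' hz' i₀ (P + 1) M _ _ M1
      (by positivity) (p1 _) (by positivity) h1 h2 j
      ((Nat.mul_pos hi₀ P.succ_pos).trans_le hj) hj).trans ?_
    rw [mul_assoc _ (M + 1), add_mul, one_mul]
    gcongr
    rw [← pow_mul, mul_comm ι.1.1, pow_mul, mul_comm (-K), Real.exp_nat_mul]
    exact pow_le_pow_left₀ (by positivity)
      ((pow_le_pow_of_le_one (by norm_num) (by norm_num) P.le_succ).trans hP) _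
  choose C₁ k1 using k1
  choose C₂ k2 using k2
  have le : ∀ j, |C₁ j| + |C₂ j| ≤ ∑ j, (|C₁ j| + |C₂ j|) := fun j => Finset.single_le_sum
    (f := fun j => |C₁ j| + |C₂ j|) (fun _ _ => by positivity) (Finset.mem_univ j)
  refine ⟨∑ j, (|C₁ j| + |C₂ j|), fun n hn y hy z hz y' hy' => ⟨CCoefA.norm_pi_le (fun j =>
    (CCoefA.coeff (mem ⟨(n, y, z, y'), hn, hy, hz, hy'⟩ y'
      (mem_closedBall_self (Real.exp_pos _).le)).2.2.1 j).1) fun j => ?_, fun j hj => ?_⟩⟩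
  · refine (k1 j ⟨(n, y, z, y'), hn, hy, hz, hy'⟩).trans ?_
    rw [e34]
    gcongr
    linarith [le j, le_abs_self (C₁ j), abs_nonneg (C₂ j)]
  · refine (k2 j hj ⟨(n, y, z, y'), hn, hy, hz, hy'⟩).trans ?_
    gcongr
    linarith [le j, le_abs_self (C₂ j), abs_nonneg (C₁ j)]

end Sys

end Vale.Agent.P207Z
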