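import Vale.Agent.P207Z.Real.CDefs
import Vale.Agent.P207Z.Real.Dist

/-!
# P207: the realisation of a formal family (block CORE), regularity along the orbits
-/

set_option linter.all false

open Set Filter Topology Metric MeasureTheory
open scoped ContDiff

noncomputable section

namespace Vale.Agent.P207Z

namespace CRegAux

section
variable {U V W : Type} [NormedAddCommGroup U] [NormedSpace ℝ U] [NormedAddCommGroup V]
  [NormedSpace ℝ V] [NormedAddCommGroup W] [NormedSpace ℝ W]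

theorem exists_open {f : U → V} {q : U} (hf : ContDiffAt ℝ ∞ f q) (n : ℕ) :
    ∃ s, IsOpen s ∧ q ∈ s ∧ ContDiffOn ℝ n f s := by
  obtain ⟨u, hu, h⟩ := hf.contDiffOn (StayAux.cast_le n) (by simp)
  exact ⟨interior u, isOpen_interior, mem_interior_iff_mem_nhds.2 hu, h.mono interior_subset⟩

/-- the bound for a composition, at a point -/
theorem comp_at {g : V → W} {f : U → V} {q : U} (hg : ContDiffAt ℝ ∞ g (f q))
    (hf : ContDiffAt ℝ ∞ f q) (n : ℕ) {C D : ℝ}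
    (hC : ∀ i, i ≤ n → ‖iteratedFDeriv ℝ i g (f q)‖ ≤ C)
    (hD : ∀ i, 1 ≤ i → i ≤ n → ‖iteratedFDeriv ℝ i f q‖ ≤ D ^ i) :
    ‖iteratedFDeriv ℝ n (fun y => g (f y)) q‖ ≤ n.factorial * C * D ^ n := by
  obtain ⟨t, ht, hqt, hgt⟩ := exists_open hg n
  obtain ⟨s, hs, hqs, hfs⟩ := exists_open hf n
  have hs' : IsOpen (s ∩ f ⁻¹' t) := hfs.continuousOn.isOpen_inter_preimage hs ht
  have hq : q ∈ s ∩ f ⁻¹' t := ⟨hqs, hqt⟩
  have h := norm_iteratedFDerivWithin_comp_le hgt (hfs.mono inter_subset_left) le_rfl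
    ht.uniqueDiffOn hs'.uniqueDiffOn (fun _ hy => hy.2) hq (C := C) (D := D)
    (by simpa only [iteratedFDerivWithin_of_isOpen _ ht hqt] using hC)
    (by simpa only [iteratedFDerivWithin_of_isOpen _ hs' hq] using hD)
  rw [iteratedFDerivWithin_of_isOpen _ hs' hq] at h
  exact h

end

theorem unif_fin {Q : ℕ → ℝ → Prop} (hm : ∀ j C C', C ≤ C' → Q j C → Q j C')
    (h : ∀ j, ∃ C, Q j C) (i : ℕ) : ∃ C, 1 ≤ C ∧ ∀ j ≤ i, Q j C := by
  choose c hc using h
  obtain ⟨M, hM⟩ := ((finite_Iic i).image c).bddAbove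
  exact ⟨max M 1, le_max_right _ _, fun j hj =>
    hm j _ _ ((hM (mem_image_of_mem c hj)).trans (le_max_left _ _)) (hc j)⟩

end CRegAux

open CRegAux

variable {Γ X B E V : Type} [Group Γ] [Countable Γ] [MetricSpace X] [ProperSpace X]
  [MulAction Γ X] [IsIsometricSMul Γ X] [MeasurableSpace X] [BorelSpace X]
  [TopologicalSpace B] [CompactSpace B] [T2Space B] [SecondCountableTopology B] [MulAction Γ B]
  [ContinuousConstSMul Γ B] [MeasurableSpace B] [BorelSpace B]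
  [NormedAddCommGroup E] [InnerProductSpace ℝ E] [FiniteDimensional ℝ E]
  [NormedAddCommGroup V] [NormedSpace ℝ V] [FiniteDimensional ℝ V]

namespace Sys

variable (S : Sys Γ X B E V)

theorem reg : ∃ b > 0, ∀ (A W : Type) [NormedAddCommGroup A] [NormedSpace ℝ A]
    [NormedAddCommGroup W] [NormedSpace ℝ W] (x₀ : X) (Pt : A × W → V) (ε : ℝ),
    S.Pre0 x₀ Pt ε → ∃ r > 0, ∃ D > 0, S.Reg b r D x₀ Pt ε := by
  have q4 : (1 / 4 : ℝ) < 1 := by norm_num
  obtain ⟨b₁, r₁, hb₁, hr₁, hball⟩ := S.stay_ball (a := 0) (a' := 1 / 4) (by norm_num) q4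
  obtain ⟨b₂, hb₂, hτ⟩ := S.stay_τ q4
  obtain ⟨D₀, hD₀⟩ := S.dist_le_U q4 0
  obtain ⟨r₀, hr₀, hdom⟩ := S.unif_dom D₀ (a := 1 / 4) (a' := 1 / 2) (by norm_num) one_half_lt_one
  have hbd := S.unif_bd jc_τ (fun g _ _ _ hq => τ_smul g hq) D₀ one_half_lt_one
  obtain ⟨L, hL, hL1⟩ := hbd 1
  refine ⟨b₁ + b₂, by positivity, fun A W _ _ _ _ x₀ Pt ε hp => ?_⟩
  have hε := hp.pos
  obtain ⟨C₀, hC₀⟩ := hp.bd 1
  set C₁ := |C₀| + 1 with hC₁
  have hC₁0 : 0 < C₁ := by positivity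
  have hone : ∀ y ∈ ball (0 : A) (2 * ε), Pt (y, 0) ∈ ball (0 : V) 1 := fun y hy =>
    mem_ball_zero_iff.2 ((hp.small y hy).trans_lt q4)
  -- the Lipschitz bound along the axis
  have hlip : ∀ y ∈ ball (0 : A) (2 * ε), ∀ y' ∈ ball (0 : A) (2 * ε),
      ‖Pt (y', 0) - Pt (y, 0)‖ ≤ C₁ * ‖y' - y‖ := by
    intro y hy y' hy'
    have h1 : ∀ u ∈ ball (0 : A) (2 * ε), HasFDerivAt (fun u : A => Pt (u, 0))
        ((fderiv ℝ Pt (u, 0)).comp (ContinuousLinearMap.inl ℝ A W)) u := fun u hu =>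
      ((hp.sm u hu).differentiableAt (by simp)).hasFDerivAt.comp u
        (ContinuousLinearMap.inl ℝ A W).hasFDerivAt
    refine (convex_ball (0 : A) (2 * ε)).norm_image_sub_le_of_norm_hasFDerivWithin_le
      (fun u hu => (h1 u hu).hasFDerivWithinAt) (fun u hu => ?_) hy hy'
    refine (ContinuousLinearMap.opNorm_comp_le _ _).trans ?_
    have h2 := hC₀ u hu
    rw [norm_iteratedFDeriv_one] at h2
    have h3 : ‖ContinuousLinearMap.inl ℝ A W‖ ≤ 1 := ContinuousLinearMap.norm_inl_le_one _ _ _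
    have h4 := mul_le_of_le_one_right (norm_nonneg (fderiv ℝ Pt (u, 0))) h3
    linarith [le_abs_self C₀]
  set r := min (ε / 2) (min (r₀ / C₁) (r₁ / ((L + 1) * C₁))) with hr
  have hr0 : 0 < r := by positivity
  -- the main facts
  have key : ∀ y ∈ ball (0 : A) (3 * ε / 2), ∀ z, S.Ov x₀ Pt y z → ∀ t ≥ (0 : ℝ),
      ∀ y' ∈ ball y (r * Real.exp (-(b₁ + b₂) * t)), y' ∈ ball (0 : A) (2 * ε) ∧
        dist x₀ z ≤ D₀ ∧ S.em x₀ = S.em z ∧ Pt (y', 0) ∈ S.dom x₀ z ∧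
        ‖S.τ x₀ z (Pt (y', 0))‖ ≤ 1 / 2 ∧ S.Stay (1 / 4) z t (S.τ x₀ z (Pt (y', 0))) ∧
        ‖S.τ z (S.φ t z) (S.τ x₀ z (Pt (y', 0)))‖ ≤
          Real.exp (b₁ * (t + 1)) * ((L + 1) * C₁ * ‖y' - y‖) := by
    intro y hy z hz t ht y' hy'
    have hy2 : y ∈ ball (0 : A) (2 * ε) := ball_subset_ball (by linarith) hy
    have e1 : Real.exp (-(b₁ + b₂) * t) ≤ Real.exp (-b₁ * |t|) := by
      rw [abs_of_nonneg ht]
      exact Real.exp_le_exp.2 (by nlinarith)
    have e2 : Real.exp (-(b₁ + b₂) * t) ≤ 1 := Real.exp_le_one_iff.2 (by nlinarith)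
    have e3 : ‖y' - y‖ < r * Real.exp (-(b₁ + b₂) * t) := mem_ball_iff_norm.1 hy'
    have e4 : ‖y' - y‖ < r := e3.trans_le (mul_le_of_le_one_right hr0.le e2)
    have hy2' : y' ∈ ball (0 : A) (2 * ε) := by
      have e5 := mem_ball_zero_iff.1 hy
      have e6 := norm_add_le (y' - y) y
      rw [sub_add_cancel] at e6
      have e7 : r ≤ ε / 2 := min_le_left _ _
      exact mem_ball_zero_iff.2 (by linarith)
    have hq := hone y hy2
    have hu : S.iU (S.pU (Pt (y, 0))) = Pt (y, 0) := S.iU_pU (hp.ax y hy2)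
    have hd : dist x₀ z ≤ D₀ := hD₀ x₀ z (S.pU (Pt (y, 0)))
      ((S.norm_pU_le _).trans (hp.small y hy2)) (by rw [hu]; exact hz.1)
      (by rw [hz.2, sub_self, abs_zero])
    have hem : S.em x₀ = S.em z :=
      ((congrArg Prod.fst hz.1).trans ((S.c_U x₀ _ hq).2 (hp.ax y hy2))).symm
    have h0 : S.c z 0 = S.c x₀ (Pt (y, 0)) := (S.c_zero' z).trans hz.1
    have hqd : Pt (y, 0) ∈ S.dom x₀ z := mem_dom hq (mem_ball_self one_pos) h0
    have hq0 : S.τ x₀ z (Pt (y, 0)) = 0 := τ_eq (mem_ball_self one_pos) h0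
    have h1 := hdom x₀ z hd _ hqd (hp.small y hy2) (by rw [hq0, norm_zero]; norm_num)
    have h2 := hlip y hy2 y' hy2'
    have h3 : Pt (y', 0) ∈ closedBall (Pt (y, 0)) r₀ := by
      refine mem_closedBall_iff_norm.2 (h2.trans ?_)
      have e5 : r ≤ r₀ / C₁ := (min_le_right _ _).trans (min_le_left _ _)
      rw [mul_comm]
      exact (le_div_iff₀ hC₁0).1 (e4.le.trans e5)
    have h4 := (convex_closedBall (Pt (y, 0)) r₀).norm_image_sub_le_of_norm_fderiv_le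
      (𝕜 := ℝ) (f := S.τ x₀ z) (C := L) (fun p hp => differentiableAt_τ (h1 p hp).1)
      (fun p hp => by
        rw [← norm_iteratedFDeriv_one]
        exact hL1 _ _ hd p (h1 p hp).1 (h1 p hp).2.1 (h1 p hp).2.2 1 le_rfl)
      (mem_closedBall_self hr₀.le) h3
    rw [hq0, sub_zero] at h4
    have h5 : ‖S.τ x₀ z (Pt (y', 0))‖ ≤ (L + 1) * C₁ * ‖y' - y‖ := by
      refine h4.trans ?_
      rw [mul_assoc]
      exact mul_le_mul (by linarith) h2 (norm_nonneg _) (by linarith)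
    have h6 : S.τ x₀ z (Pt (y', 0)) ∈ ball (0 : V) (r₁ * Real.exp (-b₁ * |t|)) := by
      refine mem_ball_zero_iff.2 (h5.trans_lt ?_)
      have e5 : r ≤ r₁ / ((L + 1) * C₁) := (min_le_right _ _).trans (min_le_right _ _)
      have e6 : 0 < (L + 1) * C₁ := by positivity
      have e7 : r * ((L + 1) * C₁) ≤ r₁ := (le_div_iff₀ e6).1 e5
      calc (L + 1) * C₁ * ‖y' - y‖ < (L + 1) * C₁ * (r * Real.exp (-(b₁ + b₂) * t)) :=
            mul_lt_mul_of_pos_left e3 e6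
        _ = r * ((L + 1) * C₁) * Real.exp (-(b₁ + b₂) * t) := by ring
        _ ≤ r₁ * Real.exp (-b₁ * |t|) := mul_le_mul e7 e1 (Real.exp_pos _).le hr₁.le
    obtain ⟨h7, h8⟩ := hball z t 0 (S.stay_zero le_rfl z t) _ h6
    rw [τ_zero (S.pt_φ t z).symm, sub_zero, sub_zero, abs_of_nonneg ht] at h8
    exact ⟨hy2', hd, hem, (h1 _ h3).1, (h1 _ h3).2.2, h7,
      h8.trans (mul_le_mul_of_nonneg_left h5 (Real.exp_pos _).le)⟩
  refine ⟨r, hr0, |D₀| + Real.exp b₁ * ((L + 1) * C₁), by positivity,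
    fun y hy z hz t ht y' hy' => ?_, fun i => ?_⟩
  · obtain ⟨h1, -, h2, h3, -, h4, h5⟩ := key y hy z hz t ht y' hy'
    obtain ⟨h6, h7⟩ := h4 t right_mem_uIcc
    have h8 := dom_trans h3 h6
    have h9 : S.τ z (S.φ t z) (S.τ x₀ z (Pt (y', 0))) = S.Th x₀ Pt z t (y', 0) := τ_trans h3 h8
    rw [h9] at h5 h7
    refine ⟨h1, h8, (contDiffAt_τ h8).comp _ (hp.sm y' h1), h7, h5.trans ?_, fun z' hz' => ?_⟩
    · have e1 : Real.exp (b₁ * (t + 1)) ≤ Real.exp b₁ * Real.exp ((b₁ + b₂) * t) := by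
        rw [← Real.exp_add]
        exact Real.exp_le_exp.2 (by nlinarith)
      have e2 : 0 ≤ |D₀| * Real.exp ((b₁ + b₂) * t) * ‖y' - y‖ := by positivity
      have e3 := mul_le_mul_of_nonneg_right e1 (show 0 ≤ (L + 1) * C₁ * ‖y' - y‖ by positivity)
      linarith
    · have e1 : S.pS (S.Th x₀ Pt z t (y', 0)) = 0 :=
        (pS_τ (h2.trans (S.em_φ t z).symm) h8).2 (hp.ax y' h1)
      have e2 := hD₀ (S.φ t z) (S.φ t z') (S.pU (S.Th x₀ Pt z t (y', 0)))
        ((S.norm_pU_le _).trans h7)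
        (by rw [S.iU_pU e1, S.pt_φ, hz'.1]; exact (c_τ h8).symm)
        (by rw [S.lv_φ, S.lv_φ, hz.2, hz'.2, sub_self, abs_zero])
      have e3 : 0 ≤ Real.exp b₁ * ((L + 1) * C₁) := by positivity
      linarith [le_abs_self D₀]
  · obtain ⟨L', hL', hL2⟩ := hbd i
    obtain ⟨c, hc, hc'⟩ := unif_fin (Q := fun j C => ∀ y ∈ ball (0 : A) (2 * ε),
      ‖iteratedFDeriv ℝ j Pt (y, 0)‖ ≤ C) (fun j C C' h h' y hy => (h' y hy).trans h) hp.bd i
    obtain ⟨d, hd, hd'⟩ := unif_fin (Q := fun j C => 1 ≤ j → ∀ x t q, S.Stay (1 / 4) x t q →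
      ‖iteratedFDeriv ℝ j (S.τ x (S.φ t x)) q‖ ≤ C * Real.exp (b₂ * j * |t|))
      (fun j C C' h h' hj x t q hq => (h' hj x t q hq).trans
        (mul_le_mul_of_nonneg_right h (Real.exp_pos _).le))
      (fun j => by
        by_cases hj : 1 ≤ j
        · obtain ⟨C, -, h⟩ := hτ j hj
          exact ⟨C, fun _ => h⟩
        · exact ⟨0, fun h => absurd h hj⟩) i
    set M : ℝ := max (i.factorial * L' * c ^ i) 1 with hM
    refine ⟨i.factorial * d * M ^ i, fun y hy z hz t ht y' hy' => ?_⟩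
    obtain ⟨h1, h2, -, h3, h4, h5, -⟩ := key y hy z hz t ht y' hy'
    obtain ⟨h6, h7⟩ := h5 t right_mem_uIcc
    have h8 := dom_trans h3 h6
    have hsm := hp.sm y' h1
    have e : S.Th x₀ Pt z t =ᶠ[𝓝 (y', 0)] fun p => S.τ z (S.φ t z) (S.τ x₀ z (Pt p)) :=
      (hsm.continuousAt.eventually (τ_trans_ev h3 h8)).mono fun p hp => hp.symm
    rw [(e.iteratedFDeriv ℝ i).eq_of_nhds]
    have e0 : 1 ≤ Real.exp ((b₁ + b₂) * i * t) := Real.one_le_exp (by positivity)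
    refine (comp_at (f := fun p => S.τ x₀ z (Pt p)) (contDiffAt_τ h6) ((contDiffAt_τ h3).comp _ hsm)
      i (C := d * Real.exp ((b₁ + b₂) * i * t)) (D := M) (fun j hj => ?_)
      (fun j hj hj' => ?_)).trans (le_of_eq (by ring))
    · rcases Nat.eq_zero_or_pos j with rfl | hj'
      · rw [norm_iteratedFDeriv_zero]
        nlinarith
      · refine (hd' j hj hj' z t _ h5).trans (mul_le_mul_of_nonneg_left (Real.exp_le_exp.2 ?_)
          (by linarith))
        rw [abs_of_nonneg ht]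
        have e1 : (j : ℝ) ≤ i := by exact_mod_cast hj
        refine mul_le_mul_of_nonneg_right (mul_le_mul (by linarith) e1 (by positivity)
          (by positivity)) ht
    · have e1 := comp_at (contDiffAt_τ h3) hsm j (C := L') (D := c)
        (fun l hl => hL2 _ _ h2 _ h3 ((hp.small y' h1).trans (by norm_num)) h4 l (hl.trans hj'))
        fun l hl hl' => (hc' l (hl'.trans hj') y' h1).trans (le_self_pow₀ hc (by omega))
      refine e1.trans (le_trans ?_ (le_self_pow₀ (le_max_right _ _) (by omega)))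
      refine le_trans ?_ (le_max_left _ _)
      have e2 : (j.factorial : ℝ) ≤ i.factorial := by exact_mod_cast Nat.factorial_le hj'
      exact mul_le_mul (mul_le_mul_of_nonneg_right e2 hL') (pow_le_pow_right₀ hc hj')
        (by positivity) (by positivity)

/-- tangency to the stable leaf does not depend on the frame -/
theorem tan_pt {W : Type} [NormedAddCommGroup W] [NormedSpace ℝ W] {J : ℕ} {x₀ z z' : X}
    {f : W → V} (hf : ContinuousAt f 0) (h0 : f 0 ∈ ball (0 : V) 1) (hz : S.pt z = S.c x₀ (f 0))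
    (hz' : S.pt z' = S.pt z) (h : Flat J (fun s => S.pU (S.τ x₀ z (f s))) 0) :
    Flat J (fun s => S.pU (S.τ x₀ z' (f s))) 0 := by
  have b0 : (0 : V) ∈ ball (0 : V) 1 := mem_ball_self one_pos
  have e1 : S.c z 0 = S.c x₀ (f 0) := (S.c_zero' z).trans hz
  have e2 : S.c z' 0 = S.c x₀ (f 0) := (S.c_zero' z').trans (hz'.trans hz)
  have d1 : f 0 ∈ S.dom x₀ z := mem_dom h0 b0 e1
  have d2 : f 0 ∈ S.dom x₀ z' := mem_dom h0 b0 e2
  have d3 : (0 : V) ∈ S.dom z z' := zero_dom hz'.symm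
  have hep : S.ep z = S.ep z' := (congrArg Prod.snd hz').symm
  obtain ⟨K, t, ht, hK⟩ :=
    ((contDiffAt_τ d3).of_le (by simp : (1 : WithTop ℕ∞) ≤ ∞)).exists_lipschitzOnWith
  have hg : Tendsto (fun s => S.τ x₀ z (f s)) (𝓝 0) (𝓝 0) := by
    have := ((continuousAt_τ d1).comp hf).tendsto
    rwa [Function.comp_apply, τ_eq b0 e1] at this
  have hP : Tendsto (fun q => S.iS (S.pS q)) (𝓝 0) (𝓝 (0 : V)) := by
    exact (S.iS.continuous.comp S.pS.continuous).tendsto' 0 0 (by simp)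
  have h1 : ∀ᶠ q in 𝓝 (0 : V), ‖S.pU (S.τ z z' q)‖ ≤ K * ‖S.pU q‖ := by
    filter_upwards [ht, hP.eventually ht, hP.eventually (dom_nhds d3)] with q a1 a2 a3
    have a4 : S.pU (S.τ z z' (S.iS (S.pS q))) = 0 := (pU_τ hep a3).2 (S.pU_iS _)
    have a5 := hK.norm_sub_le a1 a2
    have a6 : q - S.iS (S.pS q) = S.iU (S.pU q) := by
      rw [sub_eq_iff_eq_add']
      exact (S.iS_add q).symm
    rw [a6, S.norm_iU] at a5
    rw [← sub_zero (S.pU _), ← a4, ← map_sub]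
    exact (S.norm_pU_le _).trans a5
  refine Asymptotics.IsBigO.trans_isLittleO (Asymptotics.IsBigO.of_bound K ?_) h
  filter_upwards [hg.eventually h1, hf.eventually (τ_trans_ev d1 d2)] with s a1 a2
  rw [← a2]
  exact a1

theorem exists_ov {A W : Type} [NormedAddCommGroup A] [NormedSpace ℝ A] [NormedAddCommGroup W]
    [NormedSpace ℝ W] (x₀ : X) {Pt : A × W → V} {y : A} (h : Pt (y, 0) ∈ ball (0 : V) 1) :
    ∃ z, S.Ov x₀ Pt y z := S.exists_frame_lv (S.c_ne x₀ _ h) _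

end Sys

end Vale.Agent.P207Z
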