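import Vale.Agent.P207Z.Real.CDefs

/-!
# P207 REAL, CORE: shadowing backwards
-/

set_option linter.all false

open Set Filter Topology Metric

noncomputable section

namespace Vale.Agent.P207Z

variable {Γ X B E V : Type} [Group Γ] [Countable Γ] [MetricSpace X] [ProperSpace X]
  [MulAction Γ X] [IsIsometricSMul Γ X] [MeasurableSpace X] [BorelSpace X]
  [TopologicalSpace B] [CompactSpace B] [T2Space B] [SecondCountableTopology B] [MulAction Γ B]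
  [ContinuousConstSMul Γ B] [MeasurableSpace B] [BorelSpace B]
  [NormedAddCommGroup E] [InnerProductSpace ℝ E] [FiniteDimensional ℝ E]
  [NormedAddCommGroup V] [NormedSpace ℝ V] [FiniteDimensional ℝ V]

namespace Sys

variable (S : Sys Γ X B E V)

variable {S} in
theorem Stay.concat {a t s : ℝ} {x : X} {q : V} (h : S.Stay a x t q)
    (h' : S.Stay a (S.φ t x) s (S.τ x (S.φ t x) q)) : S.Stay a x (s + t) q := fun v hv => by
  rcases uIcc_subset_uIcc_union_uIcc (b := t) hv with k | k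
  · exact h v k
  · obtain ⟨k1, k2⟩ := h' (v - t) (by
      rw [mem_uIcc] at k ⊢
      rcases k with k | k
      · left; constructor <;> linarith [k.1, k.2]
      · right; constructor <;> linarith [k.1, k.2])
    rw [← S.φ_add, sub_add_cancel] at k1 k2
    have k3 := (h t right_mem_uIcc).1
    exact ⟨dom_trans k3 k1, τ_trans k3 (dom_trans k3 k1) ▸ k2⟩

theorem one_step (t : ℝ) : ∃ Λ ρ : ℝ, 1 ≤ Λ ∧ 0 < ρ ∧ ∀ x, ∀ q q' : V, ‖q‖ ≤ ρ → ‖q'‖ ≤ ρ →
    S.Stay (1 / 8) x t q' ∧ ‖S.τ x (S.φ t x) q' - S.τ x (S.φ t x) q‖ ≤ Λ * ‖q' - q‖ := by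
  obtain ⟨b, r, -, r0, h⟩ := S.stay_ball (a := 0) (a' := 1 / 16) (by norm_num) (by norm_num)
  obtain ⟨b', r', b0, r0', h'⟩ := S.stay_ball (a := 1 / 16) (a' := 1 / 8) (by norm_num)
    (by norm_num)
  have p1 : 0 < r * Real.exp (-b * |t|) := by positivity
  have p2 : 0 < r' * Real.exp (-b' * |t|) := by positivity
  refine ⟨_, min (r * Real.exp (-b * |t|) / 2) (r' * Real.exp (-b' * |t|) / 3),
    Real.one_le_exp (by positivity : 0 ≤ b' * (|t| + 1)), by positivity, fun x q q' k k' =>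
    h' x t q (h x t 0 (S.stay_zero le_rfl x t) q (mem_ball_zero_iff.2 ?_)).1 q'
      (mem_ball_iff_norm.2 ?_)⟩
  · linarith [(le_min_iff.1 k).1]
  · linarith [(le_min_iff.1 k).2, (le_min_iff.1 k').2, norm_sub_le q' q]

theorem shadow {h : ℝ} (hh : 0 < h) : ∃ Λ a : ℝ, 1 ≤ Λ ∧ 0 < a ∧ ∀ (z : X) (u : ℕ → V)
    (e : ℕ → ℝ) (n₀ n : ℕ), n₀ ≤ n → (∀ m, n₀ ≤ m → m ≤ n → ‖u m‖ ≤ a) →
    (∀ m, n₀ ≤ m → m < n → u m ∈ S.dom (S.φ (m * h) z) (S.φ ((m + 1 : ℕ) * h) z) ∧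
      ‖S.τ (S.φ (m * h) z) (S.φ ((m + 1 : ℕ) * h) z) (u m) - u (m + 1)‖ ≤ e m) →
    (∀ m, n₀ ≤ m → 0 ≤ e m ∧ e m ≤ a ∧ e (m + 1) * Λ ≤ e m / 2) →
    S.Stay (1 / 8) (S.φ (n * h) z) ((n₀ - n : ℝ) * h) (u n) ∧
      ‖S.τ (S.φ (n * h) z) (S.φ (n₀ * h) z) (u n) - u n₀‖ ≤ 2 * Λ * e n₀ := by
  obtain ⟨Λ, ρ, Λ1, ρ0, H⟩ := S.one_step (-h)
  refine ⟨Λ, ρ / 2, Λ1, by positivity, fun z u e n₀ n hn hu hd he => ?_⟩
  refine Nat.decreasingInduction' (P := fun m => S.Stay (1 / 8) (S.φ (n * h) z)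
    ((m - n : ℝ) * h) (u n) ∧ ‖S.τ (S.φ (n * h) z) (S.φ (m * h) z) (u n) - u m‖ ≤ 2 * Λ * e m)
    (fun m h1 h2 ⟨k1, k2⟩ => ?_) hn ?_
  · obtain ⟨d1, d2⟩ := hd m h2 h1
    obtain ⟨e1, e2, e3⟩ := he m h2
    have u1 := hu (m + 1) (by omega) h1
    set x := S.φ (n * h) z
    set y := S.φ ((m + 1 : ℕ) * h) z
    have a1 : S.φ (((m + 1 : ℕ) - n : ℝ) * h) x = y := by
      rw [← S.φ_add]; congr 1; ring
    have a2 : S.φ (-h) y = S.φ (m * h) z := by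
      rw [← S.φ_add]; congr 1; push_cast; ring
    have b1 := norm_le_insert' (S.τ x y (u n)) (u (m + 1))
    have b2 := norm_le_insert' (S.τ (S.φ (m * h) z) y (u m)) (u (m + 1))
    have b3 := norm_sub_le_norm_sub_add_norm_sub (S.τ x y (u n)) (u (m + 1))
      (S.τ (S.φ (m * h) z) y (u m))
    obtain ⟨c1, c2⟩ := H y (S.τ (S.φ (m * h) z) y (u m)) (S.τ x y (u n)) (by linarith)
      (by linarith)
    have c3 := k1.concat (a1.symm ▸ c1)
    have c4 := (k1 _ right_mem_uIcc).1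
    have c5 := (c1 _ right_mem_uIcc).1
    rw [a1] at c4
    rw [a2] at c2 c5
    rw [τ_τ d1, τ_trans c4 (dom_trans c4 c5)] at c2
    refine ⟨by convert c3 using 1; push_cast; ring, c2.trans ?_⟩
    rw [norm_sub_rev (u (m + 1))] at b3
    nlinarith
  · have k := (H (S.φ (n * h) z) (u n) (u n) (by linarith [hu n hn le_rfl])
      (by linarith [hu n hn le_rfl])).1
    rw [sub_self, zero_mul, τ_self k.ball, sub_self, norm_zero]
    exact ⟨k.mono le_rfl left_mem_uIcc, mul_nonneg (by linarith) (he n hn).1⟩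

end Sys

end Vale.Agent.P207Z
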