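import Vale.Agent.P207Z.Real.Ext
import Vale.Agent.P207Z.Real.Dist
import Vale.Agent.P207Z.Stay

/-!
# P207: small quadrilaterals of leaves, and the estimate along one side
-/

set_option linter.all false

open Set Filter Topology Metric MeasureTheory
open scoped ContDiff

noncomputable section

namespace Vale.Agent.P207Z.EqA

open Sys

section Cal

variable {U V W W' W'' : Type} [NormedAddCommGroup U] [NormedSpace ℝ U] [NormedAddCommGroup V]
  [NormedSpace ℝ V] [NormedAddCommGroup W] [NormedSpace ℝ W] [NormedAddCommGroup W']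
  [NormedSpace ℝ W'] [NormedAddCommGroup W''] [NormedSpace ℝ W''] {k : ℕ} {s : Set U} {C D : ℝ}

/-- `C^k` with a bound -/
structure Bd (k : ℕ) (s : Set U) (f : U → W) (C : ℝ) : Prop where
  sm : ContDiffOn ℝ k f s
  bd : ∀ i ≤ k, ∀ q ∈ s, ‖iteratedFDeriv ℝ i f q‖ ≤ C

theorem Bd.clm_comp {f : U → W' →L[ℝ] W''} {g : U → W →L[ℝ] W'} (hf : Bd k s f C)
    (hg : Bd k s g D) (hs : IsOpen s) : Bd k s (fun q => f q ∘L g q) (2 ^ k * C * D) := by
  refine ⟨hf.sm.clm_comp hg.sm, fun n hn q hq => ?_⟩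
  have h := (ContinuousLinearMap.compL ℝ W W' W'').norm_iteratedFDerivWithin_le_of_bilinear_of_le_one
    hf.sm hg.sm hs.uniqueDiffOn hq (CalcAux.cast_le hn) (ContinuousLinearMap.norm_compL_le _ _ _ _)
  simp only [iteratedFDerivWithin_of_isOpen _ hs hq] at h
  have h0 : 0 ≤ C := (norm_nonneg _).trans (hf.bd 0 (Nat.zero_le _) q hq)
  have h1 : 0 ≤ D := (norm_nonneg _).trans (hg.bd 0 (Nat.zero_le _) q hq)
  refine h.trans ((Finset.sum_le_sum fun i hi => mul_le_mul (mul_le_mul_of_nonneg_left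
    (hf.bd i (by have := Finset.mem_range.1 hi; omega) q hq) (Nat.cast_nonneg _))
    (hg.bd _ (by omega) q hq) (norm_nonneg _) (by positivity)).trans ?_)
  rw [← Finset.sum_mul, ← Finset.sum_mul, ← Nat.cast_sum, Nat.sum_range_choose]
  push_cast
  gcongr
  norm_num

theorem Bd.comp {Φ : V → W} {f : U → V} {t : Set V} {n : ℕ} (hΦ : Bd k t Φ C) (hf : Bd k s f n)
    (hs : IsOpen s) (ht : IsOpen t) (hm : MapsTo f s t) :
    Bd k s (fun q => Φ (f q)) (k.factorial * C * (n + 1) ^ k) := by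
  refine ⟨hΦ.sm.comp hf.sm hm, fun i hi q hq => ?_⟩
  have h0 : 0 ≤ C := (norm_nonneg _).trans (hΦ.bd 0 (Nat.zero_le _) _ (hm hq))
  refine (CalcAux.comp_bd hΦ.sm hf.sm hs ht hm hq (fun j hj => hΦ.bd j hj _ (hm hq))
    (fun j hj => hf.bd j hj q hq) hi).trans ?_
  have : (i.factorial : ℝ) ≤ k.factorial := by exact_mod_cast Nat.factorial_le hi
  gcongr
  linarith [Nat.cast_nonneg (α := ℝ) n]

theorem Bd.clm (L : U →L[ℝ] V) (hL : ∀ w, ‖L w‖ ≤ ‖w‖) (hs : s ⊆ ball 0 1) :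
    Bd k s L (1 : ℕ) := by
  refine ⟨L.contDiff.contDiffOn, fun i _ q hq => ?_⟩
  rw [Nat.cast_one]
  rcases i with _ | i
  · rw [norm_iteratedFDeriv_zero]
    exact (hL q).trans (mem_ball_zero_iff.1 (hs hq)).le
  rw [← norm_iteratedFDeriv_fderiv, show fderiv ℝ L = fun _ => L from funext fun _ => L.fderiv]
  rcases i with _ | i
  · rw [norm_iteratedFDeriv_zero]
    exact L.opNorm_le_bound zero_le_one fun w => by rw [one_mul]; exact hL w
  · rw [iteratedFDeriv_const_of_ne (Nat.succ_ne_zero i)]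
    simp

theorem exists_le_all (l : List ℝ) (h : ∀ a ∈ l, 0 < a) : ∃ r > 0, ∀ a ∈ l, r ≤ a := by
  induction l with
  | nil => exact ⟨1, one_pos, by simp⟩
  | cons a l ih =>
    obtain ⟨r, hr, h1⟩ := ih fun b hb => h b (List.mem_cons_of_mem _ hb)
    exact ⟨min a r, lt_min (h a List.mem_cons_self) hr, List.forall_mem_cons.2
      ⟨min_le_left _ _, fun b hb => (min_le_right _ _).trans (h1 b hb)⟩⟩

theorem tendsto_exp {β : ℝ} (hβ : 0 < β) (C : ℝ) :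
    Tendsto (fun T : ℝ => C * Real.exp (-β * T)) atTop (𝓝 0) := by
  simpa using (Real.tendsto_exp_atBot.comp (tendsto_id.const_mul_atTop_of_neg
    (neg_lt_zero.2 hβ))).const_mul C

theorem ev_exp {β : ℝ} (hβ : 0 < β) (C : ℝ) {c : ℝ} (hc : 0 < c) :
    ∀ᶠ T : ℝ in atTop, C * Real.exp (-β * T) < c := (tendsto_exp hβ C).eventually (gt_mem_nhds hc)

theorem range_le [FiniteDimensional ℝ W] {P Q : W →L[ℝ] W}
    (h : ∀ ε > 0, ∃ H : Submodule ℝ W, Module.finrank ℝ P.range ≤ Module.finrank ℝ H ∧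
      (∀ v ∈ H, ‖v - P v‖ ≤ ε * ‖v‖) ∧ ∀ v ∈ H, ‖v - Q v‖ ≤ ε * ‖v‖) : P.range ≤ Q.range := by
  intro u hu
  refine ⟨u, (sub_eq_zero.1 (norm_le_zero_iff.1 (le_of_forall_pos_le_add fun δ hδ => ?_))).symm⟩
  obtain ⟨ε, hε, h1⟩ := exists_le_all [1 / 2, δ / ((2 + ‖Q‖) * (2 * ‖u‖ + 1))] (by
    simp only [List.forall_mem_cons, List.not_mem_nil, false_imp_iff, implies_true, and_true]
    exact ⟨by norm_num, by positivity⟩)
  simp only [List.forall_mem_cons, List.not_mem_nil, false_imp_iff, implies_true, and_true] at h1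
  obtain ⟨H, h2, h3, h4⟩ := h ε hε
  have h5 : H.map (P : W →ₗ[ℝ] W) = P.range := by
    refine Submodule.eq_of_le_of_finrank_le (LinearMap.map_le_range) (h2.trans (le_of_eq ?_))
    rw [← LinearMap.range_domRestrict]
    refine (LinearMap.finrank_range_of_inj (injective_iff_map_eq_zero _ |>.2 fun v hv => ?_)).symm
    have h6 := h3 v v.2
    rw [show P v = 0 from hv, sub_zero] at h6
    exact Subtype.ext (norm_le_zero_iff.1 (by nlinarith [norm_nonneg (v : W), h1.1]))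
  obtain ⟨v, hv, rfl⟩ := h5.ge hu
  have a1 := h3 v hv
  have a2 := h4 v hv
  change ‖P v - Q (P v)‖ ≤ 0 + δ
  have a3 : ‖v‖ ≤ 2 * ‖P v‖ := by
    nlinarith [norm_le_insert' v (P v), norm_nonneg v, h1.1]
  have a4 : ‖P v - Q (P v)‖ ≤ ‖v - Q v‖ + ‖v - P v‖ + ‖Q‖ * ‖v - P v‖ := by
    rw [show P v - Q (P v) = (v - Q v) - (v - P v) + Q (v - P v) by rw [map_sub]; abel]
    exact (norm_add_le _ _).trans (add_le_add (norm_sub_le _ _) (Q.le_opNorm _))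
  have a5 := (le_div_iff₀ (by positivity)).1 h1.2
  change ε * ((2 + ‖Q‖) * (2 * ‖P v‖ + 1)) ≤ δ at a5
  have a6 := mul_le_mul_of_nonneg_left a1 (norm_nonneg Q)
  have a7 : (2 + ‖Q‖) * (ε * ‖v‖) ≤ (2 + ‖Q‖) * (ε * (2 * ‖P v‖ + 1)) := by gcongr; linarith
  linarith

end Cal

variable {Γ X B E V : Type} [Group Γ] [Countable Γ] [MetricSpace X] [ProperSpace X]
  [MulAction Γ X] [IsIsometricSMul Γ X] [MeasurableSpace X] [BorelSpace X]
  [TopologicalSpace B] [CompactSpace B] [T2Space B] [SecondCountableTopology B] [MulAction Γ B]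
  [ContinuousConstSMul Γ B] [MeasurableSpace B] [BorelSpace B]
  [NormedAddCommGroup E] [InnerProductSpace ℝ E] [FiniteDimensional ℝ E]
  [NormedAddCommGroup V] [NormedSpace ℝ V] [FiniteDimensional ℝ V]
  {F : Type} [NormedAddCommGroup F] [NormedSpace ℝ F] [FiniteDimensional ℝ F]
  (S : Sys Γ X B E V)

theorem lip_near (D : ℝ) : ∃ r L : ℝ, 0 < r ∧ 0 ≤ L ∧ ∀ x y, dist x y ≤ D → ∀ q ∈ S.dom x y,
    ‖q‖ ≤ 1 / 2 → ‖S.τ x y q‖ ≤ 1 / 2 → ∀ v ∈ closedBall q r, (v ∈ S.dom x y ∧ ‖v‖ ≤ 3 / 4 ∧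
      ‖S.τ x y v‖ ≤ 3 / 4) ∧ ‖S.τ x y v - S.τ x y q‖ ≤ L * ‖v - q‖ := by
  obtain ⟨r, hr, h1⟩ := S.unif_dom D (a := 1 / 2) (a' := 3 / 4) (by norm_num) (by norm_num)
  obtain ⟨L, hL, h2⟩ := S.unif_bd jc_τ (fun g x y q hq => τ_smul g hq) D (a := 3 / 4)
    (by norm_num) 1
  refine ⟨r, L, hr, hL, fun x y hd q h0 hq hτ v hv => ?_⟩
  have h3 := h1 x y hd q h0 hq hτ
  exact ⟨h3 v hv, (convex_closedBall q r).norm_image_sub_le_of_norm_fderiv_le (𝕜 := ℝ)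
    (f := S.τ x y) (C := L) (fun q hq => differentiableAt_τ (h3 q hq).1) (fun q hq => by
      have h5 := h2 x y hd q (h3 q hq).1 (h3 q hq).2.1 (h3 q hq).2.2 1 le_rfl
      rwa [norm_iteratedFDeriv_one] at h5) (mem_closedBall_self hr.le) hv⟩

/-- a small quadrilateral -/
theorem quad : ∃ a D C β : ℝ, 0 < a ∧ a ≤ 1 ∧ 0 < β ∧ ∀ᶠ T : ℝ in atTop, ∀ x,
    ∀ u ∈ ball (0 : E) a, ∀ w ∈ ball (0 : E) a, ∃ (y : X) (p : E), S.lv y = S.lv x ∧
      S.pt y = S.c (S.φ T x) (S.iU u) ∧ S.em y = S.em x ∧ dist y x ≤ D ∧ (0 : V) ∈ S.dom y x ∧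
      ‖S.τ y x 0‖ ≤ C * Real.exp (-β * T) ∧ ‖p‖ ≤ C * Real.exp (-β * T) ∧
      S.c y (S.iS p) = ((S.c (S.φ (-T) x) (S.iS w)).1, S.ep y) := by
  obtain ⟨rU, CU, hrU, hCU, h1⟩ := S.stayU (a := 1 / 2) (by norm_num)
  obtain ⟨rS, CS, hrS, hCS, h2⟩ := S.stayS (a := 1 / 2) (by norm_num)
  obtain ⟨D, h3⟩ := S.dist_le_U (a := 1 / 2) (by norm_num) 0
  obtain ⟨r, L, hr, hL, h4⟩ := lip_near S D
  obtain ⟨rh, Ch, α, hrh, hCh, hα, hα1, h5⟩ := S.rev.holderS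
  obtain ⟨a', ha', h6⟩ := S.box (lt_min hrh one_pos)
  have hl := S.lam_pos
  refine ⟨min 1 (min rU rS), D, CU + Ch * (L * (CU + CS)) ^ α, α * S.lam,
    lt_min one_pos (lt_min hrU hrS), min_le_left _ _, by positivity, ?_⟩
  filter_upwards [eventually_ge_atTop 0, ev_exp hl (CU + CS) hr, ev_exp hl (L * (CU + CS))
    (lt_min ha' hrh)] with T hT e1 e2 x u hu w hw
  have hu1 : ‖u‖ ≤ 1 := (mem_ball_zero_iff.1 hu).le.trans (min_le_left _ _)
  have hw1 : ‖w‖ ≤ 1 := (mem_ball_zero_iff.1 hw).le.trans (min_le_left _ _)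
  obtain ⟨a1, a2⟩ := h1 (S.φ T x) T hT u
    (ball_subset_ball ((min_le_right _ _).trans (min_le_left _ _)) hu)
  obtain ⟨b1, b2⟩ := h2 (S.φ (-T) x) T hT w
    (ball_subset_ball ((min_le_right _ _).trans (min_le_right _ _)) hw)
  have a3 := a1 _ right_mem_uIcc
  have b3 := (b1 _ right_mem_uIcc).1
  rw [← S.φ_add, neg_add_cancel, S.φ_zero] at a2 a3
  rw [← S.φ_add, add_neg_cancel, S.φ_zero] at b2 b3
  replace a2 := a2.trans (mul_le_of_le_one_right (by positivity) hu1)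
  replace b2 := b2.trans (mul_le_of_le_one_right (by positivity) hw1)
  rw [← c_τ a3.1, ← c_τ b3]
  have a4 := τ_ball a3.1
  have a5 := (pS_τ (S.em_φ T x) a3.1).2 (S.pS_iU u)
  have a6 := a3.2
  generalize S.τ (S.φ T x) x (S.iU u) = q at a2 a4 a5 a6
  generalize S.τ (S.φ (-T) x) x (S.iS w) = q' at b2
  obtain ⟨y, y1, y2⟩ := S.exists_frame_lv (S.c_ne x q a4) (S.lv x)
  have y3 : dist x y ≤ D := h3 x y (S.pU q) ((S.norm_pU_le q).trans a6)
    (by rw [y1, ← S.iS_add q, a5, map_zero, zero_add, S.pU_iU]) (by rw [y2, sub_self, abs_zero])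
  have y4 := zero_dom' a4 y1
  have y5 := τ_zero' a4 y1
  have y6 : S.τ x y q = 0 := by rw [← y5, τ_τ y4]
  have c1 : ‖q' - q‖ ≤ (CU + CS) * Real.exp (-S.lam * T) := by linarith [norm_sub_le q' q]
  obtain ⟨⟨c2, -⟩, c3⟩ := h4 x y y3 q (y5 ▸ τ_dom y4) a6 (by rw [y6]; norm_num) q'
    (mem_closedBall_iff_norm.2 (c1.trans e1.le))
  rw [y6, sub_zero] at c3
  replace c3 := c3.trans (mul_le_mul_of_nonneg_left c1 hL)
  rw [← mul_assoc] at c3
  obtain ⟨z, z1, z2⟩ := h6 y _ (mem_ball_zero_iff.2 ((c3.trans_lt e2).trans_le (min_le_left _ _)))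
    0 (mem_ball_self ha')
  rw [S.c_zero, c_τ c2] at z2
  have z3 : S.pU z = 0 := (S.c_S y z (ball_subset_ball (min_le_right _ _) z1)).1 (by rw [z2])
  have z4 : ‖S.pS z‖ ≤ Ch * ‖S.pS (S.τ x y q')‖ ^ α := h5 y _
    (mem_ball_zero_iff.2 ((c3.trans_lt e2).trans_le (min_le_right _ _))) z
    (ball_subset_ball (min_le_left _ _) z1) (by
      change (S.c y _).1 = (S.c y z).1
      rw [z2, c_τ c2])
  have e3 : Real.exp (-S.lam * T) ≤ Real.exp (-(α * S.lam) * T) :=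
    Real.exp_le_exp.2 (by nlinarith [mul_nonneg hl.le hT])
  have e4 : 0 ≤ Ch * (L * (CU + CS)) ^ α := by positivity
  refine ⟨y, S.pS z, y2, y1, (congrArg Prod.fst y1).trans ((S.c_U x q a4).2 a5),
    dist_comm x y ▸ y3, y4, ?_, z4.trans ?_, ?_⟩
  · rw [y5]
    exact a2.trans (mul_le_mul (by linarith) e3 (by positivity) (by positivity))
  · refine (mul_le_mul_of_nonneg_left (Real.rpow_le_rpow (norm_nonneg _)
      ((S.norm_pS_le _).trans c3) hα.le) hCh.le).trans ?_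
    rw [Real.mul_rpow (by positivity) (by positivity), ← Real.exp_mul, ← mul_assoc,
      show -S.lam * T * α = -(α * S.lam) * T by ring]
    exact mul_le_mul_of_nonneg_right (by linarith) (by positivity)
  · rw [← z2, ← S.iS_add z, z3, map_zero, add_zero, S.pS_iS]

variable {S}

/-- the estimate along the stable side -/
theorem est (𝔉 : Bun S F) (D : ℝ) : ∃ b : ℝ, ∀ k n n₁ : ℕ, ∃ r C : ℝ, 0 < r ∧ 0 ≤ C ∧
    ∀ (x y : X) (T : ℝ) (M P : V → F →L[ℝ] F), 0 ≤ T → dist y x ≤ D → (0 : V) ∈ S.dom y x →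
      ‖S.τ y x 0‖ < r → CkB (k + 1) n₁ M → Prj (k + 1) n P →
      Dom (k + 1) (𝔉.pull y x M) (𝔉.pull y (S.φ T y) (cmp P)) → ∀ p : E, ‖p‖ < r →
        S.iS p ∈ S.dom y x ∧ S.iS p ∈ S.dom y (S.φ T y) ∧
        S.τ y (S.φ T y) (S.iS p) ∈ ball (0 : V) (rad n) ∧
        ∀ v, 𝔉.conj y (S.φ T y) P (S.iS p) v = v → ‖M 0 (𝔉.A y x (S.iS p) v)‖ ≤
          C * (Real.exp (b * T) * ‖p‖ ^ (k + 1) + ‖S.τ y x 0‖ + ‖p‖) * ‖𝔉.A y x (S.iS p) v‖ := by
  obtain ⟨rd, b, hrd, hb, h1⟩ := 𝔉.distS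
  obtain ⟨r₁, L, hr₁, hL, h2⟩ := lip_near S D
  obtain ⟨rS, CS, hrS, hCS, h3⟩ := S.stayS (a := 1 / 2) (by norm_num)
  choose cd _ hcd using h1
  choose cc hcc using fun i => S.contrS (i + 1) (Nat.le_add_left 1 i)
  refine ⟨b + b, fun k n n₁ => ?_⟩
  obtain ⟨nd, -, hnd⟩ := CalcAux.exists_bd cd (k + 1) 0
  obtain ⟨nc, hnc1, hnc⟩ := CalcAux.exists_bd (fun i => |cc i|) (k + 1) 1
  obtain ⟨cτ, -, h4⟩ := S.unif_bd jc_τ (fun g x y q hq => τ_smul g hq) D (a := 3 / 4)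
    (by norm_num) (k + 1)
  obtain ⟨nτ, hnτ⟩ := exists_nat_ge cτ
  obtain ⟨cA, hcA, h5⟩ := S.unif_bd 𝔉.jc 𝔉.smul D (a := 3 / 4) (by norm_num) (k + 1)
  obtain ⟨r, hr, h6⟩ := exists_le_all [rd, r₁, rS, S.ρ, 1 / 2, rad n₁ / (L + 1), rad n / (CS + 1)]
    (by
      simp only [List.forall_mem_cons, List.not_mem_nil, false_imp_iff, implies_true, and_true]
      exact ⟨hrd, hr₁, hrS, S.ρ_pos, by norm_num, div_pos (rad_pos _) (by positivity),
        div_pos (rad_pos _) (by positivity)⟩)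
  simp only [List.forall_mem_cons, List.not_mem_nil, false_imp_iff, implies_true, and_true] at h6
  obtain ⟨r1, r2, r3, r4, r5, r6, r7⟩ := h6
  rw [le_div_iff₀ (by positivity)] at r6 r7
  obtain ⟨c, hc, h7⟩ : ∃ c : ℝ, 0 ≤ c ∧ ∀ t : ℝ, 2 ^ (k + 1) * ((k + 1).factorial * (2 ^ (k + 1) *
      ((k + 1).factorial * (n₁ : ℝ) * (nτ + 1) ^ (k + 1)) * cA) * ((1 : ℕ) + 1) ^ (k + 1)) *
      (2 ^ (k + 1) * (2 ^ (k + 1) * (nd * t) * ((k + 1).factorial * n * (nc + 1) ^ (k + 1))) *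
        (nd * t)) = c * (t * t) :=
    ⟨2 ^ (k + 1) * ((k + 1).factorial * (2 ^ (k + 1) *
      ((k + 1).factorial * (n₁ : ℝ) * (nτ + 1) ^ (k + 1)) * cA) * ((1 : ℕ) + 1) ^ (k + 1)) *
      (2 ^ (k + 1) * (2 ^ (k + 1) * nd * ((k + 1).factorial * n * (nc + 1) ^ (k + 1))) * nd),
      by positivity, fun t => by ring⟩
  refine ⟨r, c * cA + n₁ * (L + 1), hr, by positivity,
    fun x y T M P hT hd h0 hτ hM hP hD p hp => ?_⟩
  have a1 := fun (q : V) (hq : q ∈ ball (0 : V) r) => h2 y x hd 0 h0 (by norm_num)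
    (by linarith) q (ball_subset_closedBall (ball_subset_ball r2 hq))
  have a2 : ∀ q ∈ ball (0 : V) r, ‖S.τ y x q‖ ≤ ‖S.τ y x 0‖ + L * ‖q‖ := fun q hq => by
    have := (a1 q hq).2
    rw [sub_zero] at this
    linarith [norm_le_insert' (S.τ y x q) (S.τ y x 0)]
  have a3 : MapsTo (S.τ y x) (ball 0 r) (ball 0 (rad n₁)) := fun q hq => mem_ball_zero_iff.2 (by
    nlinarith [a2 q hq, mem_ball_zero_iff.1 hq])
  have a4 : MapsTo S.iS (ball 0 r) (ball 0 r) := fun w hw =>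
    mem_ball_zero_iff.2 ((S.norm_iS w).trans_lt (mem_ball_zero_iff.1 hw))
  set y' := S.φ T y with hy'
  have a5 : ∀ w ∈ ball (0 : E) r, S.iS w ∈ S.dom y y' := fun w hw =>
    S.domS y T hT w (ball_subset_ball r4 hw)
  have e1 : Real.exp (-S.lam * T) ≤ 1 := Real.exp_le_one_iff.2 (by nlinarith [S.lam_pos])
  have a6 : MapsTo (fun w => S.τ y y' (S.iS w)) (ball 0 r) (ball 0 (rad n)) := fun w hw =>
    mem_ball_zero_iff.2 (by
      nlinarith [(h3 y T hT w (ball_subset_ball r3 hw)).2, mem_ball_zero_iff.1 hw, norm_nonneg w,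
        mul_le_mul_of_nonneg_right (mul_le_of_le_one_right hCS e1) (norm_nonneg w)])
  have hK : ((k + 1 : ℕ) : WithTop ℕ∞) ≤ ∞ := StayAux.cast_le _
  have B1 : Bd (k + 1) (ball 0 r) (S.τ y x) nτ :=
    ⟨((jc_τ.smooth (y, x)).mono fun q hq => (a1 q hq).1.1).of_le hK, fun i hi q hq =>
      (h4 y x hd q (a1 q hq).1.1 (a1 q hq).1.2.1 (a1 q hq).1.2.2 i hi).trans hnτ⟩
  have B2 : Bd (k + 1) (ball 0 r) (𝔉.A y x) cA :=
    ⟨((𝔉.jc.smooth (y, x)).mono fun q hq => (a1 q hq).1.1).of_le hK, fun i hi q hq =>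
      h5 y x hd q (a1 q hq).1.1 (a1 q hq).1.2.1 (a1 q hq).1.2.2 i hi⟩
  have B5 := (((Bd.mk hM.smooth hM.bd).comp B1 isOpen_ball isOpen_ball a3).clm_comp B2
    isOpen_ball).comp (Bd.clm S.iS (fun w => (S.norm_iS w).le)
      (ball_subset_ball (by linarith))) isOpen_ball isOpen_ball a4
  have B6 : Bd (k + 1) (ball 0 r) (fun w => 𝔉.A y' y (S.τ y y' (S.iS w)))
      (nd * Real.exp (b * T)) :=
    ⟨((𝔉.jc_inv.smooth (y, y')).comp S.iS.contDiff.contDiffOn a5).of_le hK, fun i hi w hw =>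
      (hcd i y T hT w (ball_subset_ball r1 hw)).2.2.trans
        (mul_le_mul_of_nonneg_right (hnd i hi) (by positivity))⟩
  have B7 : Bd (k + 1) (ball 0 r) (fun w => 𝔉.A y y' (S.iS w)) (nd * Real.exp (b * T)) :=
    ⟨((𝔉.jc.smooth (y, y')).comp S.iS.contDiff.contDiffOn a5).of_le hK, fun i hi w hw =>
      (hcd i y T hT w (ball_subset_ball r1 hw)).2.1.trans
        (mul_le_mul_of_nonneg_right (hnd i hi) (by positivity))⟩
  have B8 : Bd (k + 1) (ball 0 r) (fun w => S.τ y y' (S.iS w)) nc := by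
    refine ⟨((jc_τ.smooth (y, y')).comp S.iS.contDiff.contDiffOn a5).of_le hK, fun i hi w hw => ?_⟩
    rcases i with _ | i
    · rw [norm_iteratedFDeriv_zero]
      exact (mem_ball_zero_iff.1 (τ_ball (a5 w hw))).le.trans (by exact_mod_cast hnc1)
    · exact (hcc i y T hT w (ball_subset_ball r4 hw)).trans (((mul_le_mul_of_nonneg_right
        (le_abs_self _) (by positivity)).trans (mul_le_of_le_one_right (abs_nonneg _) e1)).trans
          (hnc i (by omega)))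
  have B9 := B5.clm_comp ((B6.clm_comp ((Bd.mk hP.ckb.smooth hP.ckb.bd).comp B8 isOpen_ball
    isOpen_ball a6) isOpen_ball).clm_comp B7 isOpen_ball) isOpen_ball
  rw [h7, ← Real.exp_add, ← add_mul] at B9
  have d0 : (0 : V) ∈ S.dom y y' := zero_dom (S.pt_φ T y).symm
  have d1 : Idm (k + 1 : ℕ) (𝔉.conj y y' P) 0 := Idm.conj hK d0 (by
    rw [τ_zero (S.pt_φ T y).symm]; exact hP.idm (mem_ball_self (rad_pos n)))
  have d2 := (hD.trans (𝔉.eqv_conj P d0).2).flat_cmp d1.self_of_nhds.1.continuousAt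
    (d1.mono fun _ h => h.2)
  rw [← map_zero S.iS] at d2
  have d3 := (flat_iff_jet ((B9.sm.contDiffAt (ball_mem_nhds 0 hr)).of_le
    (CalcAux.cast_le (Nat.le_succ k)))).1 ((d2.comp S.iS.differentiableAt).mono (Nat.le_succ k))
  have hp' := mem_ball_zero_iff.2 hp
  have d4 := deriv_bound_of_jet B9.sm d3 (B9.bd _ le_rfl) (Nat.zero_le _) hp'
  rw [norm_iteratedFDeriv_zero, sub_zero, Nat.sub_zero] at d4
  have g1 := a1 _ (a4 hp')
  refine ⟨g1.1.1, a5 p hp', a6 hp', fun v hv => ?_⟩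
  have g2 := (ContinuousLinearMap.le_opNorm _ v).trans
    (mul_le_mul_of_nonneg_right d4 (norm_nonneg v))
  change ‖M (S.τ y x (S.iS p)) (𝔉.A y x (S.iS p) (𝔉.conj y y' P (S.iS p) v))‖ ≤ _ at g2
  rw [hv] at g2
  have g3 : ‖v‖ ≤ cA * ‖𝔉.A y x (S.iS p) v‖ := by
    have t1 := h5 x y (dist_comm y x ▸ hd) _ (τ_dom g1.1.1) g1.1.2.2
      (by rw [τ_τ g1.1.1]; exact g1.1.2.1) 0 (Nat.zero_le _)
    rw [norm_iteratedFDeriv_zero] at t1
    conv_lhs => rw [show v = 𝔉.A x y (S.τ y x (S.iS p)) (𝔉.A y x (S.iS p) v) from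
      (congrArg (fun L : F →L[ℝ] F => L v) (𝔉.inv g1.1.1)).symm]
    exact (ContinuousLinearMap.le_opNorm _ _).trans (mul_le_mul_of_nonneg_right t1 (norm_nonneg _))
  have g4 := (CalcAux.lip_zero hM (a3 (a4 hp'))).trans
    (mul_le_mul_of_nonneg_left (a2 _ (a4 hp')) (Nat.cast_nonneg n₁))
  rw [S.norm_iS] at g4
  generalize 𝔉.A y x (S.iS p) v = v' at g2 g3
  have g5 := ((M (S.τ y x (S.iS p)) - M 0).le_opNorm v').trans
    (mul_le_mul_of_nonneg_right g4 (norm_nonneg v'))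
  rw [ContinuousLinearMap.sub_apply, norm_sub_rev] at g5
  have g6 := norm_le_insert' (M 0 v') (M (S.τ y x (S.iS p)) v')
  have g7 := mul_le_mul_of_nonneg_left g3
    (by positivity : 0 ≤ c * Real.exp ((b + b) * T) * ‖p‖ ^ (k + 1))
  have p1 : 0 ≤ c * cA * (‖S.τ y x 0‖ + ‖p‖) * ‖v'‖ := by positivity
  have p2 : 0 ≤ n₁ * ((L + 1) * (Real.exp ((b + b) * T) * ‖p‖ ^ (k + 1)) + L * ‖S.τ y x 0‖ + ‖p‖)
      * ‖v'‖ := by positivity
  linarith

end Vale.Agent.P207Z.EqA
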