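import Vale.Agent.P207Z.Real.Slc
import Vale.Agent.P207Z.Real.Ext
import Vale.Agent.P207Z.End.Rep

/-!
# P207 REAL: from the realised family to the data of the end game
-/

set_option linter.all false

open Set Filter Topology Metric MeasureTheory VectorField
open scoped ContDiff

noncomputable section

namespace Vale.Agent.P207Z

variable {Γ X B E V : Type} [Group Γ] [Countable Γ] [MetricSpace X] [ProperSpace X]
  [MulAction Γ X] [IsIsometricSMul Γ X] [MeasurableSpace X] [BorelSpace X]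
  [TopologicalSpace B] [CompactSpace B] [T2Space B] [SecondCountableTopology B] [MulAction Γ B]
  [ContinuousConstSMul Γ B] [MeasurableSpace B] [BorelSpace B]
  [NormedAddCommGroup E] [InnerProductSpace ℝ E] [FiniteDimensional ℝ E]
  [NormedAddCommGroup V] [NormedSpace ℝ V] [FiniteDimensional ℝ V]
  {A K W : Type} [NormedAddCommGroup A] [NormedSpace ℝ A] [NormedAddCommGroup K] [NormedSpace ℝ K]
  [FiniteDimensional ℝ K] [NormedAddCommGroup W] [NormedSpace ℝ W] [FiniteDimensional ℝ W]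
  {S : Sys Γ X B E V} {F Z : SSub S.TV}

theorem Sys.Rep.shift {p : A → B × B} {d a : A} {x : X} {Q : A → V} (h : S.Rep p (d + a) x Q) :
    S.Rep (fun b => p (d + b)) a x fun b => Q (d + b) :=
  h.comp (ι := fun b => d + b) (contDiffAt_const.add contDiffAt_id)

theorem Sys.Rep.unshift {p : A → B × B} {d a : A} {x : X} {Q : A → V}
    (h : S.Rep (fun b => p (d + b)) a x Q) : S.Rep p (d + a) x fun b => Q (b - d) := by
  have h1 : S.Rep (fun b => p (d + b)) (d + a - d) x Q := by rwa [add_sub_cancel_left]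
  simpa only [add_sub_cancel] using
    h1.comp (ι := fun b => b - d) (p' := d + a) (contDiffAt_id.sub contDiffAt_const)

theorem fderiv_unshift (Q : A → V) (d a : A) :
    fderiv ℝ (fun b => Q (b - d)) (d + a) = fderiv ℝ Q a := by
  rw [fderiv_comp_sub, add_sub_cancel_left]

theorem TanTo.unshift {k : ℕ} {Pr : V → V →L[ℝ] V} {Q : A → V} {d a w : A}
    (h : TanTo k Pr (fun b => Q (b - d)) (d + a) w) : TanTo k Pr Q a w := by
  have h1 := Flat.comp (τ := fun b => d + b) (z' := a) h (by fun_prop)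
  simpa only [TanTo, fderiv_unshift, add_sub_cancel_left] using h1

/-- the realised family, with a set `Ty` of typical parameters -/
structure Fam0 (F Z : SSub S.TV) (p : (ℝ × K) × W → B × B) (O : Set (ℝ × K)) (ξ : B)
    (β : ℝ × K → B) (M : ℝ × K → W →L[ℝ] (ℝ × K) →L[ℝ] ℝ) (Ty : ℝ × K → Prop) : Prop where
  isOpen : IsOpen O
  base : ∀ y ∈ O, (p (y, 0)).1 = ξ
  leaf : ∀ y ∈ O, ∀ s, (p (y, s)).2 = β y
  rep : ∀ y ∈ O, ∀ s, ∃ x Q, S.Rep p (y, s) x Q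
  om : ∀ y ∈ O, ∀ s x Q, S.Rep p (y, s) x Q → ∀ e a,
    S.om (fderiv ℝ Q (y, s) (0, e)) (fderiv ℝ Q (y, s) (a, 0)) = M y e a
  inj : ∀ y ∈ O, ∀ e, M y e = 0 → e = 0
  M_σ : ∀ y ∈ O, ∀ e, M y e (1, 0) = 0
  tanF : ∀ y ∈ O, Ty y → ∀ s x Q Pr (k : ℕ), 1 ≤ k → S.pt x = p (y, s) → S.Rep p (y, s) x Q →
    F.SExt k x Pr → ∀ e, TanTo 1 Pr Q (y, s) (0, e)
  tanZ : ∀ y ∈ O, Ty y → ∀ s x Q Pr (k : ℕ), 1 ≤ k → S.pt x = p (y, s) → S.Rep p (y, s) x Q →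
    Z.SExt k x Pr → ∀ r e, TanTo 1 Pr Q (y, s) ((r, 0), e)

namespace Fam0

variable {p : (ℝ × K) × W → B × B} {O : Set (ℝ × K)} {ξ : B} {β : ℝ × K → B}
  {M : ℝ × K → W →L[ℝ] (ℝ × K) →L[ℝ] ℝ} {Ty : ℝ × K → Prop}

theorem shift (h : Fam0 F Z p O ξ β M Ty) (c : ℝ × K) :
    Fam0 F Z (fun a => p ((c, 0) + a)) {y | c + y ∈ O} ξ (fun y => β (c + y)) (fun y => M (c + y))
      fun y => Ty (c + y) := by
  have e : ∀ (y : ℝ × K) (s : W), ((c, 0) : (ℝ × K) × W) + (y, s) = (c + y, s) := fun y s =>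
    Prod.ext rfl (zero_add s)
  refine ⟨h.isOpen.preimage (continuous_const.add continuous_id), fun y hy => ?_,
    fun y hy s => ?_, fun y hy s => ?_, fun y hy s x Q hQ u a => ?_, fun y hy => h.inj _ hy,
    fun y hy => h.M_σ _ hy, fun y hy ht s x Q Pr k hk hx hQ hP u => ?_,
    fun y hy ht s x Q Pr k hk hx hQ hP r u => ?_⟩
  · rw [e]; exact h.base _ hy
  · rw [e]; exact h.leaf _ hy s
  · obtain ⟨x, Q, hQ⟩ := h.rep _ hy s
    rw [← e] at hQ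
    exact ⟨x, _, hQ.shift⟩
  · have h1 := hQ.unshift
    have h2 := fderiv_unshift Q (c, 0) (y, s)
    rw [e] at h1 h2
    rw [← h2]
    exact h.om _ hy s x _ h1 u a
  · have h1 := hQ.unshift
    refine TanTo.unshift (d := (c, 0)) ?_
    simp only [e] at h1 hx ⊢
    exact h.tanF _ hy ht s x _ Pr k hk hx h1 hP u
  · have h1 := hQ.unshift
    refine TanTo.unshift (d := (c, 0)) ?_
    simp only [e] at h1 hx ⊢
    exact h.tanZ _ hy ht s x _ Pr k hk hx h1 hP r u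

theorem om_ev (h : Fam0 F Z p O ξ β M Ty) {y : ℝ × K} (hy : y ∈ O) {s : W} {x : X}
    {Q : (ℝ × K) × W → V} (hQ : S.Rep p (y, s) x Q) : ∀ᶠ z in 𝓝 (y, s), ∀ e a,
      S.om (fderiv ℝ Q z (0, e)) (fderiv ℝ Q z (a, 0)) = M z.1 e a := by
  filter_upwards [hQ.eventually, continuousAt_fst.eventually (h.isOpen.mem_nhds hy)] with z h1 h2
  exact h.om z.1 h2 z.2 x Q h1

theorem fml (h : Fam0 F Z p O ξ β M Ty) {y : ℝ × K} (hy : y ∈ O) {s : W} {x : X}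
    {Q : (ℝ × K) × W → V} (hQ : S.Rep p (y, s) x Q) {Pr : V → V →L[ℝ] V}
    (ht : ∀ e, TanTo 1 Pr Q (y, s) (0, e))
    (hr : Module.finrank ℝ W = Module.finrank ℝ (Pr (Q (y, s))).range) :
    S.Fml 1 Pr Q M (y, s) :=
  ⟨hQ.sm, ht, fun e a => Flat.zero.congr ((h.om_ev hy hQ).mono fun z hz => sub_eq_zero.2 (hz e a)),
    h.inj y hy, hr⟩

theorem fam (h : Fam0 F Z p O ξ β M Ty) {σ₀ : ℝ} (hσ : 0 < σ₀) (seg : ∀ σ ∈ Icc 0 σ₀, (σ, 0) ∈ O)
    (ne : β (σ₀, 0) ≠ β 0) (dense : Icc 0 σ₀ ⊆ closure ({σ | Ty (σ, 0)} ∩ Icc 0 σ₀)) {k : ℕ}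
    (hk : 1 ≤ k) {T : Set B}
    (hS : ∀ y ∈ O, Ty y → ∀ x, S.ep x = β y → ∃ Pf Pz, F.SExt k x Pf ∧ Z.SExt k x Pz ∧
      Module.finrank ℝ W = Module.finrank ℝ (Pf 0).range ∧ (∀ v, ∃ u, S.pS (Pz 0 v - Pf 0 u) = 0) ∧
      ∀ Pu, S.em x ∈ T → Z.UExt k x Pu → Flat 1 (fun q => cmp Pu q ∘L Pz q) 0)
    (hT : ∀ x, S.em x ∈ T → ∃ Pr, S.ZU 1 Pr ∧ Z.UExt k x Pr)
    (far : ∀ N ∈ 𝓝 (β 0), ∃ s, (p (0, s)).1 ∈ N ∩ T) :
    S.Fam 1 p O σ₀ ξ β (fun y => (ContinuousLinearMap.compL ℝ K (ℝ × K) ℝ).flip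
      (ContinuousLinearMap.inr ℝ ℝ K) ∘L M y) {σ | Ty (σ, 0)} := by
  refine ⟨h.isOpen, hσ, seg, h.base, h.leaf, ne, fun y hy s => ?_, fun y hy e he => ?_, dense,
    fun σ hσ s => ?_, fun N hN => ?_⟩
  · obtain ⟨x, Q, hQ⟩ := h.rep y hy s
    exact ⟨x, Q, hQ, fun e => (h.om y hy s x Q hQ e _).trans (h.M_σ y hy e),
      fun e k => h.om y hy s x Q hQ e _⟩
  · refine h.inj y hy e (ContinuousLinearMap.ext fun a => ?_)
    have h1 : M y e (0, a.2) = 0 := DFunLike.congr_fun he a.2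
    have h2 : a = a.1 • ((1, 0) : ℝ × K) + (0, a.2) := by ext <;> simp
    rw [h2, map_add, map_smul, h.M_σ y hy, h1, smul_zero, add_zero, ContinuousLinearMap.zero_apply]
  · have hy := seg σ hσ.2
    obtain ⟨x₁, Q₁, h1⟩ := h.rep _ hy s
    obtain ⟨x, Q, hQ, h0⟩ := h1.exists_centre
    have hx := hQ.pt_eq h0
    obtain ⟨Pf, Pz, hf, hz, hr, hv, -⟩ := hS _ hy hσ.1 x
      ((congrArg Prod.snd hx).trans (h.leaf _ hy s))
    have h2 := (h.tanZ _ hy hσ.1 s x Q Pz k hk hx hQ hz 1 0).mem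
    obtain ⟨u, hu⟩ := hv (fderiv ℝ Q ((σ, 0), s) ((1, 0), 0))
    obtain ⟨e, he⟩ := (h.fml hy hQ (h.tanF _ hy hσ.1 s x Q Pf k hk hx hQ hf)
      (by rw [h0]; exact hr)).range u
    rw [h0] at h2 he
    refine ⟨x, Q, -e, hQ, h0, ?_⟩
    have h3 : (((1, 0), -e) : (ℝ × K) × W) = ((1, 0), 0) - (0, e) := by simp
    rw [h3, map_sub, he, ← h2]
    exact hu
  · obtain ⟨s₀, h1, h2⟩ := far N hN
    refine ⟨s₀, h1, fun η hη => ?_⟩
    obtain ⟨x, hx⟩ := S.exists_pt (p := ((p (0, s₀)).1, η)) hη.symm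
    have hx1 : S.em x = (p (0, s₀)).1 := congrArg Prod.fst hx
    obtain ⟨Pr, hZ, hI, ρ, hρ, hU⟩ := hT x (hx1 ▸ h2)
    refine ⟨x, Pr, hx, hZ, ?_⟩
    filter_upwards [hI.ev, ball_mem_nhds (0 : V) hρ] with z z1 z2 z3 σ hσ s Q hQ hz r e
    have hy := seg σ hσ.2
    obtain ⟨y, hy'⟩ := S.exists_pt hQ.ne
    obtain ⟨hQ', h0⟩ := hQ.centre hy'
    have e0 : S.pt y = S.c x z := by rw [hy', hQ.eq0, hz]
    have zb : z ∈ ball (0 : V) 1 := hz ▸ hQ.mem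
    have e1 : S.em y = S.em x := (congrArg Prod.fst e0).trans ((S.c_U x z zb).2 z3)
    have e2 := Sys.τ_zero' zb e0
    obtain ⟨Pf, Pz, -, hs, -, -, heq⟩ := hS _ hy hσ.1 y
      ((congrArg Prod.snd hy').trans (h.leaf _ hy s))
    have hu := Z.moveU hU e1 (Sys.zero_dom' zb e0) (e2 ▸ z2) (e2 ▸ z1)
    have h3 := (h.tanZ _ hy hσ.1 s y _ Pz k hk hy' hQ' hs r e).le
      (hQ'.sm.of_le (by norm_num)) (P' := S.TV.conj y x Pr)
      (by rw [h0]; exact hu.1.self_of_nhds.1.continuousAt)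
      (by rw [h0]; exact heq _ (by rw [e1, hx1]; exact h2) hu)
    exact h3.of_conj (hQ.sm.of_le (by norm_num)) (Sys.dom_of_pt hQ.mem (hy'.trans hQ.eq0)).1

end Fam0

end Vale.Agent.P207Z
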