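import Vale.Agent.P207Z.Real.Ext
import Vale.Agent.P207Z.Geo.Sp

/-!
# P207: compatible fields of projections of finite classes along an axis have smooth models
-/

set_option linter.all false

open Set Filter Topology Metric
open scoped ContDiff

noncomputable section

namespace Vale.Agent.P207Z.SmC

variable {E V F : Type} [NormedAddCommGroup E] [NormedSpace ℝ E] [NormedAddCommGroup V]
  [NormedSpace ℝ V] [NormedAddCommGroup F] [NormedSpace ℝ F] [FiniteDimensional ℝ F]

theorem exists_ad (F : Type) [NormedAddCommGroup F] [NormedSpace ℝ F] [FiniteDimensional ℝ F] :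
    ∃ ad : (F →L[ℝ] F) →L[ℝ] F →L[ℝ] F, ∀ X Y v, (ad X * X + ad Y * Y) v = 0 →
      X v = 0 ∧ Y v = 0 := by
  let e := toEuclidean (E := F)
  let ad : (F →L[ℝ] F) →ₗ[ℝ] F →L[ℝ] F :=
    { toFun := fun X => e.symm.toContinuousLinearMap ∘L ContinuousLinearMap.adjoint
        (e.toContinuousLinearMap ∘L X ∘L e.symm.toContinuousLinearMap) ∘L e.toContinuousLinearMap
      map_add' := fun X Y => by simp
      map_smul' := fun c X => by simp }
  have key : ∀ X v, inner ℝ (e ((ad X * X) v)) (e v) = ‖e (X v)‖ ^ 2 := fun X v => by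
    simp [ad, ContinuousLinearMap.adjoint_inner_left]
  refine ⟨LinearMap.toContinuousLinearMap ad, fun X Y v h => ?_⟩
  have h1 : ‖e (X v)‖ ^ 2 + ‖e (Y v)‖ ^ 2 = 0 := by
    rw [← key, ← key, ← inner_add_left, ← map_add]
    have h2 : (ad X * X) v + (ad Y * Y) v = 0 := h
    rw [h2, map_zero, inner_zero_left]
  have h3 : ∀ w : F, ‖e w‖ ^ 2 = 0 → w = 0 := fun w hw => by simpa using hw
  exact ⟨h3 _ (by nlinarith [sq_nonneg ‖e (X v)‖, sq_nonneg ‖e (Y v)‖]),
    h3 _ (by nlinarith [sq_nonneg ‖e (X v)‖, sq_nonneg ‖e (Y v)‖])⟩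

theorem isUnit_of_inj {A : F →L[ℝ] F} (h : ∀ v, A v = 0 → v = 0) : IsUnit A := by
  have h1 : Function.Injective A := (injective_iff_map_eq_zero A).2 h
  exact ContinuousLinearMap.isUnit_iff_bijective.2
    ⟨h1, LinearMap.injective_iff_surjective.1 (h1 : Function.Injective (A : F →ₗ[ℝ] F))⟩

/-- The projection on the range of `X` along the kernel of `P`. -/
theorem exists_can (P : F →L[ℝ] F) (hP : P * P = P) :
    ∃ (can : (F →L[ℝ] F) → F →L[ℝ] F) (D : Set (F →L[ℝ] F)), IsOpen D ∧ P ∈ D ∧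
      (∀ X ∈ D, ContDiffAt ℝ ∞ can X) ∧
      (∀ X ∈ D, ∀ Y, X * X = X → Y * Y = Y → X * Y = Y → Y ∈ D) ∧
      ∀ X ∈ D, X * X = X → Module.finrank ℝ X.range = Module.finrank ℝ P.range →
        can X * X = X ∧ can X * P = can X ∧ X * can X = can X ∧ P * can X = P := by
  have := FiniteDimensional.complete ℝ F
  obtain ⟨ad, had⟩ := exists_ad F
  obtain ⟨A, hA⟩ : ∃ A : (F →L[ℝ] F) → F →L[ℝ] F, ∀ X, A X = ad (1 - X) * (1 - X) + ad P * P :=
    ⟨_, fun _ => rfl⟩
  have hs : ContDiff ℝ ∞ A := by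
    rw [funext hA]
    exact ((ad.contDiff.comp (contDiff_const.sub contDiff_id)).mul
      (contDiff_const.sub contDiff_id)).add contDiff_const
  have h0 : ∀ X v, A X v = 0 → X v = v ∧ P v = 0 := fun X v h => by
    obtain ⟨h1, h2⟩ := had _ _ v (hA X ▸ h)
    exact ⟨(sub_eq_zero.1 h1).symm, h2⟩
  have h1 : ∀ X v, IsUnit (A X) → X v = v → P v = 0 → v = 0 := fun X v h a b =>
    (injective_iff_map_eq_zero _).1 (ContinuousLinearMap.isUnit_iff_bijective.1 h).1 v (by
      simp [hA, a, b])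
  refine ⟨fun X => Ring.inverse (A X) * (ad P * P), {X | IsUnit (A X)},
    Units.isOpen.preimage hs.continuous, isUnit_of_inj fun v hv => ?_, fun X hX =>
      (Geo.contDiffAt_inv hs.contDiffAt hX).mul contDiffAt_const,
    fun X hX Y a b c => isUnit_of_inj fun v hv => ?_, fun X hX a r => ?_⟩
  · obtain ⟨a, b⟩ := h0 P v hv
    rw [← a, b]
  · obtain ⟨d, e⟩ := h0 Y v hv
    refine h1 X v hX ?_ e
    rw [← d, ← ContinuousLinearMap.mul_apply, c]
  · have c1 : Ring.inverse (A X) * (ad P * P) * X = X := by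
      have e : ad P * P * X = A X * X := by
        rw [hA, add_mul, mul_assoc (ad (1 - X)), sub_mul, one_mul, a, sub_self, mul_zero, zero_add]
      rw [mul_assoc, e, ← mul_assoc, Ring.inverse_mul_cancel _ hX, one_mul]
    have c2 : Ring.inverse (A X) * (ad P * P) * P = Ring.inverse (A X) * (ad P * P) := by
      rw [mul_assoc, mul_assoc, hP]
    have hd : Disjoint X.range P.ker := by
      rw [Submodule.disjoint_def]
      rintro _ ⟨w, rfl⟩ h
      exact h1 X _ hX (DFunLike.congr_fun a w) h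
    have ht := Submodule.eq_top_of_disjoint _ _ (by
      rw [r]
      exact (P : F →ₗ[ℝ] F).finrank_range_add_finrank_ker.ge) hd
    have key : ∀ v, ∃ w, Ring.inverse (A X) ((ad P * P) v) = X w ∧ P (X w) = P v := fun v => by
      obtain ⟨_, ⟨w, rfl⟩, k, hk, rfl⟩ := Submodule.mem_sup.1 (ht ▸ Submodule.mem_top (x := v))
      have e : P k = 0 := hk
      refine ⟨w, ?_, by simp [e]⟩
      have e1 := DFunLike.congr_fun c1 w
      simpa [e] using e1
    refine ⟨c1, c2, ContinuousLinearMap.ext fun v => ?_, ContinuousLinearMap.ext fun v => ?_⟩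
    · obtain ⟨w, e, -⟩ := key v
      change X (Ring.inverse (A X) ((ad P * P) v)) = Ring.inverse (A X) ((ad P * P) v)
      rw [e]
      exact DFunLike.congr_fun a w
    · obtain ⟨w, e, e'⟩ := key v
      change P (Ring.inverse (A X) ((ad P * P) v)) = P v
      rw [e, e']

theorem range_eq {X Y : F →L[ℝ] F} (h : X * Y = Y) (h' : Y * X = X) : X.range = Y.range :=
  le_antisymm (fun _ ⟨w, e⟩ => ⟨X w, (DFunLike.congr_fun h' w).trans e⟩)
    fun _ ⟨w, e⟩ => ⟨Y w, (DFunLike.congr_fun h w).trans e⟩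

/-- the Taylor polynomial in the transversal direction -/
theorem flat_tr {W : Type} [NormedAddCommGroup W] [NormedSpace ℝ W] (π : V →L[ℝ] V) {g : V → W}
    {L : ℕ} {z : V} (hz : π z = z) (hg : ContDiffAt ℝ (L + 1 : ℕ) g z) :
    Flat L (fun q => g q - poly (jet L g (π q)) (q - π q)) z := by
  obtain ⟨δ, hδ, h⟩ := Metric.eventually_nhds_iff_ball.1 ((hg.eventually (by simp)).and
    (CalcAux.ev_bd (hg.continuousAt_iteratedFDeriv (k := L + 1) le_rfl)))
  have h1 : ∀ᶠ q in 𝓝 z, π q ∈ ball z (δ / 2) :=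
    π.continuous.continuousAt.preimage_mem_nhds (by rw [hz]; exact ball_mem_nhds _ (half_pos hδ))
  have h2 : ∀ᶠ q in 𝓝 z, ‖q - π q‖ < δ / 2 :=
    (continuous_id.sub π.continuous).norm.continuousAt.eventually_lt_const (by simpa [hz])
  refine Flat.of_pow (C := (‖iteratedFDeriv ℝ (L + 1) g z‖ + 1) * ‖1 - π‖ ^ (L + 1)) ?_
  filter_upwards [h1, h2] with q a b
  have hs : ball (π q) (δ / 2) ⊆ ball z δ :=
    ball_subset_ball' (by linarith [mem_ball.1 a])
  refine (taylor_bound (fun p hp => (h p (hs hp)).1.contDiffWithinAt) (fun p hp => (h p (hs hp)).2)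
    (mem_ball_iff_norm.2 b)).trans ?_
  have e : q - π q = (1 - π) (q - z) := by simp [hz]
  rw [mul_assoc, ← mul_pow, e]
  gcongr
  exact ContinuousLinearMap.le_opNorm _ _

/-- **The smooth model.** -/
theorem model [FiniteDimensional ℝ V] (i : E →L[ℝ] V) (p : V →L[ℝ] E) (hp : ∀ a, p (i a) = a)
    {Q : ℕ → V → F →L[ℝ] F} {O : Set E} (hO : O ∈ 𝓝 (0 : E)) 
    (h1 : ∀ k : ℕ, ∀ u ∈ O, Idm k (Q k) (i u))
    (h2 : ∀ k k', ∀ u ∈ O, Flat (min k k') (fun q => cmp (Q k) q ∘L Q k' q) (i u)) (L : ℕ) :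
    ∃ R, Idm ∞ R 0 ∧ ∀ᶠ u in 𝓝 (0 : E), Idm L R (i u) ∧
      Flat L (fun q => cmp (Q L) q ∘L R q) (i u) ∧
      Module.finrank ℝ (Q L (i u)).range = Module.finrank ℝ (R (i u)).range := by
  have z0 : Idm (0 : ℕ) (Q 0) 0 := by simpa using h1 0 0 (mem_of_mem_nhds hO)
  obtain ⟨P, hP⟩ : ∃ P, P = Q 0 0 := ⟨_, rfl⟩
  have pp : P * P = P := hP ▸ z0.self_of_nhds.2
  obtain ⟨can, D, d1, d2, d3, d4, d5⟩ := exists_can P pp
  have t0 : Tendsto i (𝓝 0) (𝓝 0) := i.continuous.tendsto' _ _ (map_zero i)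
  obtain ⟨O₁, o1, o2, o3⟩ := _root_.eventually_nhds_iff.1 ((t0.eventually (z0.rank.and
    (z0.self_of_nhds.1.continuousAt.eventually (d1.mem_nhds (hP ▸ d2))))).and hO)
  have mu : ∀ k k', ∀ u ∈ O₁, Q k (i u) * Q k' (i u) = Q k' (i u) := fun k k' u hu => by
    have e : (1 - Q k (i u)) * Q k' (i u) = 0 := (h2 k k' u (o1 u hu).2).eq_zero
    rwa [sub_mul, one_mul, sub_eq_zero, eq_comm] at e
  have rk : ∀ k, ∀ u ∈ O₁, Module.finrank ℝ (Q k (i u)).range = Module.finrank ℝ P.range :=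
    fun k u hu => by rw [range_eq (mu k 0 u hu) (mu 0 k u hu), (o1 u hu).1.1, hP]
  have ev : ∀ k : ℕ, ∀ u ∈ O₁, ∀ᶠ q in 𝓝 (i u), ContDiffAt ℝ k (fun q => can (Q k q)) q ∧
      can (Q k q) * Q k q = Q k q ∧ can (Q k q) * P = can (Q k q) ∧
      Q k q * can (Q k q) = can (Q k q) ∧ P * can (Q k q) = P := fun k u hu => by
    have a := h1 k u (o1 u hu).2
    have b : Q k (i u) ∈ D := d4 _ (o1 u hu).1.2 _ (mu 0 0 u hu) (mu k k u hu) (mu 0 k u hu)
    filter_upwards [a, a.rank, a.self_of_nhds.1.continuousAt.eventually (d1.mem_nhds b)]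
      with q c d e
    exact ⟨((d3 _ e).of_le (by exact_mod_cast le_top)).comp q c.1,
      d5 _ e c.2 (d.trans (rk k u hu))⟩
  have cn : ∀ k, ∀ u ∈ O₁, ContinuousAt (fun q => can (Q k q)) (i u) := fun k u hu =>
    (ev k u hu).self_of_nhds.1.continuousAt
  have fl : ∀ k k', L ≤ k → L ≤ k' → ∀ u ∈ O₁,
      jet L (fun q => can (Q k q)) (i u) = jet L (fun q => can (Q k' q)) (i u) := by
    intro k k' hk hk' u hu
    rw [jet_eq_iff ((ev k u hu).self_of_nhds.1.of_le (by exact_mod_cast hk))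
      ((ev k' u hu).self_of_nhds.1.of_le (by exact_mod_cast hk'))]
    refine ((((h2 k k' u (o1 u hu).2).mono (le_min hk hk')).comp_left (cn k' u hu)).comp_right
      ((cn k u hu).sub (continuousAt_const (y := 1)))).congr ?_
    filter_upwards [ev k u hu, ev k' u hu] with q a b
    change _ = (can (Q k q) - 1) * (((1 - Q k q) * Q k' q) * can (Q k' q))
    have e : can (Q k q) * can (Q k' q) = can (Q k q) := by
      rw [← a.2.2.1, mul_assoc, b.2.2.2.2]
    rw [mul_assoc, b.2.2.2.1, ← mul_assoc, sub_mul, mul_sub, mul_one, a.2.1, one_mul, sub_mul,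
      sub_mul, sub_mul, e, one_mul]
    abel
  obtain ⟨g, hg⟩ : ∃ g : V → F →L[ℝ] F, g = fun q => can (Q (L + 1) q) := ⟨_, rfl⟩
  have js : ∀ u ∈ O₁, ContDiffAt ℝ ∞ (fun u => jet L g (i u)) u := fun u hu => by
    refine contDiffAt_infty.2 fun m => ContDiffAt.congr_of_eventuallyEq
      (f := fun u => jet L (fun q => can (Q (L + m) q)) (i u)) ?_ ?_
    · refine contDiffAt_pi.2 fun j => ContDiffAt.comp (g := iteratedFDeriv ℝ j _) u
        ((ev _ u hu).self_of_nhds.1.iteratedFDeriv_right ?_) i.contDiff.contDiffAt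
      have := j.is_le
      norm_cast
      omega
    · filter_upwards [o2.mem_nhds hu] with u' hu'
      rw [hg]
      exact fl _ _ (by omega) (by omega) u' hu'
  let R : V → F →L[ℝ] F := fun q => P + (1 - P) * poly (jet L g (i (p q))) (q - i (p q)) * P
  have hR : ∀ u ∈ O₁, Idm ∞ R (i u) := fun u hu => by
    have a : ∀ᶠ q in 𝓝 (i u), p q ∈ O₁ :=
      p.continuous.continuousAt.preimage_mem_nhds (by rw [hp]; exact o2.mem_nhds hu)
    filter_upwards [a] with q hq
    refine ⟨contDiffAt_const.add ((contDiffAt_const.mul (contDiff_poly₂.contDiffAt.comp q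
      (((js _ hq).comp q p.contDiff.contDiffAt).prodMk (contDiffAt_id.sub
        (i ∘L p).contDiff.contDiffAt)))).mul contDiffAt_const), ?_⟩
    have b : P * (1 - P) = 0 := by rw [mul_sub, mul_one, pp, sub_self]
    simp only [R]
    generalize poly (jet L g (i (p q))) (q - i (p q)) = T
    rw [add_mul, mul_add, mul_add, pp, ← mul_assoc P, ← mul_assoc P, b, mul_assoc _ P P, pp,
      mul_assoc _ P, ← mul_assoc P, ← mul_assoc P, b]
    simp
  refine ⟨R, by simpa using hR 0 o3, ?_⟩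
  filter_upwards [o2.mem_nhds o3] with u hu
  have f1 : Flat L (fun q => g q - R q) (i u) := by
    refine (((flat_tr (i ∘L p) (by simp [hp]) (hg ▸ (ev _ u hu).self_of_nhds.1)).comp_left
      (continuousAt_const (y := P))).comp_right (continuousAt_const (y := 1 - P))).congr ?_
    filter_upwards [ev (L + 1) u hu] with q a
    change _ = (1 - P) * ((g q - poly (jet L g (i (p q))) (q - i (p q))) * P)
    have b : g q * P = g q := hg ▸ a.2.2.1
    have c : P * g q = P := hg ▸ a.2.2.2.2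
    rw [sub_mul (g q), b, mul_sub (1 - P), sub_mul 1 P (g q), c, one_mul, ← mul_assoc]
    simp only [R]
    abel
  refine ⟨(hR u hu).of_le (by exact_mod_cast le_top), ?_, ?_⟩
  · refine ((((h2 L (L + 1) u (o1 u hu).2).mono (by omega)).comp_left (cn (L + 1) u hu)).sub
      (f1.comp_right (M := cmp (Q L)) (continuousAt_const.sub
        (h1 L u (o1 u hu).2).self_of_nhds.1.continuousAt))).congr ?_
    filter_upwards [ev (L + 1) u hu] with q a
    change cmp (Q L) q * R q = cmp (Q L) q * Q (L + 1) q * can (Q (L + 1) q) -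
      cmp (Q L) q * (g q - R q)
    rw [mul_assoc, a.2.2.2.1, mul_sub, hg]
    abel
  · have a := (ev (L + 1) u hu).self_of_nhds
    rw [← sub_eq_zero.1 f1.eq_zero, hg, range_eq a.2.1 a.2.2.2.1, rk _ u hu, rk _ u hu]

end Vale.Agent.P207Z.SmC
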