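import Vale.Agent.P207Z.OpsE
import Vale.Agent.P207Z.Real.SmC

/-!
# P207: smooth extensions at every point of almost every leaf
-/

set_option linter.all false

open Set Filter Topology Metric MeasureTheory
open scoped ContDiff

noncomputable section

namespace Vale.Agent.P207Z

variable {Γ X B E V Y : Type} [Group Γ] [Countable Γ] [MetricSpace X] [ProperSpace X]
  [MulAction Γ X] [IsIsometricSMul Γ X] [MeasurableSpace X] [BorelSpace X]
  [TopologicalSpace B] [CompactSpace B] [T2Space B] [SecondCountableTopology B] [MulAction Γ B]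
  [ContinuousConstSMul Γ B] [MeasurableSpace B] [BorelSpace B]
  [NormedAddCommGroup E] [InnerProductSpace ℝ E] [FiniteDimensional ℝ E]
  [NormedAddCommGroup V] [NormedSpace ℝ V] [FiniteDimensional ℝ V]
  [MeasurableSpace Y] [MulAction Γ Y]
  {F : Type} [NormedAddCommGroup F] [NormedSpace ℝ F] [FiniteDimensional ℝ F]
  {S : Sys Γ X B E V} {𝔉 : Bun S F}

theorem Idm.of_translate {k : WithTop ℕ∞} {P : V → F →L[ℝ] F} {z : V}
    (h : Idm k (fun q => P (z + q)) 0) : Idm k P z := by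
  have t : Tendsto (fun q => q - z) (𝓝 z) (𝓝 0) := by
    simpa using (continuous_sub_right z).tendsto z
  refine (t.eventually h).mono fun q hq => ⟨?_, by simpa using hq.2⟩
  simpa [Function.comp_def] using hq.1.comp q (contDiffAt_id.sub contDiffAt_const)

namespace SSub

variable (W : SSub 𝔉)

/-- extensions of all the orders on a fixed disc, at every point of almost every leaf -/
theorem discU (P : Prob S Y) : ∀ᵐ ξ ∂S.ν, ∀ x, S.em x = ξ → ∃ ρ > 0, ρ ≤ 1 ∧ ∀ k : ℕ, ∃ Q,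
    (∀ u ∈ ball (0 : E) ρ, Idm k Q (S.iU u)) ∧ S.AlongU x ρ (W.At k x Q) := by
  obtain ⟨a, ha, h⟩ := SSub.globU P
  have h1 : ∀ᵐ z ∂S.μ, ∀ k : ℕ, ∃ Q, (∀ u ∈ ball (0 : E) a, Idm k Q (S.iU u)) ∧
      S.AlongU z a (W.At k z Q) := by
    refine ae_all_iff.2 fun k => ?_
    obtain ⟨R, -, hR⟩ := h F 𝔉 W k
    filter_upwards [hR] with z ⟨Q, q1, _, q3⟩
    exact ⟨Q, fun u hu => Idm.of_translate ((q1.loc u hu).idm (mem_ball_self (rad_pos _))), q3⟩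
  filter_upwards [Sys.ae_em (Sys.ae_φ h1)] with ξ ⟨z, hz, h2⟩ x hx
  obtain ⟨T, hT⟩ := S.engU z (isCompact_singleton (x := S.ep x))
    (by rw [hz, ← hx]; exact S.em_ne_ep x) (lt_min ha one_pos)
  obtain ⟨u, hu, e⟩ := hT T le_rfl _ rfl
  have e1 : S.pt x = S.c (S.φ (-T) z) (S.iU u) := by rw [e, hz, ← hx]; rfl
  have e2 : S.em x = S.em (S.φ (-T) z) := by rw [S.em_φ, hz, hx]
  specialize h2 (-T)
  generalize S.φ (-T) z = z' at h2 e1 e2
  have m1 : S.iU u ∈ ball (0 : V) 1 :=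
    S.iU_mem.2 (mem_ball_zero_iff.2 (hu.trans_le (min_le_right _ _)))
  have d0 := Sys.zero_dom' m1 e1
  have d1 : ∀ᶠ q in 𝓝 (0 : V), S.τ x z' q ∈ ball (0 : V) a :=
    (Sys.continuousAt_τ d0).preimage_mem_nhds (isOpen_ball.mem_nhds (by
      rw [Sys.τ_zero' m1 e1]
      exact S.iU_mem.2 (mem_ball_zero_iff.2 (hu.trans_le (min_le_left _ _)))))
  obtain ⟨ρ, hρ, h3⟩ := Metric.eventually_nhds_iff_ball.1 (d1.and (Sys.dom_nhds d0))
  refine ⟨min ρ 1, lt_min hρ one_pos, min_le_right _ _, fun k => ?_⟩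
  obtain ⟨Q, q1, q2⟩ := h2 k
  refine ⟨𝔉.conj x z' Q, fun w hw => ?_, Eventually.mono q2 fun η hη y hy ⟨q, hq, c⟩ => ?_⟩
  · obtain ⟨a1, a2⟩ := h3 _ (S.iU_mem.2 (ball_subset_ball (min_le_left _ _) hw))
    refine Idm.conj (by exact_mod_cast le_top) a2 ?_
    rw [← S.iU_pU ((Sys.pS_τ e2 a2).2 (S.pS_iU w))] at a1 ⊢
    exact q1 _ (S.iU_mem.1 a1)
  · obtain ⟨a1, a2⟩ := h3 _ (ball_subset_ball (min_le_left _ _) hq)
    have c' := (Sys.c_τ a2).trans c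
    exact (W.at_conj (Sys.zero_dom' (Sys.τ_ball a2) c'.symm) (Sys.zero_dom' a2.1 c.symm)).2
      (hη y (e2 ▸ hy) ⟨_, a1, c'⟩)

theorem smoothU (P : Prob S Y) : ∀ᵐ ξ ∂S.ν, ∀ x, S.em x = ξ → ∀ L : ℕ,
    ∃ Q, Idm ∞ Q 0 ∧ W.UExt L x Q := by
  filter_upwards [W.discU P, Sys.ae_ae_U W.at_mono] with ξ h1 h2 x hx L
  obtain ⟨ρ, hρ, hρ1, h3⟩ := h1 x hx
  choose Q q1 q2 using h3
  have h4 : ∀ k k', ∀ u ∈ ball (0 : E) ρ,
      Flat (min k k') (fun q => cmp (Q k) q ∘L Q k' q) (S.iU u) := by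
    intro k k' u hu
    have a : ∀ u ∈ ball (0 : E) ρ, Idm (min k k' : ℕ) (Q k) (S.iU u) := fun u hu =>
      (q1 k u hu).of_le (by exact_mod_cast min_le_left _ _)
    have b : ∀ u ∈ ball (0 : E) ρ, Idm (min k k' : ℕ) (Q k') (S.iU u) := fun u hu =>
      (q1 k' u hu).of_le (by exact_mod_cast min_le_right _ _)
    refine flat_closed ((contDiffAt_const.sub (a u hu).self_of_nhds.1).clm_comp
      (b u hu).self_of_nhds.1) (frequently_iff.2 fun {N} hN => ?_)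
    obtain ⟨O, o1, o2, o3⟩ := _root_.mem_nhds_iff.1
      (inter_mem (S.iU.continuous.continuousAt.preimage_mem_nhds hN) (isOpen_ball.mem_nhds hu))
    have h5 : S.AlongU x ρ fun y => ∀ k k' x P, k' ≤ k → W.At k x P y → W.At k' x P y :=
      Eventually.mono h2 fun η hη y hy _ => hη y (hx ▸ hy)
    obtain ⟨w, hw, y, hy, ⟨c1, c2⟩, c3⟩ := (((q2 k).and (q2 k')).and h5).dense o2 ⟨u, o3⟩
      (fun w hw => ball_subset_ball hρ1 (o1 hw).2) fun w hw => (o1 hw).2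
    have m : S.iU w ∈ ball (0 : V) 1 := S.iU_mem.2 (ball_subset_ball hρ1 (o1 hw).2)
    have e := Sys.τ_zero' m hy
    refine ⟨_, (o1 hw).1, e ▸ W.at_flat (Sys.zero_dom' m hy) (e ▸ a w (o1 hw).2)
      (e ▸ b w (o1 hw).2) (c3 _ _ _ _ (min_le_left _ _) c1) (c3 _ _ _ _ (min_le_right _ _) c2)⟩
  obtain ⟨R, r1, r2⟩ := SmC.model S.iU S.pU S.pU_iU (ball_mem_nhds 0 hρ) q1 h4 L
  obtain ⟨ε, hε, r3⟩ := Metric.eventually_nhds_iff_ball.1 r2
  refine ⟨R, r1, r1.of_le (by exact_mod_cast le_top), min ε ρ, lt_min hε hρ,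
    (q2 L).mono (min_le_right _ _) fun y hy ⟨q, hq, c⟩ d => ?_⟩
  have m : q ∈ ball (0 : V) 1 := ball_subset_ball ((min_le_right _ _).trans hρ1) hq
  have e : S.τ y x 0 = S.iU (S.pU q) := by
    rw [Sys.τ_zero' m c.symm, S.iU_pU ((S.c_U x q m).1 (by rw [c, ← hy]; rfl))]
  have n : ‖S.pU q‖ < min ε ρ := (S.norm_pU_le q).trans_lt (mem_ball_zero_iff.1 hq)
  obtain ⟨s1, s2, s3⟩ := r3 _ (mem_ball_zero_iff.2 (n.trans_le (min_le_left _ _)))
  exact W.at_of_flat (Sys.zero_dom' m c.symm)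
    (e ▸ q1 L _ (mem_ball_zero_iff.2 (n.trans_le (min_le_right _ _)))) (e ▸ s1) d (e ▸ s2) (e ▸ s3)

theorem smoothS (P : Prob S Y) : ∀ᵐ η ∂S.ν, ∀ x, S.ep x = η → ∀ L : ℕ,
    ∃ Q, Idm ∞ Q 0 ∧ W.SExt L x Q :=
  (W.rev.smoothU P.rev).mono fun _ h x hx L => (h x hx L).imp fun _ a => ⟨a.1, W.rev_UExt.1 a.2⟩

end SSub

end Vale.Agent.P207Z
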