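import Vale.Agent.P207Z.Leb
import Vale.Agent.P207Z.Real.Smooth
import Vale.Agent.P207Z.Real.FarD
import Vale.Agent.P207Z.Real.Eq

/-!
# P207: the extensions depend continuously on the leaf; null sets (block FAR G)
-/

set_option linter.all false

open Set Filter Topology Metric MeasureTheory VectorField
open scoped ContDiff NNReal

noncomputable section

namespace Vale.Agent.P207Z

variable {Γ X B E V Y : Type} [Group Γ] [Countable Γ] [MetricSpace X] [ProperSpace X]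
  [MulAction Γ X] [IsIsometricSMul Γ X] [MeasurableSpace X] [BorelSpace X]
  [TopologicalSpace B] [CompactSpace B] [T2Space B] [SecondCountableTopology B] [MulAction Γ B]
  [ContinuousConstSMul Γ B] [MeasurableSpace B] [BorelSpace B]
  [NormedAddCommGroup E] [InnerProductSpace ℝ E] [FiniteDimensional ℝ E]
  [NormedAddCommGroup V] [NormedSpace ℝ V] [FiniteDimensional ℝ V]
  [MeasurableSpace Y] [MulAction Γ Y]
  {F G A W : Type} [NormedAddCommGroup F] [NormedSpace ℝ F] [FiniteDimensional ℝ F]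
  [NormedAddCommGroup G] [NormedSpace ℝ G] [FiniteDimensional ℝ G]
  [NormedAddCommGroup A] [NormedSpace ℝ A] [FiniteDimensional ℝ A]
  [NormedAddCommGroup W] [NormedSpace ℝ W] [FiniteDimensional ℝ W]
  {S : Sys Γ X B E V} {𝔉 : Bun S F}

namespace FarG

theorem rng_le {a b R Q : F →L[ℝ] F} (hba : b * a = 1) (hR : R * R = R)
    (h : (a * Q * b).range ≤ (a * R * b).range) : R * Q = Q := by
  ext v
  obtain ⟨w, e⟩ := h ⟨a v, rfl⟩
  have h1 (u : F) : b (a u) = u := DFunLike.congr_fun hba u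
  have e1 : a (R (b w)) = a (Q (b (a v))) := e
  have e2 := congrArg b e1
  rw [h1, h1, h1] at e2
  change R (Q v) = Q v
  rw [← e2]
  exact DFunLike.congr_fun hR (b w)

theorem conj_conj {x y z : X} {q : V} (P : V → F →L[ℝ] F) (h : q ∈ S.dom z x)
    (h' : q ∈ S.dom z y) : 𝔉.conj z x (𝔉.conj x y P) q = 𝔉.conj z y P q := by
  simp only [Bun.conj]
  rw [← 𝔉.coc_inv h h', ← 𝔉.coc z x y q h h', Sys.τ_trans h h']
  simp only [mul_assoc]

theorem sExt {H : SSub 𝔉} {k n : ℕ} {x y : X} {η : B} {P : V → F →L[ℝ] F}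
    (h : H.Box k n x η P) {z : V} (hz : z ∈ ball (0 : V) (rad n)) (hl : (S.c x z).2 = η)
    (hy : S.pt y = S.c x z) : H.SExt k y (𝔉.conj y x P) := by
  have hz1 := ball_subset_ball (rad_le_one n) hz
  have h0 := Sys.zero_dom' hz1 hy
  have hρ : S.τ y x 0 ∈ ball (0 : V) (rad n) := (Sys.τ_zero' hz1 hy).symm ▸ hz
  have he : S.ep y = η := (congrArg Prod.snd hy).trans hl
  obtain ⟨r, hr, h1⟩ := Metric.mem_nhds_iff.1 (inter_mem (Sys.dom_nhds h0)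
    ((Sys.continuousAt_τ h0).eventually (isOpen_ball.mem_nhds hρ)))
  exact ⟨Idm.conj (ExtAux.nat_le k) h0 (h.1.idm hρ), r, hr, Eventually.mono h.2
    fun ξ hξ z hz ⟨q, hq, e⟩ => H.e_move (h1 hq).1 (h1 hq).2 e (hξ z (he ▸ hz))⟩

theorem lip {k n : ℕ} {f : V → W} (h : CkB k n f) (hk : 1 ≤ k) {q q' : V}
    (hq : q ∈ ball (0 : V) (rad n)) (hq' : q' ∈ ball (0 : V) (rad n)) :
    ‖f q - f q'‖ ≤ n * ‖q - q'‖ :=
  (convex_ball (0 : V) (rad n)).norm_image_sub_le_of_norm_fderiv_le (𝕜 := ℝ) (f := f) (C := n)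
    (fun x hx => (h.contDiffAt hx).differentiableAt (by exact_mod_cast (by omega : k ≠ 0)))
    (fun x hx => by rw [← norm_iteratedFDeriv_one]; exact h.bd _ hk x hx) hq' hq

theorem est {k n : ℕ} {Q Q' : V → F →L[ℝ] F} (h : CkB k n Q) (h' : CkB k n Q') (hk : 1 ≤ k)
    {q q' : V} (hq : q ∈ ball (0 : V) (rad n)) (hq' : q' ∈ ball (0 : V) (rad n))
    {R : F →L[ℝ] F} (e : R * Q' q' = Q' q') :
    ‖cmp Q q ∘L Q' q‖ ≤ ‖cmp Q q' ∘L R‖ * n + (2 * n + 1) * n * ‖q - q'‖ := by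
  have e1 : cmp Q q ∘L Q' q = (cmp Q q' ∘L R) * Q' q' + ((Q' q - Q' q') - Q q * (Q' q - Q' q')
      - (Q q - Q q') * Q' q') := by
    change (1 - Q q) * Q' q = (1 - Q q') * R * Q' q' + _
    rw [mul_assoc, e]
    noncomm_ring
  have a1 := lip h hk hq hq'
  have a2 := lip h' hk hq hq'
  have a3 := h.norm_le hq
  have a4 := h'.norm_le hq'
  have hn : (0 : ℝ) ≤ n := Nat.cast_nonneg n
  have b1 : ‖(cmp Q q' ∘L R) * Q' q'‖ ≤ ‖cmp Q q' ∘L R‖ * n :=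
    (norm_mul_le _ _).trans (by gcongr)
  have b2 : ‖Q q * (Q' q - Q' q')‖ ≤ n * (n * ‖q - q'‖) := (norm_mul_le _ _).trans (by gcongr)
  have b3 : ‖(Q q - Q q') * Q' q'‖ ≤ n * ‖q - q'‖ * n := (norm_mul_le _ _).trans (by gcongr)
  rw [e1]
  refine (norm_add_le _ _).trans (add_le_add b1 ((norm_sub_le _ _).trans ?_))
  have b4 := norm_sub_le (Q' q - Q' q') (Q q * (Q' q - Q' q'))
  nlinarith

theorem vol_lip [MeasurableSpace E] [BorelSpace E] {g : E → E} {K : ℝ≥0} {T : Set E}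
    (h : LipschitzOnWith K g T) (h0 : volume T = 0) : volume (g '' T) = 0 := by
  have h1 := h.hausdorffMeasure_image_le (d := Module.finrank ℝ E) (Nat.cast_nonneg _)
  rw [Measure.absolutelyContinuous_isAddHaarMeasure _ volume h0, mul_zero] at h1
  exact Measure.absolutelyContinuous_isAddHaarMeasure volume _ (nonpos_iff_eq_zero.1 h1)

theorem lip_cpt {f : A → W} {T : Set A} (hT : IsCompact T) (h : ∀ z ∈ T, ContDiffAt ℝ ∞ f z) :
    ∃ K, LipschitzOnWith K f T :=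
  LocallyLipschitzOn.exists_lipschitzOnWith_of_compact hT fun z hz => by
    obtain ⟨K, t, ht, h1⟩ := ((h z hz).of_le (m := 1) (by simp)).exists_lipschitzOnWith
    exact ⟨K, t, mem_nhdsWithin_of_mem_nhds ht, h1⟩

end FarG

open FarG

theorem SSub.gap_of (H : SSub 𝔉) (P : Prob S Y) {k₀ : ℕ} {A A' : Set B} (hA : ∀ᵐ ξ ∂S.ν, ξ ∈ A)
    (heq : ∀ x, S.em x ∈ A → S.ep x ∈ A' → ∀ k ≥ k₀, ∀ Pu Ps,
      H.UExt k x Pu → H.SExt k x Ps → (Pu 0).range = (Ps 0).range)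
    {k : ℕ} (hk : k₀ ≤ k) (hk1 : 1 ≤ k) (n : ℕ) (x : X) {η : B} (hη : η ∈ A')
    {Q : V → F →L[ℝ] F} (hQ : H.Box k n x η Q) {ε : ℝ} (hε : 0 < ε) :
    ∀ᶠ η' in 𝓝 η, η' ∈ A' → ∀ Q', H.Box k n x η' Q' → ∀ z : V, ‖z‖ ≤ rad n / 2 →
      (S.c x z).2 = η' → ‖cmp Q z ∘L Q' z‖ ≤ ε := by
  have hn : (0 : ℝ) ≤ n := Nat.cast_nonneg n
  have hr := rad_pos n
  have hb : ball (0 : V) (rad n) ⊆ ball 0 1 := ball_subset_ball (rad_le_one n)
  suffices h : ∀ᶠ η' in 𝓝 η, ∀ z ∈ closedBall (0 : V) (rad n / 2), η' ∈ A' →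
      ∀ Q', H.Box k n x η' Q' → (S.c x z).2 = η' → ‖cmp Q z ∘L Q' z‖ ≤ ε from
    h.mono fun η' h a Q' b z c d => h z (mem_closedBall_zero_iff.2 c) a Q' b d
  refine (isCompact_closedBall _ _).eventually_forall_of_forall_eventually fun z hz => ?_
  have hz' : z ∈ ball (0 : V) (rad n) := closedBall_subset_ball (by linarith) hz
  by_cases hl : (S.c x z).2 = η
  swap
  · have h1 : ContinuousAt (fun p : B × V => ((S.c x p.2).2, p.1)) (η, z) :=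
      (((S.continuousOn_c x).continuousAt (isOpen_ball.mem_nhds (hb hz'))).comp
        (f := fun p : B × V => p.2) (x := (η, z)) continuousAt_snd).snd.prodMk continuousAt_fst
    filter_upwards [h1.eventually (isClosed_diagonal.isOpen_compl.mem_nhds hl)] with p hp _ _ _ e
    exact (hp e).elim
  obtain ⟨δ, hδ, hδ'⟩ : ∃ δ > 0, (2 * n + 1) * n * (3 * δ) ≤ ε / 2 := by
    refine ⟨ε / (6 * ((2 * n + 1) * n + 1)), by positivity, ?_⟩
    rw [← mul_assoc, ← mul_div_assoc, div_le_div_iff₀ (by positivity) two_pos]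
    nlinarith [mul_pos hε hε, mul_nonneg hε.le hn, mul_nonneg hε.le (mul_nonneg hn hn)]
  obtain ⟨ξ, ⟨z₁, ⟨c1, c2⟩, c3⟩, hξ, hU⟩ := Sys.ν_exists (hA.and (H.smoothU P))
    ((S.isOpen_image x ((isOpen_ball (x := z) (ε := δ)).inter isOpen_ball)
      (inter_subset_right.trans hb)).preimage (f := fun ξ => (ξ, η)) (by fun_prop))
    ⟨(S.c x z).1, z, ⟨mem_ball_self hδ, hz'⟩, Prod.ext rfl hl⟩
  obtain ⟨y, hy⟩ := S.exists_pt_c x (hb c2)
  have hm : S.em y = ξ := congrArg Prod.fst (hy.trans c3)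
  obtain ⟨Pu, -, hP, ρ, hρ, hu⟩ := hU y hm k
  have d0 := Sys.zero_dom' (hb c2) hy
  have t0 := Sys.τ_zero' (hb c2) hy
  have d1 : z₁ ∈ S.dom x y := t0 ▸ Sys.τ_dom d0
  have t1 : S.τ x y z₁ = 0 := t0 ▸ Sys.τ_τ d0
  have key (η' : B) (a : η' ∈ A') (Q' : V → F →L[ℝ] F) (b : H.Box k n x η' Q') (z' : V)
      (e1 : z' ∈ ball (0 : V) (rad n)) (e2 : S.c x z' = (ξ, η')) (e3 : z' ∈ S.dom x y)
      (e4 : S.τ x y z' ∈ ball (0 : V) ρ) (e5 : Idm k Pu (S.τ x y z')) :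
      𝔉.conj x y Pu z' * Q' z' = Q' z' ∧ Q' z' * 𝔉.conj x y Pu z' = 𝔉.conj x y Pu z' := by
    obtain ⟨y', hy'⟩ := S.exists_pt_c x (hb e1)
    have f0 := Sys.zero_dom' (hb e1) hy'
    have f1 := Sys.τ_zero' (hb e1) hy'
    have f2 : (0 : V) ∈ S.dom y' y := Sys.dom_trans f0 (f1.symm ▸ e3)
    have f3 : S.τ y' y 0 = S.τ x y z' := by rw [← Sys.τ_trans f0 f2, f1]
    have f4 : S.em y' = ξ := congrArg Prod.fst (hy'.trans e2)
    have f5 : S.ep y' = η' := congrArg Prod.snd (hy'.trans e2)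
    have f6 := heq y' (f4 ▸ hξ) (f5 ▸ a) k hk _ _
      (H.moveU hu (f4.trans hm.symm) f2 (f3 ▸ e4) (f3 ▸ e5))
      (sExt b e1 (congrArg Prod.snd e2) hy')
    rw [← conj_conj Pu f0 f2] at f6
    have f7 := 𝔉.inv' f0
    simp only [Bun.conj.eq_1 𝔉 y', f1] at f6 f7
    exact ⟨rng_le f7 (Idm.conj (ExtAux.nat_le k) e3 e5).e_idem f6.ge,
      rng_le f7 (b.1.idem _ e1) f6.le⟩
  have hρ' : S.τ x y z₁ ∈ ball (0 : V) ρ := t1 ▸ mem_ball_self hρ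
  have hP' : Idm k Pu (S.τ x y z₁) := t1 ▸ hP
  have g0 : cmp Q z₁ ∘L 𝔉.conj x y Pu z₁ = 0 := by
    change (1 - Q z₁) * _ = 0
    rw [sub_mul, one_mul, (key η hη Q hQ z₁ c2 c3 d1 hρ' hP').2, sub_self]
  have g1 : ContinuousAt (fun q => ‖cmp Q q ∘L 𝔉.conj x y Pu q‖ * n) z₁ :=
    (((hQ.1.idm c2).e_cmp.clm_comp
      (Idm.conj (ExtAux.nat_le k) d1 hP').e_cd).continuousAt.norm).mul continuousAt_const
  have g2 : ∀ᶠ q in 𝓝 z₁, ‖cmp Q q ∘L 𝔉.conj x y Pu q‖ * n < ε / 2 :=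
    g1.eventually (gt_mem_nhds (by simp only [g0, norm_zero, zero_mul]; positivity))
  obtain ⟨O, o1, o2, o3⟩ := _root_.eventually_nhds_iff.1 (g2.and ((show ∀ᶠ q in 𝓝 z₁,
      q ∈ ball z₁ δ ∩ ball 0 (rad n) ∩ S.dom x y from inter_mem (inter_mem (ball_mem_nhds _ hδ)
        (isOpen_ball.mem_nhds c2)) (Sys.dom_nhds d1)).and ((Sys.continuousAt_τ d1).eventually
          (hP'.ev.and (isOpen_ball.mem_nhds hρ')))))
  have g3 : ∀ᶠ η' in 𝓝 η, (ξ, η') ∈ S.c x '' O :=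
    ((S.isOpen_image x o2 fun q hq => hb (o1 q hq).2.1.1.2).preimage (f := fun η' => (ξ, η'))
      (by fun_prop)).mem_nhds ⟨z₁, o3, c3⟩
  have g4 : ∀ᶠ q in 𝓝 z, q ∈ ball z δ ∩ ball 0 (rad n) :=
    inter_mem (ball_mem_nhds _ hδ) (isOpen_ball.mem_nhds hz')
  filter_upwards [g3.prodMk_nhds g4] with p hp a Q' b _
  obtain ⟨⟨z', o4, e⟩, i1, i2⟩ := hp
  obtain ⟨j1, ⟨⟨j2, j3⟩, j4⟩, j5, j6⟩ := o1 z' o4
  refine (est hQ.1.ckb b.1.ckb hk1 i2 j3 (key p.1 a Q' b z' j3 e j4 j6 j5).1).trans ?_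
  have h1 : ‖p.2 - z'‖ ≤ 3 * δ := by
    rw [← dist_eq_norm]
    linarith [dist_triangle4 p.2 z z₁ z', mem_ball.1 i1, mem_ball'.1 c1, mem_ball'.1 j2]
  linarith [mul_le_mul_of_nonneg_left h1 (show 0 ≤ (2 * (n : ℝ) + 1) * n by positivity)]

theorem SSub.gap (H : SSub 𝔉) (P : Prob S Y) : ∃ (k₀ : ℕ) (A' : Set B), 1 ≤ k₀ ∧
    (∀ᵐ η ∂S.ν, η ∈ A') ∧ ∀ k ≥ k₀, ∀ n x, ∀ η ∈ A', ∀ Q, H.Box k n x η Q → ∀ ε > 0,
      ∀ᶠ η' in 𝓝 η, η' ∈ A' → ∀ Q', H.Box k n x η' Q' → ∀ z : V, ‖z‖ ≤ rad n / 2 →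
        (S.c x z).2 = η' → ‖cmp Q z ∘L Q' z‖ ≤ ε := by
  obtain ⟨k₀, A, A', h1, h2, h3⟩ := H.eq0 P
  exact ⟨max k₀ 1, A', le_max_right _ _, h2, fun k hk n x η hη Q hQ ε hε =>
    H.gap_of P h1 h3 ((le_max_left _ _).trans hk) ((le_max_right _ _).trans hk) n x hη hQ hε⟩

theorem Leb.lip_null [MeasurableSpace E] [BorelSpace E] (hL : Leb S) {x : X} {η : B} {a : ℝ}
    (ha : a < 1) {T : Set V} (hT : ∀ z ∈ T, ‖z‖ ≤ a ∧ (S.c x z).2 = η) {h : V → V} {K : ℝ≥0}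
    (hh : LipschitzOnWith K h T) (hm : ∀ z ∈ T, ‖h z‖ ≤ a ∧ (S.c x (h z)).2 = η)
    (h0 : S.ν ((fun z => (S.c x z).1) '' T) = 0) :
    S.ν ((fun z => (S.c x (h z)).1) '' T) = 0 := by
  rcases T.eq_empty_or_nonempty with rfl | ⟨z₀, hz₀⟩
  · simp
  have hb : closedBall (0 : V) a ⊆ ball 0 1 := closedBall_subset_ball ha
  have hc := (S.continuousOn_c x).mono hb
  obtain ⟨L, hL'⟩ : ∃ L, L = closedBall (0 : V) a ∩ (fun z => (S.c x z).2) ⁻¹' {η} := ⟨_, rfl⟩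
  have mem (z : V) : z ∈ L ↔ ‖z‖ ≤ a ∧ (S.c x z).2 = η := by
    rw [hL', mem_inter_iff, mem_closedBall_zero_iff]
    rfl
  have hs : L ⊆ closedBall 0 a := hL' ▸ inter_subset_left
  have hK : IsCompact L := (isCompact_closedBall 0 a).of_isClosed_subset
    (hL' ▸ hc.snd.preimage_isClosed_of_isClosed isClosed_closedBall isClosed_singleton) hs
  obtain ⟨y₀, hy₀⟩ := S.exists_pt_c x (hb (hs ((mem _).2 (hT _ hz₀))))
  have he : S.ep y₀ = η := (congrArg Prod.snd hy₀).trans (hT _ hz₀).2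
  obtain ⟨t, ht⟩ := S.engS y₀ (hK.image_of_continuousOn (hc.mono hs).fst)
    (fun ⟨z, hz, e⟩ => S.c_ne x z (hb (hs hz)) (e.trans (he.trans ((mem z).1 hz).2.symm))) one_pos
  obtain ⟨y, hy⟩ : ∃ y, y = S.φ t y₀ := ⟨_, rfl⟩
  have key (z : V) (hz : z ∈ L) : z ∈ S.dom x y ∧ S.iS (S.pS (S.τ x y z)) = S.τ x y z := by
    obtain ⟨w, h1, h2⟩ := ht t le_rfl _ ⟨z, hz, rfl⟩
    have h3 : S.c y (S.iS w) = S.c x z :=
      hy ▸ h2.trans (Prod.ext rfl (he.trans ((mem z).1 hz).2.symm))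
    have h4 := S.iS_mem.2 (mem_ball_zero_iff.2 h1)
    exact ⟨Sys.mem_dom (hb (hs hz)) h4 h3, by rw [Sys.τ_eq h4 h3, S.pS_iS]⟩
  obtain ⟨al, hal⟩ : ∃ al : V → E, al = fun z => S.pS (S.τ x y z) := ⟨_, rfl⟩
  have c1 (z : V) (hz : z ∈ L) : ContDiffAt ℝ ∞ al z :=
    hal ▸ S.pS.contDiff.contDiffAt.comp z (Sys.contDiffAt_τ (key z hz).1)
  have c2 (z : V) (hz : z ∈ L) : S.iS (al z) = S.τ x y z := hal ▸ (key z hz).2
  have c3 (T' : Set V) (h' : T' ⊆ L) :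
      S.ν ((fun z => (S.c x z).1) '' T') = 0 ↔ volume (al '' T') = 0 := by
    rw [← hL.nullS y (al '' T') (image_subset_iff.2 fun z hz =>
      S.iS_mem.1 ((c2 z (h' hz)).symm ▸ Sys.τ_ball (key z (h' hz)).1)), image_image]
    rw [image_congr (g := fun z => (S.c y (S.iS (al z))).1) fun z hz => by
      rw [c2 z (h' hz), Sys.c_τ (key z (h' hz)).1]]
  obtain ⟨K₁, l1⟩ := lip_cpt hK c1
  obtain ⟨K₂, l2⟩ := lip_cpt (f := fun w => S.τ y x (S.iS w))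
    (hK.image_of_continuousOn fun z hz => (c1 z hz).continuousAt.continuousWithinAt)
    (by
      rintro _ ⟨z, hz, rfl⟩
      exact (Sys.contDiffAt_τ ((c2 z hz).symm ▸ Sys.τ_dom (key z hz).1)).comp _
        S.iS.contDiff.contDiffAt)
  have hTL : T ⊆ L := fun z hz => (mem z).2 (hT z hz)
  have c4 (z : V) (hz : z ∈ T) : S.τ y x (S.iS (al z)) = z := by
    rw [c2 z (hTL hz), Sys.τ_τ (key z (hTL hz)).1]
  have l3 := l1.comp (hh.comp (l2.mono (image_mono hTL)) (by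
    rintro _ ⟨z, hz, rfl⟩
    exact mem_of_eq_of_mem (c4 z hz) hz)) (by
    rintro _ ⟨z, hz, rfl⟩
    exact mem_of_eq_of_mem (congrArg h (c4 z hz)) ((mem _).2 (hm z hz)))
  have h1 := vol_lip l3 ((c3 T hTL).1 h0)
  rw [← image_image (fun z => (S.c x z).1) h, c3 _ (image_subset_iff.2 fun z hz =>
    (mem (h z)).2 (hm z hz)), image_image, ← h1, image_image]
  exact congrArg _ (image_congr fun z hz => by simp only [Function.comp_apply, c4 z hz])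

end Vale.Agent.P207Z
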