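import Vale.Agent.P207Z.Dyn
import Vale.Agent.P207Z.Leb

/-!
# P207: Lipschitz maps of a stable leaf preserve the null sets
-/

set_option linter.all false

open Set Filter Topology Metric MeasureTheory
open scoped ContDiff NNReal

noncomputable section

namespace Vale.Agent.P207Z

variable {Γ X B E V : Type} [Group Γ] [Countable Γ] [MetricSpace X] [ProperSpace X]
  [MulAction Γ X] [IsIsometricSMul Γ X] [MeasurableSpace X] [BorelSpace X]
  [TopologicalSpace B] [CompactSpace B] [T2Space B] [SecondCountableTopology B] [MulAction Γ B]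
  [ContinuousConstSMul Γ B] [MeasurableSpace B] [BorelSpace B]
  [NormedAddCommGroup E] [InnerProductSpace ℝ E] [FiniteDimensional ℝ E]
  [NormedAddCommGroup V] [NormedSpace ℝ V] [FiniteDimensional ℝ V]
  {S : Sys Γ X B E V}

namespace FarL

theorem vol_image [MeasurableSpace E] [BorelSpace E] {g : E → E} {K : ℝ≥0} {A : Set E}
    (hg : LipschitzOnWith K g A) (h0 : volume A = 0) : volume (g '' A) = 0 := by
  have h1 : (volume : Measure E) ≪ μH[(Module.finrank ℝ E : ℝ)] :=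
    Measure.absolutelyContinuous_isAddHaarMeasure _ _
  have h2 : (μH[(Module.finrank ℝ E : ℝ)] : Measure E) ≪ volume :=
    Measure.absolutelyContinuous_isAddHaarMeasure _ _
  refine h1 (le_antisymm ?_ zero_le)
  refine (hg.hausdorffMeasure_image_le (Nat.cast_nonneg _)).trans ?_
  rw [h2 h0, mul_zero]

theorem lip_of {U W : Type} [NormedAddCommGroup U] [NormedSpace ℝ U] [NormedAddCommGroup W]
    [NormedSpace ℝ W] {f : U → W} {K : Set U} (hK : IsCompact K)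
    (hf : ∀ z ∈ K, ContDiffAt ℝ 1 f z) : ∃ L, LipschitzOnWith L f K := by
  refine LocallyLipschitzOn.exists_lipschitzOnWith_of_compact hK fun z hz => ?_
  obtain ⟨L, t, ht, h⟩ := (hf z hz).exists_lipschitzOnWith
  exact ⟨L, t, mem_nhdsWithin_of_mem_nhds ht, h⟩

end FarL

theorem Leb.lip_null2 [MeasurableSpace E] [BorelSpace E] (hL : Leb S) {x : X} {η : B} {a : ℝ}
    (ha : a < 1) {T : Set V} (hT : ∀ z ∈ T, ‖z‖ ≤ a ∧ (S.c x z).2 = η) {h : V → V} {K : ℝ≥0}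
    (hh : LipschitzOnWith K h T) (hm : ∀ z ∈ T, ‖h z‖ ≤ a ∧ (S.c x (h z)).2 = η)
    (h0 : S.ν ((fun z => (S.c x z).1) '' T) = 0) :
    S.ν ((fun z => (S.c x (h z)).1) '' T) = 0 := by
  rcases T.eq_empty_or_nonempty with rfl | ⟨z₀, hz₀⟩
  · simp
  have hb : ∀ z : V, ‖z‖ ≤ a → z ∈ ball (0 : V) 1 := fun z hz =>
    mem_ball_zero_iff.2 (hz.trans_lt ha)
  obtain ⟨y, hy⟩ := S.exists_pt_c x (hb z₀ (hT z₀ hz₀).1)
  have hη : S.ep y = η := (congrArg Prod.snd hy).trans (hT z₀ hz₀).2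
  set K₀ : Set V := closedBall 0 a ∩ (fun z => (S.c x z).2) ⁻¹' {η} with hK₀
  have hm₀ : ∀ z, ‖z‖ ≤ a ∧ (S.c x z).2 = η → z ∈ K₀ := fun z hz =>
    ⟨mem_closedBall_zero_iff.2 hz.1, hz.2⟩
  have hb₀ : ∀ z ∈ K₀, z ∈ ball (0 : V) 1 := fun z hz => hb z (mem_closedBall_zero_iff.1 hz.1)
  have hc : ContinuousOn (S.c x) (closedBall 0 a) :=
    (S.continuousOn_c x).mono fun z hz => hb z (mem_closedBall_zero_iff.1 hz)
  have hK : IsCompact K₀ := (isCompact_closedBall (0 : V) a).of_isClosed_subset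
    (hc.snd.preimage_isClosed_of_isClosed isClosed_closedBall isClosed_singleton) inter_subset_left
  obtain ⟨t, ht⟩ := S.engS y (hK.image_of_continuousOn (hc.fst.mono inter_subset_left))
    (by
      rintro ⟨z, hz, e⟩
      exact S.c_ne x z (hb₀ z hz) (e.trans (hη.trans hz.2.symm))) one_pos
  set y₁ := S.φ t y
  set al : V → E := fun z => S.pS (S.τ x y₁ z) with hal
  set be : E → V := fun w => S.τ y₁ x (S.iS w) with hbe
  have key : ∀ z ∈ K₀, z ∈ S.dom x y₁ ∧ S.iS (al z) = S.τ x y₁ z ∧ al z ∈ ball (0 : E) 1 := by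
    intro z hz
    obtain ⟨w, hw, e⟩ := ht t le_rfl _ ⟨z, hz, rfl⟩
    have hw' : S.iS w ∈ ball (0 : V) 1 := S.iS_mem.2 (mem_ball_zero_iff.2 hw)
    have e' : S.c y₁ (S.iS w) = S.c x z := e.trans (Prod.ext rfl (hη.trans hz.2.symm))
    have e2 : al z = w := by simp only [hal, Sys.τ_eq hw' e', S.pS_iS]
    exact ⟨Sys.mem_dom (hb₀ z hz) hw' e', by rw [e2, Sys.τ_eq hw' e'],
      e2 ▸ mem_ball_zero_iff.2 hw⟩
  have kb : ∀ z ∈ K₀, be (al z) = z := fun z hz => by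
    simp only [hbe, (key z hz).2.1, Sys.τ_τ (key z hz).1]
  have kc : ∀ z ∈ K₀, S.c y₁ (S.iS (al z)) = S.c x z := fun z hz => by
    rw [(key z hz).2.1, Sys.c_τ (key z hz).1]
  have sa : ∀ z ∈ K₀, ContDiffAt ℝ 1 al z := fun z hz =>
    S.pS.contDiff.contDiffAt.comp z ((Sys.contDiffAt_τ (key z hz).1).of_le (by simp))
  obtain ⟨L₁, h₁⟩ := FarL.lip_of hK sa
  obtain ⟨L₂, h₂⟩ := FarL.lip_of (f := be)
    (hK.image_of_continuousOn fun z hz => (sa z hz).continuousAt.continuousWithinAt) (by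
      rintro _ ⟨z, hz, rfl⟩
      refine ContDiffAt.comp (g := S.τ y₁ x) _ ?_ S.iS.contDiff.contDiffAt
      rw [(key z hz).2.1]
      exact (Sys.contDiffAt_τ (Sys.τ_dom (key z hz).1)).of_le (by simp))
  have hT₀ : T ⊆ K₀ := fun z hz => hm₀ z (hT z hz)
  have hA : volume (al '' T) = 0 := by
    refine (hL.nullS y₁ _ ?_).1 (measure_mono_null ?_ h0)
    · rintro _ ⟨z, hz, rfl⟩
      exact (key z (hT₀ hz)).2.2
    · rintro _ ⟨_, ⟨z, hz, rfl⟩, rfl⟩
      exact ⟨z, hz, (congrArg Prod.fst (kc z (hT₀ hz))).symm⟩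
  have hbT : MapsTo be (al '' T) T := by
    rintro _ ⟨z, hz, rfl⟩
    rw [kb z (hT₀ hz)]
    exact hz
  have hg := h₁.comp (hh.comp (h₂.mono (image_mono hT₀)) hbT)
    fun w hw => hm₀ _ (hm _ (hbT hw))
  refine measure_mono_null ?_ ((hL.nullS y₁ _ ?_).2 (FarL.vol_image hg hA))
  · rintro _ ⟨z, hz, rfl⟩
    refine ⟨_, ⟨_, ⟨z, hz, rfl⟩, rfl⟩, ?_⟩
    simp only [Function.comp, kb z (hT₀ hz)]
    exact congrArg Prod.fst (kc _ (hm₀ _ (hm z hz)))
  · rintro _ ⟨w, hw, rfl⟩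
    exact (key _ (hm₀ _ (hm _ (hbT hw)))).2.2

end Vale.Agent.P207Z
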