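import Vale.Agent.P207Z.Real.FarD
import Vale.Agent.P207Z.An.Glue

/-!
# P207: curves tangent to a field of projections; a Fubini lemma (block FAR)
-/

set_option linter.all false

open Set Filter Topology Metric MeasureTheory
open scoped ContDiff

noncomputable section

namespace Vale.Agent.P207Z.Far

variable {V G : Type} [NormedAddCommGroup V] [NormedSpace ℝ V] [FiniteDimensional ℝ V]
  [NormedAddCommGroup G] [NormedSpace ℝ G]

/-- Gronwall's inequality, forward -/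
theorem gron1 {f f' : ℝ → V} {a b K ε : ℝ} (hK : 1 ≤ K) (hε : 0 ≤ ε)
    (hf : ∀ u ∈ Icc a b, HasDerivWithinAt f (f' u) (Icc a b) u)
    (hb : ∀ u ∈ Icc a b, ‖f' u‖ ≤ K * ‖f u‖ + ε) (hab : a ≤ b) :
    ‖f b‖ ≤ Real.exp (K * (b - a)) * (‖f a‖ + ε) := by
  have h := norm_le_gronwallBound_of_norm_deriv_right_le (f := f) (f' := f') (δ := ‖f a‖) (K := K)
    (ε := ε) (fun u hu => (hf u hu).continuousWithinAt) (fun u hu =>
      (hf u (Ico_subset_Icc_self hu)).mono_of_mem_nhdsWithin (Icc_mem_nhdsGE_of_mem hu)) le_rfl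
    (fun u hu => hb u (Ico_subset_Icc_self hu)) b (right_mem_Icc.2 hab)
  rw [gronwallBound_of_K_ne_0 (by linarith)] at h
  have h1 : ε / K ≤ ε := div_le_self hε hK
  have h2 : 0 ≤ ε / K := by positivity
  have h3 := Real.exp_pos (K * (b - a))
  nlinarith

/-- Gronwall's inequality, in both directions -/
theorem gron2 {f f' : ℝ → V} {u₀ K ε : ℝ} (hK : 1 ≤ K) (hε : 0 ≤ ε)
    (hf : ∀ u ∈ Icc 0 u₀, HasDerivWithinAt f (f' u) (Icc 0 u₀) u)
    (hb : ∀ u ∈ Icc 0 u₀, ‖f' u‖ ≤ K * ‖f u‖ + ε) {a b : ℝ} (ha : a ∈ Icc 0 u₀)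
    (hb' : b ∈ Icc 0 u₀) : ‖f b‖ ≤ Real.exp (K * u₀) * (‖f a‖ + ε) := by
  have hK0 : 0 ≤ K := by linarith
  rcases le_total a b with h | h
  · have s : Icc a b ⊆ Icc 0 u₀ := Icc_subset_Icc ha.1 hb'.2
    refine (gron1 hK hε (fun u hu => (hf u (s hu)).mono s) (fun u hu => hb u (s hu)) h).trans ?_
    gcongr
    linarith [ha.1, hb'.2]
  · have s : MapsTo (fun u : ℝ => -u) (Icc (-a) (-b)) (Icc 0 u₀) := fun u hu =>
      ⟨by linarith [hu.2, hb'.1], by linarith [hu.1, ha.2]⟩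
    have := gron1 (f := fun u => f (-u)) (f' := fun u => -f' (-u)) hK hε (fun u hu => by
      simpa [Function.comp_def] using (hf _ (s hu)).scomp u (hasDerivAt_neg u).hasDerivWithinAt s)
      (fun u hu => by simpa using hb _ (s hu)) (neg_le_neg h)
    simp only [neg_neg] at this
    refine this.trans ?_
    gcongr
    linarith [ha.2, hb'.1]

variable {n : ℕ} {π : V →L[ℝ] G} {e : G} {Q Q' : V → V →L[ℝ] V} {u₀ : ℝ} {γ γ' : ℝ → V}

theorem lip (h : Prj 1 n Q) {q q' : V} (hq : q ∈ ball (0 : V) (rad n))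
    (hq' : q' ∈ ball (0 : V) (rad n)) : ‖Q q - Q q'‖ ≤ n * ‖q - q'‖ :=
  (convex_ball _ _).norm_image_sub_le_of_norm_fderiv_le (𝕜 := ℝ)
    (fun z hz => (h.ckb.contDiffAt hz).differentiableAt (by simp))
    (fun z hz => norm_iteratedFDeriv_one (𝕜 := ℝ) (x := z) Q ▸ h.ckb.bd 1 le_rfl z hz) hq' hq

theorem vel (h : Prj 1 n Q) (ht : Tr n π e Q) {q q' v v' : V} (hq : q ∈ ball (0 : V) (rad n))
    (hq' : q' ∈ ball (0 : V) (rad n)) (hv : Q q v = v) (e₁ : π v = π v') :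
    ‖v - v'‖ ≤ (n * ‖π‖ + 1) * (n * ‖v'‖ * ‖q - q'‖ + ‖cmp Q q' v'‖) := by
  have h1 : Q q (v - Q q v') = v - Q q v' := by
    rw [map_sub, hv, ← ContinuousLinearMap.mul_apply, h.idem q hq]
  have h2 := (ht q hq).1 _ h1
  have h3 : π (v - Q q v') = π (v' - Q q v') := by rw [map_sub, map_sub, e₁]
  have h4 : ‖v' - Q q v'‖ ≤ n * ‖v'‖ * ‖q - q'‖ + ‖cmp Q q' v'‖ := by
    have : v' - Q q v' = (Q q' - Q q) v' + cmp Q q' v' := by simp [cmp]
    rw [this]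
    refine (norm_add_le _ _).trans (add_le_add_left (((Q q' - Q q).le_opNorm _).trans ?_) _)
    rw [mul_right_comm, norm_sub_rev q]
    exact mul_le_mul_of_nonneg_right (lip h hq' hq) (norm_nonneg _)
  have h5 : ‖v - Q q v'‖ ≤ n * ‖π‖ * ‖v' - Q q v'‖ := by
    rw [h3] at h2
    rw [mul_assoc]
    exact h2.trans (mul_le_mul_of_nonneg_left (π.le_opNorm _) (Nat.cast_nonneg n))
  calc ‖v - v'‖ = ‖v - Q q v' - (v' - Q q v')‖ := by congr 1; abel
    _ ≤ (n * ‖π‖ + 1) * ‖v' - Q q v'‖ := (norm_sub_le _ _).trans (by linarith)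
    _ ≤ _ := by gcongr

theorem half_mem {q : V} (h : ‖q‖ ≤ rad n / 2) : q ∈ ball (0 : V) (rad n) :=
  mem_ball_zero_iff.2 (h.trans_lt (half_lt_self (rad_pos n)))

/-- two curves stay close -/
theorem close (n : ℕ) (π : V →L[ℝ] G) (e : G) (u₀ : ℝ) : ∃ C : ℝ, 0 < C ∧
    ∀ (Q Q' : V → V →L[ℝ] V) (γ γ' : ℝ → V) (ε : ℝ), 0 ≤ ε → Prj 1 n Q → Tr n π e Q → Tr n π e Q' →
      Crv n π e Q u₀ γ → Crv n π e Q' u₀ γ' →
      (∀ u ∈ Icc 0 u₀, ‖cmp Q (γ' u) ∘L Q' (γ' u)‖ ≤ ε) → ∀ a ∈ Icc 0 u₀, ∀ b ∈ Icc 0 u₀,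
        ‖γ b - γ' b‖ ≤ C * (‖γ a - γ' a‖ + ε) := by
  set L : ℝ := (n * ‖π‖ + 1) * (n * ‖e‖) + 1 with hL
  have L1 : 1 ≤ L := le_add_of_nonneg_left (by positivity)
  refine ⟨Real.exp (L * (n + 1) * u₀) * L, by positivity,
    fun Q Q' γ γ' ε hε h ht ht' c c' hg a ha b hb => ?_⟩
  choose! v hv using c.der
  choose! v' hv' using c'.der
  have n0 : (0 : ℝ) ≤ n := Nat.cast_nonneg n
  have := gron2 (f := fun u => γ u - γ' u) (f' := fun u => v u - v' u) (K := L * (n + 1))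
    (ε := L * ε) (by nlinarith) (by positivity) (fun u hu => (hv u hu).2.2.sub (hv' u hu).2.2)
    (fun u hu => ?_) ha hb
  · refine this.trans ?_
    rw [mul_assoc _ L]
    gcongr
    nlinarith [norm_nonneg (γ a - γ' a)]
  · have m := half_mem (c.mem u hu)
    have m' := half_mem (c'.mem u hu)
    have h1 : ‖v' u‖ ≤ n * ‖e‖ := (hv' u hu).2.1 ▸ (ht' _ m').1 _ (hv' u hu).1
    have h2 : ‖cmp Q (γ' u) (v' u)‖ ≤ ε * (n * ‖e‖) := by
      have := (cmp Q (γ' u) ∘L Q' (γ' u)).le_opNorm (v' u)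
      rw [ContinuousLinearMap.comp_apply, (hv' u hu).1] at this
      exact this.trans (mul_le_mul (hg u hu) h1 (norm_nonneg _) hε)
    refine (vel h ht m m' (hv u hu).1 ((hv u hu).2.1.trans (hv' u hu).2.1.symm)).trans ?_
    have d0 := norm_nonneg (γ u - γ' u)
    calc _ ≤ (n * ‖π‖ + 1) * (n * (n * ‖e‖) * ‖γ u - γ' u‖ + ε * (n * ‖e‖)) := by gcongr
      _ = (L - 1) * (n * ‖γ u - γ' u‖ + ε) := by rw [hL]; ring
      _ ≤ _ := by nlinarith [mul_nonneg n0 d0]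

/-- existence of curves -/
theorem exists_crv (h : Prj 1 n Q) (ht : Tr n π e Q) (hu : n * ‖e‖ * u₀ ≤ rad n / 4) {z : V}
    (hz : ‖z‖ ≤ rad n / 4) : ∃ γ, Crv n π e Q u₀ γ ∧ γ 0 = z := by
  choose! ξ hξ using fun q hq => (ht q hq).2
  have r0 : 0 < rad n / 2 := half_pos (rad_pos n)
  have bd : ∀ q ∈ ball (0 : V) (rad n), ‖ξ q‖ ≤ n * ‖e‖ := fun q hq =>
    (hξ q hq).2 ▸ (ht q hq).1 _ (hξ q hq).1
  have hc : ContinuousOn ξ (ball 0 (rad n)) := by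
    refine (LipschitzOnWith.of_dist_le_mul (K := ⟨(n * ‖π‖ + 1) * (n * (n * ‖e‖)),
      by positivity⟩) fun q hq q' hq' => ?_).continuousOn
    have := vel h ht hq hq' (hξ q hq).1 ((hξ q hq).2.trans (hξ q' hq').2.symm)
    rw [show cmp Q q' (ξ q') = 0 by simp [cmp, (hξ q' hq').1], norm_zero, add_zero] at this
    rw [dist_eq_norm, dist_eq_norm]
    refine this.trans ?_
    change _ ≤ (n * ‖π‖ + 1) * (n * (n * ‖e‖)) * _
    rw [mul_assoc (n * ‖π‖ + 1 : ℝ)]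
    gcongr
    exact bd q' hq'
  set ρ : V → V := fun q => (rad n / 2 / max (rad n / 2) ‖q‖) • q with hρ
  have ρc : Continuous ρ := (continuous_const.div (continuous_const.max continuous_norm)
    fun q => (lt_max_of_lt_left r0).ne').smul continuous_id
  have ρm : ∀ q, ρ q ∈ ball (0 : V) (rad n) := fun q => half_mem (by
    have : 0 < max (rad n / 2) ‖q‖ := lt_max_of_lt_left r0
    rw [hρ, norm_smul, Real.norm_of_nonneg (by positivity), div_mul_eq_mul_div, div_le_iff₀ this]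
    gcongr
    exact le_max_right _ _)
  obtain ⟨γ, h0, hγ⟩ := An.peano (a := fun _ q => ξ (ρ q)) (T := u₀) (M := n * ‖e‖)
    ((hc.comp_continuous ρc ρm).comp continuous_snd).continuousOn (fun _ _ q => bd _ (ρm q)) z
  have hm : ∀ u ∈ Icc 0 u₀, ‖γ u‖ ≤ rad n / 2 := fun u hu' => by
    have h1 := norm_image_sub_le_of_norm_deriv_le_segment' hγ (fun t _ => bd _ (ρm _)) u hu'
    have h2 : n * ‖e‖ * (u - 0) ≤ n * ‖e‖ * u₀ := by
      rw [sub_zero]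
      gcongr
      exact hu'.2
    have h3 := norm_add_le (γ u - γ 0) (γ 0)
    rw [sub_add_cancel, h0] at h3
    rw [h0] at h1
    linarith
  refine ⟨γ, ⟨hm, fun u hu' => ?_⟩, h0⟩
  have h1 : ρ (γ u) = γ u := by
    simp only [hρ]
    rw [max_eq_left (hm u hu'), div_self r0.ne', one_smul]
  have h2 := hγ u hu'
  rw [h1] at h2
  exact ⟨_, (hξ _ (half_mem (hm u hu'))).1, (hξ _ (half_mem (hm u hu'))).2, h2⟩

theorem meas_ae {α β : Type} [MeasurableSpace α] [MeasurableSpace β] (ν : Measure β) [SFinite ν]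
    {p : α → β → Prop} (h : MeasurableSet {z : α × β | p z.1 z.2}) :
    MeasurableSet {a | ∀ᵐ b ∂ν, p a b} :=
  measurable_measure_prodMk_left (ν := ν) h.compl (measurableSet_singleton 0)

/-- Fubini's theorem with a parameter set which need not be measurable -/
theorem fubini {B : Type} [MeasurableSpace B] (ν : Measure B) [SFinite ν] {D : Set B}
    {R : Set ((B × B) × ℝ)} (hR : MeasurableSet R)
    (h : ∀ η ∈ D, ∀ t, ∀ᵐ ξ ∂ν, ((ξ, η), t) ∉ R) :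
    ∀ᵐ p ∂ν.prod ν, p.2 ∈ D → ∀ᵐ t : ℝ, (p, t) ∉ R := by
  have m1 : MeasurableSet {p : B × B | ∀ᵐ t : ℝ, (p, t) ∉ R} :=
    meas_ae volume (p := fun p t => (p, t) ∉ R) hR.compl
  have m2 : MeasurableSet {η : B | ∀ᵐ ξ ∂ν, ∀ᵐ t : ℝ, ((ξ, η), t) ∉ R} :=
    meas_ae ν (p := fun η ξ => ∀ᵐ t : ℝ, ((ξ, η), t) ∉ R) (measurable_swap m1)
  have m3 : MeasurableSet {p : B × B | (∀ᵐ ξ ∂ν, ∀ᵐ t : ℝ, ((ξ, p.2), t) ∉ R) →
      ∀ᵐ t : ℝ, (p, t) ∉ R} := (measurable_snd m2).imp m1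
  have h1 := (Measure.ae_prod_iff_ae_ae (μ := ν) (ν := ν) m3).2
    ((Measure.ae_ae_comm (p := fun ξ' η => (∀ᵐ ξ ∂ν, ∀ᵐ t : ℝ, ((ξ, η), t) ∉ R) →
      ∀ᵐ t : ℝ, ((ξ', η), t) ∉ R) m3).2 (ae_of_all _ fun η => by
        by_cases hη : ∀ᵐ ξ ∂ν, ∀ᵐ t : ℝ, ((ξ, η), t) ∉ R
        · exact hη.mono fun _ a _ => a
        · exact ae_of_all _ fun _ a => (hη a).elim))
  filter_upwards [h1] with p hp hD
  refine hp ((Measure.ae_ae_comm (p := fun ξ t => ((ξ, p.2), t) ∉ R) ?_).2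
    (ae_of_all _ (h _ hD)))
  exact ((measurable_fst.prodMk measurable_const).prodMk measurable_snd) hR.compl

end Vale.Agent.P207Z.Far
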