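import Vale.Agent.P207Z.Real.FarO
import Vale.Agent.P207Z.Real.FarG

/-!
# P207: almost every curve tangent to the extension is typical (block FAR)
-/

set_option linter.all false

open Set Filter Topology Metric MeasureTheory
open scoped ContDiff NNReal

noncomputable section

namespace Vale.Agent.P207Z

variable {Γ X B E V Y : Type} [Group Γ] [Countable Γ] [MetricSpace X] [ProperSpace X]
  [MulAction Γ X] [IsIsometricSMul Γ X] [MeasurableSpace X] [BorelSpace X]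
  [TopologicalSpace B] [CompactSpace B] [T2Space B] [SecondCountableTopology B] [MulAction Γ B]
  [ContinuousConstSMul Γ B] [MeasurableSpace B] [BorelSpace B]
  [NormedAddCommGroup E] [InnerProductSpace ℝ E] [FiniteDimensional ℝ E]
  [MeasurableSpace E] [BorelSpace E]
  [NormedAddCommGroup V] [NormedSpace ℝ V] [FiniteDimensional ℝ V]
  [MeasurableSpace Y] [MulAction Γ Y]
  {G : Type} [NormedAddCommGroup G] [NormedSpace ℝ G]
  {S : Sys Γ X B E V} {𝔉 : Bun S V}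

/-- the inverse of a chart -/
def Sys.ci (S : Sys Γ X B E V) (x : X) : B × B → V := Function.invFunOn (S.c x) (ball 0 1)

theorem Sys.ci_c (S : Sys Γ X B E V) (x : X) {q : V} (hq : q ∈ ball (0 : V) 1) :
    S.ci x (S.c x q) = q := (S.c_inj x).leftInvOn_invFunOn hq

theorem Sys.ci_cont (S : Sys Γ X B E V) (x : X) {q : V} (hq : q ∈ ball (0 : V) 1) :
    ContinuousAt (S.ci x) (S.c x q) := by
  rw [ContinuousAt, S.ci_c x hq]
  refine (nhds_basis_opens q).tendsto_right_iff.2 fun O hO => ?_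
  filter_upwards [(S.isOpen_image x (hO.2.inter isOpen_ball) inter_subset_right).mem_nhds
    ⟨q, ⟨hO.1, hq⟩, rfl⟩]
  rintro _ ⟨q', h', rfl⟩
  rw [S.ci_c x h'.2]
  exact h'.1

theorem rad_mem_one {n : ℕ} {q : V} (h : ‖q‖ ≤ rad n / 2) : q ∈ ball (0 : V) 1 :=
  ball_subset_ball (rad_le_one n) (Far.half_mem h)

theorem SSub.typ (H : SSub 𝔉) (P : Prob S Y) (hL : Leb S) {T : Set B} (hT : ∀ᵐ ξ ∂S.ν, ξ ∈ T) :
    ∃ k₀, ∀ k ≥ k₀, ∀ (n : ℕ) (x₀ : X) (π : V →L[ℝ] G) (e : G) (u₀ : ℝ),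
      n * ‖e‖ * u₀ ≤ rad n / 4 → ∀ᵐ x ∂S.μ, ∀ Q γ, H.Box k n x₀ (S.ep x) Q → Tr n π e Q →
        Crv n π e Q u₀ γ → (∀ u ∈ Icc 0 u₀, (S.c x₀ (γ u)).2 = S.ep x) → ‖γ 0‖ ≤ rad n / 4 →
        S.c x₀ (γ 0) = S.pt x → ∀ᵐ u : ℝ, u ∈ Icc 0 u₀ → (S.c x₀ (γ u)).1 ∈ T := by
  obtain ⟨k₀, A', hk₀, hA', gap⟩ := H.gap P
  refine ⟨k₀, fun k hk n x₀ π e u₀ hu => ?_⟩
  rcases lt_or_ge u₀ 0 with h0 | h0
  · exact ae_of_all _ fun _ _ _ _ _ _ _ _ _ => ae_of_all _ fun u h => absurd (h.1.trans h.2) h0.not_ge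
  have I0 : (0 : ℝ) ∈ Icc 0 u₀ := left_mem_Icc.2 h0
  have r0 := rad_pos n
  have r1 := rad_le_one n
  obtain ⟨C, C0, hC⟩ := Far.close n π e u₀
  set N := toMeasurable S.ν Tᶜ with hN
  have N0 : S.ν N = 0 := (measure_toMeasurable _).trans hT
  set Dh : Set B := {η | η ∈ A' ∧ ∃ Q, H.Box k n x₀ η Q ∧ Tr n π e Q} with hDh
  choose! Qη hQ using fun η (h : η ∈ Dh) => h.2
  have p1 : ∀ {η Q}, H.Box k n x₀ η Q → Prj 1 n Q := fun h => h.1.mono (hk₀.trans hk) le_rfl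
  set K₀ : Set (B × B) := S.c x₀ '' closedBall 0 (rad n / 4) with hK₀
  have sub : closedBall (0 : V) (rad n / 4) ⊆ ball 0 1 := closedBall_subset_ball (by linarith)
  have Kc : IsClosed K₀ :=
    ((isCompact_closedBall _ _).image_of_continuousOn ((S.continuousOn_c x₀).mono sub)).isClosed
  have ex : ∀ p : B × B, p.2 ∈ Dh ∧ p ∈ K₀ →
      ∃ γ, Crv n π e (Qη p.2) u₀ γ ∧ γ 0 = S.ci x₀ p := by
    rintro p ⟨h, z, hz, rfl⟩
    rw [S.ci_c x₀ (sub hz)]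
    exact Far.exists_crv (p1 (hQ _ h).1) (hQ _ h).2 hu (mem_closedBall_zero_iff.1 hz)
  choose! sol hsol using ex
  set D : Set (B × B) := {p | (p.2 ∈ Dh ∧ p ∈ K₀) ∧ ∀ u ∈ Icc 0 u₀, (S.c x₀ (sol p u)).2 = p.2}
    with hD
  have cc : ∀ p, p.2 ∈ Dh ∧ p ∈ K₀ → ∀ u ∈ Icc 0 u₀, ContinuousAt (S.c x₀) (sol p u) :=
    fun p hp u hu' => (S.continuousOn_c x₀).continuousAt
      (isOpen_ball.mem_nhds (rad_mem_one ((hsol p hp).1.mem u hu')))
  have est : ∀ p, p.2 ∈ Dh ∧ p ∈ K₀ → ∀ ε > 0, ∀ᶠ p' in 𝓝[D] p, ∀ u ∈ Icc 0 u₀,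
      ‖sol p u - sol p' u‖ ≤ ε := by
    intro p hp ε hε
    have hε' : 0 < ε / (2 * C) := by positivity
    have c1 : ContinuousAt (S.ci x₀) p := by
      obtain ⟨z, hz, rfl⟩ := hp.2
      exact S.ci_cont x₀ (sub hz)
    filter_upwards [self_mem_nhdsWithin, mem_nhdsWithin_of_mem_nhds (continuous_snd.continuousAt
      (gap k hk n x₀ _ hp.1.1 _ (hQ _ hp.1).1 _ hε')),
      mem_nhdsWithin_of_mem_nhds (c1 (ball_mem_nhds _ hε'))] with p' h1 h2 h3 u hu'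
    refine (hC _ _ _ _ _ hε'.le (p1 (hQ _ hp.1).1) (hQ _ hp.1).2 (hQ _ h1.1.1).2 (hsol p hp).1
      (hsol p' h1.1).1 (fun t ht => h2 h1.1.1.1 _ (hQ _ h1.1.1).1 _ ((hsol p' h1.1).1.mem t ht)
        (h1.2 t ht)) 0 I0 u hu').trans ?_
    rw [(hsol p hp).2, (hsol p' h1.1).2, norm_sub_rev, ← dist_eq_norm]
    calc _ ≤ C * (ε / (2 * C) + ε / (2 * C)) := by gcongr; exact le_of_lt h3
      _ = ε := by field_simp; ring
  have cl : ∀ p ∈ closure D, p.2 ∈ Dh → p ∈ D := by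
    intro p hp h
    have hp' : p.2 ∈ Dh ∧ p ∈ K₀ := ⟨h, closure_minimal (fun _ a => a.1.2) Kc hp⟩
    refine ⟨hp', fun u hu' => ?_⟩
    haveI := mem_closure_iff_nhdsWithin_neBot.1 hp
    have t1 : Tendsto (fun p' => sol p' u) (𝓝[D] p) (𝓝 (sol p u)) :=
      (nhds_basis_closedBall.tendsto_right_iff).2 fun ε hε => (est p hp' ε hε).mono fun p' a => by
        rw [mem_closedBall, dist_comm, dist_eq_norm]
        exact a u hu'
    refine tendsto_nhds_unique (l := 𝓝[D] p)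
      (continuous_snd.continuousAt.tendsto.comp ((cc p hp' u hu').tendsto.comp t1))
      ((continuous_snd.continuousAt.tendsto.mono_left nhdsWithin_le_nhds).congr' ?_)
    filter_upwards [self_mem_nhdsWithin] with p' a using (a.2 u hu').symm
  have Ψc : ContinuousOn (fun w : (B × B) × ℝ => (S.c x₀ (sol w.1 w.2)).1) (D ×ˢ Icc 0 u₀) := by
    rintro ⟨p, u⟩ ⟨hp, hu'⟩
    refine continuous_fst.continuousAt.tendsto.comp ((cc p hp.1 u hu').tendsto.comp ?_)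
    rw [nhdsWithin_prod_eq]
    refine (nhds_basis_closedBall.tendsto_right_iff).2 fun ε hε => ?_
    obtain ⟨v, -, -, hv⟩ := (hsol p hp.1).1.der u hu'
    filter_upwards [tendsto_fst (est p hp.1 _ (half_pos hε)), tendsto_snd self_mem_nhdsWithin,
      tendsto_snd (hv.continuousWithinAt (closedBall_mem_nhds _ (half_pos hε)))] with w a b c
    have a' : dist (sol w.1 w.2) (sol p w.2) ≤ ε / 2 := by
      rw [dist_comm, dist_eq_norm]
      exact a _ b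
    exact (dist_triangle _ (sol p w.2) _).trans ((add_le_add a' c).trans_eq (add_halves ε))
  obtain ⟨R, hR, eR⟩ := MeasurableSpace.measurableSet_comap.1
    (Ψc.restrict.measurable (measurableSet_toMeasurable S.ν Tᶜ))
  have mR : ∀ p ∈ D, ∀ t ∈ Icc 0 u₀, (p, t) ∈ R ↔ (S.c x₀ (sol p t)).1 ∈ N := fun p hp t ht =>
    Set.ext_iff.1 eR ⟨(p, t), hp, ht⟩
  have same : ∀ p ∈ D, ∀ p' ∈ D, p'.2 = p.2 → ∀ a ∈ Icc 0 u₀, ∀ b ∈ Icc 0 u₀,
      ‖sol p b - sol p' b‖ ≤ C * ‖sol p a - sol p' a‖ := by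
    intro p hp p' hp' e₁ a ha b hb
    have c' := (hsol p' hp'.1).1
    rw [e₁] at c'
    have h1 := hQ _ hp.1.1
    simpa using hC _ _ _ _ 0 le_rfl (p1 h1.1) h1.2 h1.2 (hsol p hp.1).1 c' (fun t ht => by
      have := h1.1.1.idem _ (Far.half_mem (c'.mem t ht))
      change ‖(1 - Qη p.2 _) * _‖ ≤ 0
      rw [sub_mul, one_mul, this, sub_self, norm_zero]) a ha b hb
  have key := Far.fubini S.ν (D := Dh) (R := R ∩ closure D ×ˢ Icc 0 u₀)
    (hR.inter (isClosed_closure.measurableSet.prod measurableSet_Icc)) fun η hη t => by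
    set T' : Set V := {z | ∃ p, (p ∈ D ∧ p.2 = η ∧ t ∈ Icc 0 u₀) ∧ sol p t = z ∧ (S.c x₀ z).1 ∈ N}
    haveI : Nonempty B := ⟨η⟩
    choose! g hg using fun z (h : z ∈ T') => h
    have := hL.lip_null (x := x₀) (η := η) (a := rad n / 2) (by linarith) (T := T') (by
      rintro _ ⟨p, hp, rfl, -⟩
      exact ⟨(hsol p hp.1.1).1.mem t hp.2.2, (hp.1.2 t hp.2.2).trans hp.2.1⟩)
      (h := fun z => sol (g z) 0) (K := ⟨C, C0.le⟩) (LipschitzOnWith.of_dist_le_mul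
        fun z hz z' hz' => by
          have := same _ (hg z hz).1.1 _ (hg z' hz').1.1
            ((hg z' hz').1.2.1.trans (hg z hz).1.2.1.symm) t (hg z hz).1.2.2 0 I0
          rwa [(hg z hz).2.1, (hg z' hz').2.1, ← dist_eq_norm, ← dist_eq_norm] at this)
      (fun z hz => ⟨(hsol _ (hg z hz).1.1.1).1.mem 0 I0,
        ((hg z hz).1.1.2 0 I0).trans (hg z hz).1.2.1⟩)
      (measure_mono_null (by rintro _ ⟨z, hz, rfl⟩; exact (hg z hz).2.2) N0)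
    refine measure_mono_null (fun ξ hξ => ?_) this
    obtain ⟨h1, h2, h3⟩ := not_not.1 hξ
    have h4 := cl _ h2 hη
    have h5 : sol (ξ, η) t ∈ T' := ⟨(ξ, η), ⟨h4, rfl, h3⟩, rfl, (mR _ h4 t h3).1 h1⟩
    refine ⟨_, h5, ?_⟩
    have h6 := same _ h4 _ (hg _ h5).1.1 (hg _ h5).1.2.1 t h3 0 I0
    rw [(hg _ h5).2.1, sub_self, norm_zero, mul_zero, norm_le_zero_iff, sub_eq_zero] at h6
    obtain ⟨z, hz, e₁⟩ := h4.1.2
    simp only [← h6]
    rw [(hsol _ h4.1).2, ← e₁, S.ci_c x₀ (sub hz), e₁]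
  filter_upwards [S.ae_of_ep hA', S.ae_iff.2 (key.mono fun p hp x (hx : S.pt x = p) => hx ▸ hp)]
    with x h1 h2 Q γ b t c l g0 g1
  have h3 : (S.pt x).2 ∈ Dh := ⟨h1, Q, b, t⟩
  have h4 : (S.pt x).2 ∈ Dh ∧ S.pt x ∈ K₀ := ⟨h3, _, mem_closedBall_zero_iff.2 g0, g1⟩
  have h5 : ∀ u ∈ Icc 0 u₀, sol (S.pt x) u = γ u := fun u hu' => by
    refine sub_eq_zero.1 (norm_le_zero_iff.1 (le_of_forall_pos_le_add fun ε hε => ?_))
    have hε' : 0 < ε / C := by positivity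
    have := hC _ _ _ _ _ hε'.le (p1 (hQ _ h3).1) (hQ _ h3).2 t (hsol _ h4).1 c (fun s hs =>
      (gap k hk n x₀ _ h1 _ (hQ _ h3).1 _ hε').self_of_nhds h1 Q b _ (c.mem s hs) (l s hs))
      0 I0 u hu'
    rw [(hsol _ h4).2, ← g1, S.ci_c x₀ (rad_mem_one (c.mem 0 I0)), g1, sub_self, norm_zero,
      zero_add, mul_div_cancel₀ _ C0.ne'] at this
    rwa [zero_add]
  have h6 : S.pt x ∈ D := ⟨h4, fun u hu' => by rw [h5 u hu']; exact l u hu'⟩
  filter_upwards [h2 h3] with u a hu'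
  by_contra h7
  exact a ⟨(mR _ h6 u hu').2 (by rw [h5 u hu']; exact subset_toMeasurable _ _ h7),
    subset_closure h6, hu'⟩

end Vale.Agent.P207Z
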