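import Vale.Agent.P207Z.JetC
import Vale.Agent.P207Z.An.WinTay

/-!
# P207 CORE: sequences of functions whose high derivatives are exponentially small
-/

set_option linter.all false

open Set Filter Topology Metric Asymptotics
open scoped ContDiff

noncomputable section

namespace Vale.Agent.P207Z.Lim

variable {W V G G' G'' : Type} [NormedAddCommGroup W] [NormedSpace ℝ W] [NormedAddCommGroup V]
  [NormedSpace ℝ V] [NormedAddCommGroup G] [NormedSpace ℝ G] [NormedAddCommGroup G']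
  [NormedSpace ℝ G'] [NormedAddCommGroup G''] [NormedSpace ℝ G'']

/-- the exponential scale -/
def ex (κ : ℝ) (n : ℕ) : ℝ := Real.exp (κ * n)

theorem ex_pos (κ : ℝ) (n : ℕ) : 0 < ex κ n := Real.exp_pos _

theorem ex_add (κ κ' : ℝ) (n : ℕ) : ex (κ + κ') n = ex κ n * ex κ' n := by
  rw [ex, add_mul, Real.exp_add]; rfl

theorem ex_mono {κ κ' : ℝ} (h : κ ≤ κ') (n : ℕ) : ex κ n ≤ ex κ' n :=
  Real.exp_le_exp.2 (mul_le_mul_of_nonneg_right h (Nat.cast_nonneg _))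

theorem ex_zero (n : ℕ) : ex 0 n = 1 := by simp [ex]

theorem ex_le_one {κ : ℝ} (h : κ ≤ 0) (n : ℕ) : ex κ n ≤ 1 := (ex_mono h n).trans_eq (ex_zero n)

theorem ex_tendsto {κ : ℝ} (h : κ < 0) : Tendsto (ex κ) atTop (𝓝 0) :=
  Real.tendsto_exp_atBot.comp (tendsto_natCast_atTop_atTop.const_mul_atTop_of_neg h)

/-- the gain on the high derivatives -/
def wt (K : ℝ) (m n j : ℕ) : ℝ := if m ≤ j then ex (-K) n else 1

variable {K R κ κ' : ℝ} {l : Filter ℕ} {N m m' : ℕ}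

theorem wt_pos (K : ℝ) (m n j : ℕ) : 0 < wt K m n j := by
  unfold wt; split_ifs
  · exact ex_pos _ _
  · exact one_pos

theorem wt_le_one (hK : 0 ≤ K) (m n j : ℕ) : wt K m n j ≤ 1 := by
  unfold wt; split_ifs
  · exact ex_le_one (neg_nonpos.2 hK) _
  · exact le_rfl

theorem wt_le (hK : 0 ≤ K) {n j j' : ℕ} (h : m' ≤ j' → m ≤ j) : wt K m n j ≤ wt K m' n j' := by
  by_cases h1 : m' ≤ j'
  · rw [wt, wt, if_pos h1, if_pos (h h1)]
  · rw [wt.eq_def K m', if_neg h1]; exact wt_le_one hK _ _ _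

theorem wt_mul (hK : 0 ≤ K) {n i j : ℕ} (h : i ≤ j) :
    wt K m n i * wt K m' n (j - i) ≤ wt K (m + m') n j := by
  by_cases h1 : m ≤ i
  · exact (mul_le_of_le_one_right (wt_pos _ _ _ _).le (wt_le_one hK _ _ _)).trans
      (wt_le hK fun _ => h1)
  · exact (mul_le_of_le_one_left (wt_pos _ _ _ _).le (wt_le_one hK _ _ _)).trans
      (wt_le hK fun _ => by omega)

/-- `C^N` bounds on the ball of radius `R`, with a gain from the order `m` on -/
def SB (l : Filter ℕ) (K R : ℝ) (N m : ℕ) (κ : ℝ) (f : ℕ → W → G) : Prop :=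
  ∃ C : ℝ, 0 ≤ C ∧ ∀ᶠ n in l, ContDiffOn ℝ N (f n) (ball 0 R) ∧ ∀ j ≤ N, ∀ s ∈ ball (0 : W) R,
    ‖iteratedFDeriv ℝ j (f n) s‖ ≤ C * ex κ n * wt K m n j

variable {f : ℕ → W → G} {g : ℕ → W → G'}

theorem SB.mono (hK : 0 ≤ K) (h : SB l K R N m κ f) (hm : m ≤ m') (hκ : κ ≤ κ') :
    SB l K R N m' κ' f := by
  obtain ⟨C, hC, h⟩ := h
  refine ⟨C, hC, h.mono fun n hn => ⟨hn.1, fun j hj s hs => (hn.2 j hj s hs).trans ?_⟩⟩
  exact mul_le_mul (mul_le_mul_of_nonneg_left (ex_mono hκ n) hC) (wt_le hK fun h => hm.trans h)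
    (wt_pos _ _ _ _).le (mul_nonneg hC (ex_pos _ _).le)

theorem SB.congr {f' : ℕ → W → G} (h : SB l K R N m κ f)
    (e : ∀ᶠ n in l, ∀ s ∈ ball (0 : W) R, f' n s = f n s) : SB l K R N m κ f' := by
  obtain ⟨C, hC, h⟩ := h
  refine ⟨C, hC, (h.and e).mono fun n hn => ⟨hn.1.1.congr hn.2, fun j hj s hs => ?_⟩⟩
  have : f' n =ᶠ[𝓝 s] f n := mem_of_superset (isOpen_ball.mem_nhds hs) hn.2
  rw [(this.iteratedFDeriv ℝ j).eq_of_nhds]
  exact hn.1.2 j hj s hs

theorem SB.bilin (hK : 0 ≤ K) (B : G →L[ℝ] G' →L[ℝ] G'') (h : SB l K R N m κ f)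
    (h' : SB l K R N m' κ' g) : SB l K R N (m + m') (κ + κ') fun n s => B (f n s) (g n s) := by
  obtain ⟨C, hC, h⟩ := h
  obtain ⟨C', hC', h'⟩ := h'
  have hB := B.opNorm_nonneg
  refine ⟨‖B‖ * 2 ^ N * C * C', by positivity, (h.and h').mono fun n hn =>
    ⟨(B.contDiff.comp_contDiffOn hn.1.1).clm_apply hn.2.1, fun j hj s hs => ?_⟩⟩
  have h1 := B.norm_iteratedFDerivWithin_le_of_bilinear hn.1.1 hn.2.1 isOpen_ball.uniqueDiffOn hs
    (n := j) (by exact_mod_cast hj)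
  simp only [iteratedFDerivWithin_of_isOpen _ isOpen_ball hs] at h1
  have h0 : 0 ≤ C * C' * ex (κ + κ') n * wt K (m + m') n j :=
    mul_nonneg (mul_nonneg (mul_nonneg hC hC') (ex_pos _ _).le) (wt_pos _ _ _ _).le
  have h2 : ∑ i ∈ Finset.range (j + 1), (j.choose i : ℝ) * ‖iteratedFDeriv ℝ i (f n) s‖ *
      ‖iteratedFDeriv ℝ (j - i) (g n) s‖ ≤ ∑ i ∈ Finset.range (j + 1), (j.choose i : ℝ) *
        (C * C' * ex (κ + κ') n * wt K (m + m') n j) := Finset.sum_le_sum fun i hi => by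
    have hi' : i ≤ j := Nat.lt_succ_iff.1 (Finset.mem_range.1 hi)
    rw [mul_assoc]
    refine mul_le_mul_of_nonneg_left ?_ (Nat.cast_nonneg _)
    refine (mul_le_mul (hn.1.2 i (hi'.trans hj) s hs) (hn.2.2 (j - i) (by omega) s hs)
      (norm_nonneg _) (mul_nonneg (mul_nonneg hC (ex_pos _ _).le) (wt_pos _ _ _ _).le)).trans ?_
    rw [ex_add]
    calc _ = C * C' * (ex κ n * ex κ' n) * (wt K m n i * wt K m' n (j - i)) := by ring
      _ ≤ _ := mul_le_mul_of_nonneg_left (wt_mul hK hi')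
        (mul_nonneg (mul_nonneg hC hC') (mul_pos (ex_pos _ _) (ex_pos _ _)).le)
  rw [← Finset.sum_mul, ← Nat.cast_sum, Nat.sum_range_choose] at h2
  refine h1.trans ((mul_le_mul_of_nonneg_left h2 B.opNorm_nonneg).trans ?_)
  calc _ ≤ ‖B‖ * ((2 : ℝ) ^ N * (C * C' * ex (κ + κ') n * wt K (m + m') n j)) := by
        refine mul_le_mul_of_nonneg_left (mul_le_mul_of_nonneg_right ?_ h0) B.opNorm_nonneg
        push_cast
        exact pow_le_pow_right₀ one_le_two hj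
    _ = _ := by ring

theorem SB.apply (hK : 0 ≤ K) {f : ℕ → W → G →L[ℝ] G'} {g : ℕ → W → G} (h : SB l K R N m κ f)
    (h' : SB l K R N m' κ' g) : SB l K R N (m + m') (κ + κ') fun n s => f n s (g n s) :=
  h.bilin hK (ContinuousLinearMap.id ℝ (G →L[ℝ] G')) h'

theorem SB.clm (L : G →L[ℝ] G') (h : SB l K R N m κ f) : SB l K R N m κ fun n s => L (f n s) := by
  obtain ⟨C, hC, h⟩ := h
  refine ⟨‖L‖ * C, by positivity, h.mono fun n hn =>
    ⟨L.contDiff.comp_contDiffOn hn.1, fun j hj s hs => ?_⟩⟩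
  refine (L.norm_iteratedFDeriv_comp_left (hn.1.contDiffAt (isOpen_ball.mem_nhds hs))
    (by exact_mod_cast hj)).trans ?_
  rw [mul_assoc, mul_assoc, ← mul_assoc C]
  exact mul_le_mul_of_nonneg_left (hn.2 j hj s hs) (norm_nonneg _)

theorem SB.app {f : ℕ → W → G →L[ℝ] G'} (h : SB l K R N m κ f) (v : G) :
    SB l K R N m κ fun n s => f n s v := h.clm (ContinuousLinearMap.apply ℝ G' v)

theorem SB.add {f' : ℕ → W → G} (h : SB l K R N m κ f) (h' : SB l K R N m κ f') :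
    SB l K R N m κ fun n s => f n s + f' n s := by
  obtain ⟨C, hC, h⟩ := h
  obtain ⟨C', hC', h'⟩ := h'
  refine ⟨C + C', by positivity, (h.and h').mono fun n hn =>
    ⟨hn.1.1.add hn.2.1, fun j hj s hs => ?_⟩⟩
  have hj' : (j : WithTop ℕ∞) ≤ N := by exact_mod_cast hj
  rw [fun_iteratedFDeriv_add_apply ((hn.1.1.contDiffAt (isOpen_ball.mem_nhds hs)).of_le hj')
    ((hn.2.1.contDiffAt (isOpen_ball.mem_nhds hs)).of_le hj'), add_mul, add_mul]
  exact norm_add_le_of_le (hn.1.2 j hj s hs) (hn.2.2 j hj s hs)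

theorem SB.neg (h : SB l K R N m κ f) : SB l K R N m κ fun n s => -f n s :=
  h.clm (-ContinuousLinearMap.id ℝ G)

theorem SB.sub {f' : ℕ → W → G} (h : SB l K R N m κ f) (h' : SB l K R N m κ f') :
    SB l K R N m κ fun n s => f n s - f' n s := by
  simpa only [sub_eq_add_neg] using h.add h'.neg

theorem SB.const (c : G) : SB l K R N 1 0 fun _ (_ : W) => c := by
  refine ⟨‖c‖, norm_nonneg _, Eventually.of_forall fun n => ⟨contDiffOn_const, fun j _ s _ => ?_⟩⟩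
  rcases Nat.eq_zero_or_pos j with rfl | hj
  · simp [ex_zero, wt]
  · rw [iteratedFDeriv_const_of_ne hj.ne', Pi.zero_apply, norm_zero]
    exact mul_nonneg (mul_nonneg (norm_nonneg _) (ex_pos _ _).le) (wt_pos _ _ _ _).le

theorem SB.fderiv (hK : 0 ≤ K) (h : SB l K R (N + 1) m κ f) :
    SB l K R N m κ fun n => fderiv ℝ (f n) := by
  obtain ⟨C, hC, h⟩ := h
  refine ⟨C, hC, h.mono fun n hn => ⟨hn.1.fderiv_of_isOpen isOpen_ball (by simp),
    fun j hj s hs => ?_⟩⟩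
  rw [norm_iteratedFDeriv_fderiv]
  exact (hn.2 (j + 1) (by omega) s hs).trans (mul_le_mul_of_nonneg_left
    (wt_le hK fun h => by omega) (mul_nonneg hC (ex_pos _ _).le))

theorem SB.val (hK : 0 ≤ K) (h : SB l K R N m κ f) {s : W} (hs : s ∈ ball (0 : W) R) :
    (fun n => f n s) =O[l] ex κ := by
  obtain ⟨C, hC, h⟩ := h
  refine IsBigO.of_bound C (h.mono fun n hn => ?_)
  have h1 := hn.2 0 (Nat.zero_le _) s hs
  rw [norm_iteratedFDeriv_zero] at h1
  rw [Real.norm_of_nonneg (ex_pos _ _).le]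
  exact h1.trans (mul_le_of_le_one_right (mul_nonneg hC (ex_pos _ _).le) (wt_le_one hK _ _ _))

/-- flat at the origin, with a small top derivative -/
theorem SB.small {k : ℕ} (h : SB l K R (k + 1) m κ f) (hm : m ≤ k + 1)
    (h0 : ∀ᶠ n in l, Flat k (f n) 0) {s : W} (hs : s ∈ ball (0 : W) R) :
    (fun n => f n s) =O[l] ex (κ - K) := by
  obtain ⟨C, hC, h⟩ := h
  refine IsBigO.of_bound (C * ‖s‖ ^ (k + 1)) ((h.and h0).mono fun n hn => ?_)
  have hR : (0 : W) ∈ ball (0 : W) R := mem_ball_self (pos_of_mem_ball hs)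
  have h1 := deriv_bound_of_jet hn.1.1 ((flat_iff_jet ((hn.1.1.contDiffAt
    (isOpen_ball.mem_nhds hR)).of_le (by exact_mod_cast Nat.le_succ k))).1 hn.2)
    (fun q hq => hn.1.2 (k + 1) le_rfl q hq) (Nat.zero_le _) hs
  rw [norm_iteratedFDeriv_zero, wt, if_pos hm, sub_zero, Nat.sub_zero] at h1
  rw [Real.norm_of_nonneg (ex_pos _ _).le, sub_eq_add_neg, ex_add]
  exact h1.trans_eq (by ring)

section Poly

variable {J : ℕ} [FiniteDimensional ℝ V]

theorem isPoly (a : Jet J W V) : An.IsPoly J (poly a) :=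
  haveI := FiniteDimensional.complete ℝ V
  An.isPoly_tpoly a

theorem norm_poly_le (a : Jet J W V) {j : ℕ} (hj : j ≤ J) :
    ‖iteratedFDeriv ℝ j (poly a) 0‖ ≤ ‖a ⟨j, Nat.lt_succ_of_le hj⟩‖ :=
  haveI := FiniteDimensional.complete ℝ V
  An.norm_iter_tpoly_le a ⟨j, Nat.lt_succ_of_le hj⟩

/-- sequences of jets with small high coefficients -/
def JB (l : Filter ℕ) (K : ℝ) (m : ℕ) (κ : ℝ) (a : ℕ → Jet J W V) : Prop :=
  ∃ C : ℝ, 0 ≤ C ∧ ∀ᶠ n in l, ∀ j : Fin (J + 1), ‖a n j‖ ≤ C * ex κ n * wt K m n j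

theorem JB.sb {a : ℕ → Jet J W V} (hK : 0 ≤ K) (h : JB l K m κ a) (R : ℝ) (N : ℕ) :
    SB l K R N m κ fun n => poly (a n) := by
  obtain ⟨C, hC, h⟩ := h
  refine ⟨(1 + |R|) ^ (J + 1) * C, by positivity, h.mono fun n hn =>
    ⟨((contDiff_poly _).of_le (by exact_mod_cast le_top)).contDiffOn, fun j _ s hs => ?_⟩⟩
  have h0 : 0 ≤ C * ex κ n := mul_nonneg hC (ex_pos _ _).le
  have h1 := (isPoly (a n)).norm_iter_le (x := 0) (R := |R|) (j := j)
    (B := C * ex κ n * wt K m n j) (mul_nonneg h0 (wt_pos _ _ _ _).le)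
    (fun k hk hk' => (norm_poly_le _ hk').trans ((hn _).trans
      (mul_le_mul_of_nonneg_left (wt_le hK fun h => h.trans hk) h0)))
    (ball_subset_closedBall (ball_subset_ball (le_abs_self R) hs))
  exact h1.trans_eq (by ring)

theorem ev_small {a : ℕ → Jet J W V} {C ρ : ℝ} (hl : l ≤ atTop) (hρ : 0 < ρ)
    (h : ∀ᶠ n in l, ∀ j : Fin (J + 1), ‖a n j‖ ≤ C * (3 / 4) ^ n) (R : ℝ) :
    ∀ᶠ n in l, ∀ s ∈ ball (0 : W) R, poly (a n) s ∈ ball (0 : V) ρ := by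
  have h34 : Tendsto (fun n : ℕ => (1 + |R|) ^ (J + 1) * (C * (3 / 4 : ℝ) ^ n)) atTop (𝓝 0) := by
    simpa using ((tendsto_pow_atTop_nhds_zero_of_lt_one (r := 3 / 4) (by norm_num)
      (by norm_num)).const_mul C).const_mul ((1 + |R|) ^ (J + 1))
  filter_upwards [h, hl (h34.eventually (gt_mem_nhds hρ))] with n h1 h2 s hs
  have h3 := (isPoly (a n)).norm_iter_le (x := 0) (R := |R|) (j := 0)
    ((norm_nonneg _).trans (h1 0)) (fun k _ hk => (norm_poly_le _ hk).trans (h1 _))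
    (ball_subset_closedBall (ball_subset_ball (le_abs_self R) hs))
  rw [norm_iteratedFDeriv_zero] at h3
  exact mem_ball_zero_iff.2 (h3.trans_lt h2)

/-- composition of bounded maps with small polynomials -/
theorem sb_comp {a : ℕ → Jet J W V} {Φ : ℕ → V → G} {r P : ℕ} {C : ℝ}
    (hl : l ≤ atTop) (hP : (3 / 4 : ℝ) ^ P ≤ Real.exp (-K)) (hm : 1 ≤ m * P)
    (hΦ : ∀ᶠ n in l, CkB N r (Φ n))
    (h : ∀ᶠ n in l, ∀ j : Fin (J + 1), ‖a n j‖ ≤ C * (3 / 4) ^ n ∧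
      (m ≤ (j : ℕ) → ‖a n j‖ ≤ C * ex (-K) n)) (R : ℝ) :
    SB l K R N (m * P) 0 fun n s => Φ n (poly (a n) s) := by
  set M := max C 1 with hM
  have hM1 : 1 ≤ M := le_max_right _ _
  have hη : ∀ n : ℕ, 0 ≤ (3 / 4 : ℝ) ^ n ∧ (3 / 4 : ℝ) ^ n ≤ 1 := fun n =>
    ⟨by positivity, pow_le_one₀ (by norm_num) (by norm_num)⟩
  have h1 : ∀ᶠ n in l, ∀ j ≤ J, ‖iteratedFDeriv ℝ j (poly (a n)) 0‖ ≤ M * (3 / 4) ^ n :=
    h.mono fun n hn j hj => (norm_poly_le _ hj).trans ((hn _).1.trans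
      (mul_le_mul_of_nonneg_right (le_max_left _ _) (hη n).1))
  have hb := ev_small hl (rad_pos r) (h.mono fun n hn j => (hn j).1) R
  have hc : 0 ≤ An.polyC J N r M |R| := by
    unfold An.polyC
    have := An.nPart_nonneg N
    positivity
  refine ⟨r + An.polyC J N r M |R| * (M + 1), by positivity, ?_⟩
  filter_upwards [h, h1, hb, hΦ] with n h h1 hb hΦ
  refine ⟨hΦ.smooth.comp ((contDiff_poly _).of_le (by exact_mod_cast le_top)).contDiffOn hb,
    fun j hj s hs => ?_⟩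
  have hs' := ball_subset_closedBall (ball_subset_ball (le_abs_self R) hs)
  have hd : ContDiffAt ℝ j (Φ n) (poly (a n) s) :=
    (hΦ.contDiffAt (hb s hs)).of_le (by exact_mod_cast hj)
  have hQ : ∀ i, 1 ≤ i → i ≤ j → ‖iteratedFDeriv ℝ i (Φ n) (poly (a n) s)‖ ≤ r :=
    fun i _ hi => hΦ.bd i (hi.trans hj) _ (hb s hs)
  rw [ex_zero, mul_one, wt]
  split_ifs with hw
  · have h4 := (isPoly (a n)).comp_small (N := N) (i0 := m) (P := P) (ε := M * ex (-K) n) hs'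
      (hm.trans hw) hj hM1 (hη n).1 (hη n).2 (mul_nonneg (zero_le_one.trans hM1) (ex_pos _ _).le)
      hd hQ (fun i _ hi => h1 i hi) (fun i h5 _ hi => (norm_poly_le _ hi).trans
        (((h _).2 h5).trans (mul_le_mul_of_nonneg_right (le_max_left _ _) (ex_pos _ _).le))) hw
    refine h4.trans ?_
    have h6 : ((3 / 4 : ℝ) ^ n) ^ P ≤ ex (-K) n := by
      rw [← pow_mul, mul_comm n, pow_mul, ex, mul_comm (-K), Real.exp_nat_mul]
      exact pow_le_pow_left₀ (by positivity) hP n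
    have h7 := ex_pos (-K) n
    calc _ ≤ An.polyC J N r M |R| * (M * ex (-K) n + ex (-K) n) :=
          mul_le_mul_of_nonneg_left (add_le_add le_rfl h6) hc
      _ = An.polyC J N r M |R| * (M + 1) * ex (-K) n := by ring
      _ ≤ _ := mul_le_mul_of_nonneg_right (le_add_of_nonneg_left (Nat.cast_nonneg r)) h7.le
  · rw [mul_one]
    rcases Nat.eq_zero_or_pos j with rfl | hj0
    · rw [norm_iteratedFDeriv_zero]
      exact (hΦ.norm_le (hb s hs)).trans (le_add_of_nonneg_right (by positivity))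
    · have h4 := (isPoly (a n)).comp_small (N := N) (i0 := 0) (P := 0) (ε := M) hs' hj0 hj hM1
        (hη n).1 (hη n).2 (zero_le_one.trans hM1) hd hQ (fun i _ hi => h1 i hi)
        (fun i _ _ hi => (h1 i hi).trans (mul_le_of_le_one_right (zero_le_one.trans hM1) (hη n).2))
        (Nat.zero_le _)
      rw [pow_zero] at h4
      exact h4.trans (le_add_of_nonneg_left (Nat.cast_nonneg r))

end Poly

/-! ### exponential scales for sequences -/

theorem bo_bilin (B : G →L[ℝ] G' →L[ℝ] G'') {u : ℕ → G} {v : ℕ → G'} (h : u =O[l] ex κ)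
    (h' : v =O[l] ex κ') : (fun n => B (u n) (v n)) =O[l] ex (κ + κ') := by
  refine (IsBigO.of_bound ‖B‖ (Eventually.of_forall fun n => ?_)).trans
    ((h.norm_left.mul h'.norm_left).congr_right fun n => (ex_add κ κ' n).symm)
  rw [Real.norm_of_nonneg (mul_nonneg (norm_nonneg _) (norm_nonneg _)), ← mul_assoc]
  exact B.le_opNorm₂ _ _

theorem bo_apply {u : ℕ → G →L[ℝ] G'} {v : ℕ → G} (h : u =O[l] ex κ) (h' : v =O[l] ex κ') :
    (fun n => u n (v n)) =O[l] ex (κ + κ') :=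
  bo_bilin (ContinuousLinearMap.id ℝ (G →L[ℝ] G')) h h'

theorem bo_mono {u : ℕ → G} (h : u =O[l] ex κ) (hκ : κ ≤ κ') : u =O[l] ex κ' :=
  h.trans (isBigO_of_le _ fun n => by
    rw [Real.norm_of_nonneg (ex_pos _ _).le, Real.norm_of_nonneg (ex_pos _ _).le]
    exact ex_mono hκ n)

theorem bo_const (c : G) : (fun _ : ℕ => c) =O[l] ex 0 :=
  IsBigO.of_bound ‖c‖ (Eventually.of_forall fun n => by simp [ex_zero])

theorem bo_clm (L : G →L[ℝ] G') {u : ℕ → G} (h : u =O[l] ex κ) : (fun n => L (u n)) =O[l] ex κ :=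
  (L.isBigO_comp u l).trans h

theorem bo_app {u : ℕ → G →L[ℝ] G'} (h : u =O[l] ex κ) (v : G) : (fun n => u n v) =O[l] ex κ :=
  bo_clm (ContinuousLinearMap.apply ℝ G' v) h

theorem bo_of_le {u : ℕ → G} {C : ℝ} (h : ∀ᶠ n in l, ‖u n‖ ≤ C * ex κ n) : u =O[l] ex κ :=
  IsBigO.of_bound C (h.mono fun n hn => by rwa [Real.norm_of_nonneg (ex_pos _ _).le])

theorem eq_zero_of_bo [l.NeBot] (hl : l ≤ atTop) {c : G} (hκ : κ < 0)
    (h : (fun _ : ℕ => c) =O[l] ex κ) : c = 0 :=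
  tendsto_nhds_unique tendsto_const_nhds (h.trans_tendsto ((ex_tendsto hκ).mono_left hl))

/-- `u` is exponentially close to `u'` -/
def Cl (l : Filter ℕ) (K κ : ℝ) (u u' : ℕ → G) : Prop :=
  (fun n => u n - u' n) =O[l] ex (κ - K) ∧ u' =O[l] ex κ

variable {u u' : ℕ → G} {v v' : ℕ → G'}

theorem Cl.left (hK : 0 ≤ K) (h : Cl l K κ u u') : u =O[l] ex κ :=
  ((bo_mono h.1 (sub_le_self _ hK)).add h.2).congr_left fun n => sub_add_cancel _ _

theorem Cl.small (h : Cl l K κ u u') (h' : u' =O[l] ex (κ - K)) : u =O[l] ex (κ - K) :=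
  (h.1.add h').congr_left fun n => sub_add_cancel _ _

theorem Cl.bilin (hK : 0 ≤ K) (B : G →L[ℝ] G' →L[ℝ] G'') (h : Cl l K κ u u')
    (h' : Cl l K κ' v v') : Cl l K (κ + κ') (fun n => B (u n) (v n)) fun n => B (u' n) (v' n) := by
  refine ⟨((bo_mono (bo_bilin B h.1 (h'.left hK)) (by linarith)).add
    (bo_mono (bo_bilin B h.2 h'.1) (by linarith))).congr_left fun n => ?_, bo_bilin B h.2 h'.2⟩
  simp only [map_sub, ContinuousLinearMap.sub_apply]
  abel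

theorem Cl.apply (hK : 0 ≤ K) {u u' : ℕ → G →L[ℝ] G'} {v v' : ℕ → G} (h : Cl l K κ u u')
    (h' : Cl l K κ' v v') : Cl l K (κ + κ') (fun n => u n (v n)) fun n => u' n (v' n) :=
  h.bilin hK (ContinuousLinearMap.id ℝ (G →L[ℝ] G')) h'

theorem Cl.sub {v v' : ℕ → G} (h : Cl l K κ u u') (h' : Cl l K κ v v') :
    Cl l K κ (fun n => u n - v n) fun n => u' n - v' n :=
  ⟨(h.1.sub h'.1).congr_left fun n => sub_sub_sub_comm _ _ _ _, h.2.sub h'.2⟩

theorem Cl.const (c : G) : Cl l K 0 (fun _ => c) fun _ => c :=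
  ⟨(isBigO_zero _ _).congr_left fun n => (sub_self c).symm, bo_const c⟩

theorem Cl.mono (h : Cl l K κ u u') (hκ : κ ≤ κ') : Cl l K κ' u u' :=
  ⟨bo_mono h.1 (by linarith), bo_mono h.2 hκ⟩

theorem lip {k r : ℕ} {f : V → G} (h : CkB (k + 1) r f) {q q' : V} (hq : q ∈ ball (0 : V) (rad r))
    (hq' : q' ∈ ball (0 : V) (rad r)) : ‖f q - f q'‖ ≤ r * ‖q - q'‖ :=
  (convex_ball 0 _).norm_image_sub_le_of_norm_fderiv_le (𝕜 := ℝ)
    (fun x hx => (h.contDiffAt hx).differentiableAt (by simp))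
    (fun x hx => by rw [← norm_iteratedFDeriv_one]; exact h.bd 1 (by omega) x hx) hq' hq

theorem cl_comp {k r : ℕ} {Φ : ℕ → V → G} {q q' : ℕ → V} (hΦ : ∀ᶠ n in l, CkB (k + 1) r (Φ n))
    (hq : ∀ᶠ n in l, q n ∈ ball (0 : V) (rad r)) (hq' : ∀ᶠ n in l, q' n ∈ ball (0 : V) (rad r))
    (h : (fun n => q n - q' n) =O[l] ex (-K)) :
    Cl l K 0 (fun n => Φ n (q n)) fun n => Φ n (q' n) := by
  refine ⟨(IsBigO.of_bound r ?_).trans (by rwa [zero_sub]), bo_of_le (C := r) ?_⟩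
  · filter_upwards [hΦ, hq, hq'] with n h1 h2 h3 using lip h1 h2 h3
  · filter_upwards [hΦ, hq'] with n h1 h3
    rw [ex_zero, mul_one]
    exact h1.norm_le h3

theorem flat_one_iff {f : V → G} {z : V} : Flat 1 f z ↔ f z = 0 ∧ HasFDerivAt f (0 : V →L[ℝ] G) z := by
  rw [hasFDerivAt_iff_isLittleO]
  refine ⟨fun h => ⟨h.eq_zero, ?_⟩, fun h => ?_⟩
  · simpa [h.eq_zero, Flat] using h
  · simpa [h.1, Flat] using h.2

end Vale.Agent.P207Z.Lim
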