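import Vale.Agent.P207Z.Real.Slc

/-!
# P207 REAL: potentials of almost closed forms along the slices
-/

set_option linter.all false

open Set Filter Topology Metric
open scoped ContDiff

noncomputable section

namespace Vale.Agent.P207Z

open Vale.Agent.P207.N3 (JC idom)

variable {A W G : Type} [NormedAddCommGroup A] [NormedSpace ℝ A] [FiniteDimensional ℝ A]
  [NormedAddCommGroup W] [NormedSpace ℝ W] [FiniteDimensional ℝ W]
  [NormedAddCommGroup G] [NormedSpace ℝ G]

/-- an almost closed form which kills the radial field is flat -/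
theorem flat_of_euler {k : ℕ} {h : W → W →L[ℝ] G} (hd : ∀ᶠ x in 𝓝 (0 : W), DifferentiableAt ℝ h x)
    (h0 : ∀ᶠ x in 𝓝 (0 : W), h x x = 0)
    (hc : ∀ e e', Flat k (fun x => fderiv ℝ h x e' e - fderiv ℝ h x e e') 0) :
    Flat (k + 1) h 0 := by
  have hc' : Flat k (fun x => (fderiv ℝ h x).flip - fderiv ℝ h x) 0 :=
    flat_clm_iff.2 fun e => flat_clm_iff.2 fun e' => hc e e'
  have h1 : ∀ᶠ x in 𝓝 (0 : W), ∀ v, fderiv ℝ h x v x + h x v = 0 := by
    filter_upwards [hd, h0.eventually_nhds] with x hx h2 v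
    have h3 := (hx.hasFDerivAt.clm_apply (hasFDerivAt_id x)).fderiv
    have h4 : (fun y => h y (id y)) =ᶠ[𝓝 x] fun _ => 0 := h2
    rw [h4.fderiv_eq, fderiv_fun_const] at h3
    have h5 := congrArg (fun L : W →L[ℝ] G => L v) h3
    simp only [Pi.zero_apply, ContinuousLinearMap.zero_apply, ContinuousLinearMap.add_apply,
      ContinuousLinearMap.comp_apply, ContinuousLinearMap.id_apply, ContinuousLinearMap.flip_apply,
      id] at h5
    rw [add_comm]
    exact h5.symm
  refine Asymptotics.isLittleO_iff.2 fun c hc0 => ?_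
  obtain ⟨r, hr, hb⟩ := Metric.eventually_nhds_iff_ball.1
    (hd.and (h1.and (Asymptotics.isLittleO_iff.1 hc' hc0)))
  filter_upwards [ball_mem_nhds (0 : W) hr] with x hx
  rw [sub_zero, Real.norm_of_nonneg (by positivity)]
  refine ContinuousLinearMap.opNorm_le_bound _ (by positivity) fun v => ?_
  have hm : ∀ t ∈ Icc (0 : ℝ) 1, ‖t • x‖ ≤ ‖x‖ := fun t ht => by
    rw [norm_smul, Real.norm_of_nonneg ht.1]
    exact mul_le_of_le_one_left (norm_nonneg _) ht.2
  have hm' : ∀ t ∈ Icc (0 : ℝ) 1, t • x ∈ ball (0 : W) r := fun t ht =>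
    mem_ball_zero_iff.2 ((hm t ht).trans_lt (mem_ball_zero_iff.1 hx))
  have key := norm_image_sub_le_of_norm_deriv_le_segment_01' (f := fun t : ℝ => t • h (t • x) v)
    (f' := fun t => fderiv ℝ h (t • x) (t • x) v - fderiv ℝ h (t • x) v (t • x))
    (C := c * ‖x‖ ^ (k + 1) * ‖v‖) (fun t ht => ?_) fun t ht => ?_
  · simpa using key
  · obtain ⟨k1, k2, -⟩ := hb _ (hm' t ht)
    have k3 : HasDerivAt (fun t : ℝ => t • x) x t := by simpa using (hasDerivAt_id t).smul_const x
    have k6 : HasDerivAt (fun t : ℝ => h (t • x) v) (fderiv ℝ h (t • x) x v) t := by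
      simpa using (HasFDerivAt.comp_hasDerivAt (f := fun t : ℝ => t • x) t k1.hasFDerivAt
        k3).clm_apply (hasDerivAt_const t v)
    have k4 : HasDerivAt (fun t : ℝ => t • h (t • x) v)
        (t • fderiv ℝ h (t • x) x v + (1 : ℝ) • h (t • x) v) t := (hasDerivAt_id t).smul k6
    refine (k4.congr_deriv ?_).hasDerivWithinAt
    rw [sub_eq_add_neg, neg_eq_of_add_eq_zero_right (k2 v), one_smul, map_smul,
      ContinuousLinearMap.smul_apply]
  · have ht' := Ico_subset_Icc_self ht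
    obtain ⟨-, -, k3⟩ := hb _ (hm' t ht')
    rw [sub_zero, Real.norm_of_nonneg (by positivity)] at k3
    have k4 := ((fderiv ℝ h (t • x)).flip - fderiv ℝ h (t • x)).le_of_opNorm₂_le_of_le k3
      (le_refl ‖v‖) (hm t ht')
    refine k4.trans ?_
    rw [pow_succ]
    have k5 := pow_le_pow_left₀ (norm_nonneg _) (hm t ht') k
    calc _ ≤ c * ‖x‖ ^ k * ‖v‖ * ‖x‖ := by gcongr
      _ = _ := by ring

/-- **the radial potential** -/
theorem exists_pot [CompleteSpace G] {α : A × W → W →L[ℝ] G}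
    (hα : ∀ᶠ p in 𝓝 (0 : A × W), ContDiffAt ℝ ∞ α p) :
    ∃ σ : A × W → G, (∀ᶠ p in 𝓝 (0 : A × W), ContDiffAt ℝ ∞ σ p) ∧ (∀ y, σ (y, 0) = 0) ∧
      ∀ᶠ y in 𝓝 (0 : A), ∀ k, (∀ e e', Flat k (fun p => fderiv ℝ α p (0, e') e
        - fderiv ℝ α p (0, e) e') (y, 0)) →
        Flat (k + 1) (fun x => fderiv ℝ (fun s => σ (y, s)) x - α (y, x)) 0 := by
  obtain ⟨O, hO, ho, h0⟩ := _root_.eventually_nhds_iff.1 hα
  obtain ⟨r, hr, hb⟩ := Metric.isOpen_iff.1 ho 0 h0
  have hc : Continuous fun u : ℝ × (A × W) => ((u.2.1, u.1 • u.2.2) : A × W) := by fun_prop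
  have hJ : JC (fun (t : ℝ) (p : A × W) => α (p.1, t • p.2) p.2)
      {u | ((u.2.1, u.1 • u.2.2) : A × W) ∈ O} :=
    JC.of_uncurry (ho.preimage hc) fun u hu => (((hO _ hu).comp u
      (f := fun u : ℝ × (A × W) => ((u.2.1, u.1 • u.2.2) : A × W)) (by fun_prop)).clm_apply
        (by fun_prop)).contDiffWithinAt
  have hI := (hJ.pullback (c := fun z : Unit × ℝ => z.2) continuous_snd).integral (a := 0) (b := 1)
  have hin : ∀ p ∈ ball (0 : A × W) r, ∀ t ∈ Icc (0 : ℝ) 1, ((p.1, t • p.2) : A × W) ∈ O :=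
    fun p hp t ht => hb (mem_ball_zero_iff.2 (lt_of_le_of_lt (max_le_max le_rfl (by
      rw [norm_smul, Real.norm_of_nonneg ht.1]
      exact mul_le_of_le_one_left (norm_nonneg _) ht.2)) (mem_ball_zero_iff.1 hp)))
  have hσ : ∀ p ∈ ball (0 : A × W) r,
      ContDiffAt ℝ ∞ (fun p : A × W => ∫ t in (0 : ℝ)..1, α (p.1, t • p.2) p.2) p := fun p hp =>
    hI.contDiffAt (p := ((), p)) fun t ht => hin p hp t (by rwa [uIcc_of_le zero_le_one] at ht)
  refine ⟨fun p => ∫ t in (0 : ℝ)..1, α (p.1, t • p.2) p.2,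
    Filter.mem_of_superset (ball_mem_nhds _ hr) hσ, fun y => by simp, ?_⟩
  filter_upwards [ball_mem_nhds (0 : A) hr] with y hy k hcl
  have hs : ∀ᶠ x in 𝓝 (0 : W), ((y, x) : A × W) ∈ ball (0 : A × W) r :=
    (Continuous.prodMk_right y).continuousAt.eventually_mem
      (isOpen_ball.mem_nhds (by simpa using hy))
  set s : W → G := fun x => ∫ t in (0 : ℝ)..1, α (y, t • x) x with hsd
  have s1 : ∀ x, ((y, x) : A × W) ∈ ball (0 : A × W) r → ContDiffAt ℝ ∞ s x := fun x hx =>
    (hσ _ hx).comp x (f := fun x : W => ((y, x) : A × W)) (by fun_prop)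
  have w0 : ∀ x, ((y, x) : A × W) ∈ O → DifferentiableAt ℝ α (y, x) := fun x hx =>
    (hO _ hx).differentiableAt (by simp)
  have w1 : ∀ x, ((y, x) : A × W) ∈ O → DifferentiableAt ℝ (fun x => α (y, x)) x := fun x hx =>
    (w0 x hx).comp x (f := fun x : W => ((y, x) : A × W)) (by fun_prop)
  have s2 : ∀ x, ((y, x) : A × W) ∈ ball (0 : A × W) r → DifferentiableAt ℝ (fderiv ℝ s) x :=
    fun x hx => ((s1 x hx).fderiv_right (m := 1) (WithTop.coe_le_coe.2 le_top)).differentiableAt
      (by simp)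
  refine flat_of_euler (h := fun x => fderiv ℝ s x - α (y, x)) ?_ ?_ fun e e' => ?_
  · filter_upwards [hs] with x hx
    exact (s2 x hx).sub (w1 x (hb hx))
  · filter_upwards [hs] with x hx
    have k1 : HasDerivAt (fun t : ℝ => t • x) x 1 := by
      simpa using (hasDerivAt_id (1 : ℝ)).smul_const x
    have k2 : HasDerivAt (fun t : ℝ => s (t • x)) (fderiv ℝ s x x) 1 :=
      HasFDerivAt.comp_hasDerivAt_of_eq 1 ((s1 x hx).differentiableAt (by simp)).hasFDerivAt k1
        (by simp)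
    have k3 : (fun t : ℝ => s (t • x)) = fun t => ∫ u in (0 : ℝ)..t, α (y, u • x) x := by
      funext t
      have := intervalIntegral.smul_integral_comp_mul_right (a := 0) (b := 1)
        (fun u : ℝ => α (y, u • x) x) t
      rw [zero_mul, one_mul] at this
      rw [← this, hsd, ← intervalIntegral.integral_smul]
      simp only [map_smul, smul_smul]
    have k4 : ∀ t, ((y, t • x) : A × W) ∈ O → ContinuousAt (fun u : ℝ => α (y, u • x) x) t :=
      fun t ht => ((w0 _ ht).continuousAt.comp (f := fun u : ℝ => ((y, u • x) : A × W))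
        (by fun_prop)).clm_apply continuousAt_const
    have k5 : IsOpen {t : ℝ | ((y, t • x) : A × W) ∈ O} := ho.preimage (by fun_prop)
    have k6 := hin _ hx 1 ⟨zero_le_one, le_rfl⟩
    have k7 := intervalIntegral.integral_hasDerivAt_right (a := 0)
      (ContinuousOn.intervalIntegrable_of_Icc zero_le_one
        fun t ht => (k4 t (hin _ hx t ht)).continuousWithinAt)
      (ContinuousAt.stronglyMeasurableAtFilter k5 k4 1 k6) (k4 1 k6)
    rw [k3] at k2
    rw [ContinuousLinearMap.sub_apply, k2.unique k7, one_smul, sub_self]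
  · refine ((hcl e e').slice.neg).congr ?_
    filter_upwards [hs] with x hx
    have k1 := ((s1 x hx).isSymmSndFDerivAt (by
      rw [minSmoothness_of_isRCLikeNormedField]; exact WithTop.coe_le_coe.2 le_top)).eq e' e
    rw [fderiv_fun_sub (s2 x hx) (w1 x (hb hx))]
    have k2 := fun v => fderiv_slice (g := α) (p := (y, x)) (w0 x (hb hx)) v
    simp only [ContinuousLinearMap.sub_apply, k1, k2]
    abel

end Vale.Agent.P207Z
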